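import Vale.Agent.P137.Unc.Layers

/-!
# P137: the variation of a finite uncentred maximal function
-/

namespace Vale.Agent.P137

open MeasureTheory Set Metric Filter
open scoped ENNReal NNReal Topology RealInnerProductSpace

noncomputable section

variable {d : ℕ}

/-- The successors of the balls in `s`. -/
def succSet (N : Finset (Eu d)) (s : Finset (Eu d × ℝ)) : Finset (Eu d × ℝ) := by
  classical
  exact (s ×ˢ N).image fun x => succBall x.2 x.1

/-- A successor qualifies at `l` if it is active and dense there. -/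
def Qualified (f : Eu d → ℝ) (θ : ℝ) (b : Eu d × ℝ) (l : ℝ) : Prop :=
  ENNReal.ofReal l < avgF f b ∧ θ ≤ dens (lev f l) b.1 b.2

/-- The super-level sets that are bounded. -/
def coverSet (f : Eu d → ℝ) (θ : ℝ) (N : Finset (Eu d)) (s : Finset (Eu d × ℝ)) (l : ℝ) :
    Set (Eu d) :=
  lev f l ∪ activeUnion (succSet N s) (Qualified f θ) l
    ∪ activeUnion s (fun b l => ENNReal.ofReal l < avgF f b) l

/-- The index of the dyadic scale of a radius. -/
def scaleIdx (ρ : ℝ) : ℤ := Int.log 2 ρ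

theorem scaleIdx_spec {ρ : ℝ} (hρ : 0 < ρ) :
    scale (scaleIdx ρ) ≤ ρ ∧ ρ < 2 * scale (scaleIdx ρ) := by
  rw [← scale_succ]
  constructor
  · simpa [scale, scaleIdx] using Int.zpow_log_le_self (b := 2) one_lt_two hρ
  · simpa [scale, scaleIdx] using Int.lt_zpow_succ_log_self (b := 2) one_lt_two ρ

theorem measurableSet_active (f : Eu d → ℝ) (b : Eu d × ℝ) :
    MeasurableSet {l : ℝ | ENNReal.ofReal l < avgF f b} :=
  measurableSet_lt ENNReal.measurable_ofReal measurable_const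

theorem measurableSet_qualified (f : Eu d → ℝ) (θ : ℝ) (b : Eu d × ℝ) :
    MeasurableSet {l : ℝ | Qualified f θ b l} :=
  (measurableSet_active f b).inter (measurableSet_le measurable_const (measurable_dens_lev f _ _))

theorem measurableSet_stuck (f : Eu d → ℝ) (θ : ℝ) (N : Finset (Eu d)) (b : Eu d × ℝ) :
    MeasurableSet {l : ℝ | Stuck f θ N b l} := by
  have e : {l : ℝ | Stuck f θ N b l} = {l : ℝ | ENNReal.ofReal l < avgF f b}
      ∩ ⋂ e ∈ N, ({l : ℝ | ENNReal.ofReal l < avgF f (succBall e b)}ᶜ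
        ∪ {l | dens (lev f l) (succBall e b).1 (succBall e b).2 < θ}) := by
    ext l
    simp only [Stuck, mem_ofPred_eq, mem_inter_iff, mem_iInter, Set.mem_union, mem_compl_iff,
      imp_iff_not_or]
  rw [e]
  exact (measurableSet_active f b).inter (MeasurableSet.biInter N.countable_toSet fun e _ =>
    (measurableSet_active f _).compl.union
      (measurableSet_lt (measurable_dens_lev f _ _) measurable_const))

/-- A ball overlaps its successor. -/
theorem succ_overlap {e : Eu d} (he : ‖e‖ = 1) {b : Eu d × ℝ} (hb : 0 < b.2) :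
    gain d * volume.real (ball b.1 b.2)
      ≤ volume.real (ball (succBall e b).1 (succBall e b).2 ∩ ball b.1 b.2) := by
  set k := b.1 + (1 / 2 * b.2) • e
  have hk : ball k (b.2 / 10) ⊆ ball (succBall e b).1 (succBall e b).2 ∩ ball b.1 b.2 := by
    refine subset_inter (ball_subset_ball' ?_) (ball_subset_ball' ?_)
    · simp only [succBall, k]
      rw [dist_add_left, dist_eq_norm, ← sub_smul, norm_smul, he, mul_one, Real.norm_eq_abs,
        abs_of_nonpos (by linarith)]
      linarith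
    · simp only [k]
      rw [dist_self_add_left, norm_smul, he, mul_one, Real.norm_eq_abs, abs_of_pos (by positivity)]
      linarith
  refine le_trans ?_ (measureReal_mono hk (ne_top_of_le_ne_top measure_ball_lt_top.ne
    (measure_mono inter_subset_right)))
  rw [ball_real k (by positivity), ball_real b.1 hb, ← mul_assoc, gain, ← mul_pow]
  exact mul_le_mul_of_nonneg_right (pow_le_pow_left₀ (by positivity) (by linarith) d)
    measureReal_nonneg

/-- Few disjointly owning balls of one scale are near a point. -/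
theorem count_near {F : Finset (Eu d × ℝ)} {Q : Eu d × ℝ → Set (Eu d)} {θ : ℝ} (hθ : θ ≤ 1 / 2)
    (hdisj : (F : Set (Eu d × ℝ)).PairwiseDisjoint Q)
    (hQ : ∀ b ∈ F, MeasurableSet (Q b) ∧ Q b ⊆ ball b.1 b.2 ∧
      (1 - θ) * volume.real (ball b.1 b.2) ≤ volume.real (Q b)) (z : Eu d) {r : ℝ} (hr : 0 < r)
    (Fz : Finset (Eu d × ℝ)) (hFz : Fz ⊆ F) (hnear : ∀ b ∈ Fz, NearBall z r b) :
    (Fz.card : ℝ) ≤ 2 * 3 ^ d := by
  have hω := unit_ball_pos d
  have hsub : ⋃ b ∈ Fz, Q b ⊆ ball z (3 * r) := iUnion₂_subset fun b hb =>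
    (hQ b (hFz hb)).2.1.trans (ball_subset_ball' (by linarith [(hnear b hb).1, (hnear b hb).2.2]))
  have h1 := measureReal_biUnion_finset (μ := volume) (hdisj.subset (Finset.coe_subset.2 hFz))
    (fun b hb => (hQ b (hFz hb)).1) (fun b hb => ne_top_of_le_ne_top measure_ball_lt_top.ne
      (measure_mono (hQ b (hFz hb)).2.1))
  have h2 : (Fz.card : ℝ) * (r ^ d * volume.real (ball (0 : Eu d) 1) / 2)
      ≤ ∑ b ∈ Fz, volume.real (Q b) := by
    rw [← nsmul_eq_mul]
    refine Finset.card_nsmul_le_sum _ _ _ fun b hb => le_trans ?_ (hQ b (hFz hb)).2.2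
    rw [ball_real b.1 (hr.trans_le (hnear b hb).2.1)]
    nlinarith [mul_le_mul_of_nonneg_right (pow_le_pow_left₀ hr.le (hnear b hb).2.1 d) hω.le,
      mul_nonneg (sub_nonneg.2 hθ) (mul_nonneg (pow_nonneg (hr.trans_le (hnear b hb).2.1).le d) hω.le)]
  rw [← h1] at h2
  have h3 := h2.trans (measureReal_mono hsub measure_ball_lt_top.ne)
  rw [ball_real z (by positivity : 0 < 3 * r), mul_pow] at h3
  nlinarith [mul_pos (pow_pos hr d) hω]

/-- **The surface cost of the selected balls.** -/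
theorem selected_cost {F : Finset (Eu d × ℝ)} {Q : Eu d × ℝ → Set (Eu d)} {θ : ℝ} (hθ : θ ≤ 1 / 2)
    (hdisj : (F : Set (Eu d × ℝ)).PairwiseDisjoint Q)
    (hQ : ∀ b ∈ F, MeasurableSet (Q b) ∧ Q b ⊆ ball b.1 b.2 ∧
      (1 - θ) * volume.real (ball b.1 b.2) ≤ volume.real (Q b)) (hpos : ∀ b ∈ F, 0 < b.2)
    (ks : Finset ℤ) (hks : ∀ b ∈ F, scaleIdx b.2 ∈ ks) :
    ∑ b ∈ F, ENNReal.ofReal (2 ^ d * volume.real (ball b.1 b.2) / b.2)
      ≤ ∑ k ∈ ks, ENNReal.ofReal (32 ^ d * 2) * (ENNReal.ofReal (scale k))⁻¹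
          * (ENNReal.ofReal (3 ^ d) * volume {z | ∃ b ∈ F, NearBall z (scale k) b}) := by
  classical
  rw [← Finset.sum_fiberwise_of_maps_to (g := fun b : Eu d × ℝ => scaleIdx b.2) hks]
  refine Finset.sum_le_sum fun k _ => ?_
  set r := scale k
  have hr : 0 < r := scale_pos k
  set Fk := F.filter fun b => scaleIdx b.2 = k
  have hb' : ∀ b ∈ Fk, b ∈ F ∧ r ≤ b.2 ∧ b.2 < 2 * r := fun b hb => by
    obtain ⟨hbF, hk⟩ := Finset.mem_filter.1 hb
    have h := scaleIdx_spec (hpos b hbF)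
    rw [hk] at h
    exact ⟨hbF, h.1, h.2⟩
  set Z := {z | ∃ b ∈ F, NearBall z r b}
  have hZm : MeasurableSet Z := by
    have : Z = ⋃ b ∈ F.filter (fun b => r ≤ b.2 ∧ b.2 < 2 * r), ball b.1 (r / 4) := by
      ext z
      simp only [Z, NearBall, mem_ofPred_eq, mem_iUnion, Finset.mem_filter, exists_prop, mem_ball,
        dist_comm z]
      exact ⟨fun ⟨b, hb, h1, h2, h3⟩ => ⟨b, ⟨hb, h2, h3⟩, h1⟩,
        fun ⟨b, ⟨hb, h2, h3⟩, h1⟩ => ⟨b, hb, h1, h2, h3⟩⟩
    rw [this]
    exact MeasurableSet.biUnion (Finset.countable_toSet _) fun b _ => measurableSet_ball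
  have h1 : ∑ b ∈ Fk, volume (ball b.1 (r / 4)) ≤ ENNReal.ofReal (2 * 3 ^ d) * volume Z := by
    rw [← lintegral_indicator_const hZm, ← Finset.sum_congr rfl fun b _ =>
      lintegral_indicator_one (μ := volume) (measurableSet_ball (x := b.1) (ε := r / 4)),
      ← lintegral_finsetSum _ fun b _ => measurable_one.indicator measurableSet_ball]
    refine lintegral_mono fun z => ?_
    set Fz := Fk.filter fun b => z ∈ ball b.1 (r / 4)
    have hnear : ∀ b ∈ Fz, NearBall z r b := fun b hb => by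
      obtain ⟨hbk, hz⟩ := Finset.mem_filter.1 hb
      exact ⟨by rwa [dist_comm], (hb' b hbk).2.1, (hb' b hbk).2.2⟩
    have e : ∑ b ∈ Fk, (ball b.1 (r / 4)).indicator (1 : Eu d → ℝ≥0∞) z = (Fz.card : ℝ≥0∞) := by
      rw [Finset.sum_congr rfl fun b _ => show (ball b.1 (r / 4)).indicator (1 : Eu d → ℝ≥0∞) z
          = if z ∈ ball b.1 (r / 4) then 1 else 0 by simp [indicator],
        Finset.sum_boole]
    rw [e]
    rcases Fz.eq_empty_or_nonempty with h0 | ⟨b, hb⟩
    · simp [h0]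
    rw [indicator_of_mem (show z ∈ Z from
      ⟨b, (hb' b (Finset.mem_filter.1 hb).1).1, hnear b hb⟩), ← ENNReal.ofReal_natCast]
    exact ENNReal.ofReal_le_ofReal (count_near hθ hdisj hQ z hr Fz
      (fun b hb => (hb' b (Finset.mem_filter.1 hb).1).1) hnear)
  calc ∑ b ∈ Fk, ENNReal.ofReal (2 ^ d * volume.real (ball b.1 b.2) / b.2)
      ≤ ∑ b ∈ Fk, ENNReal.ofReal (32 ^ d) * (ENNReal.ofReal r)⁻¹ * volume (ball b.1 (r / 4)) := by
        refine Finset.sum_le_sum fun b hb => ?_
        obtain ⟨hbF, h1, h2⟩ := hb' b hb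
        rw [← ENNReal.ofReal_toReal (measure_ball_lt_top (μ := volume) (x := b.1) (r := r / 4)).ne,
          ← ENNReal.ofReal_inv_of_pos hr, ← ENNReal.ofReal_mul (by positivity),
          ← ENNReal.ofReal_mul (by positivity), ← measureReal_def, ball_real b.1 (hpos b hbF),
          ball_real b.1 (by positivity : 0 < r / 4)]
        refine ENNReal.ofReal_le_ofReal ?_
        have hω := unit_ball_pos d
        calc 2 ^ d * (b.2 ^ d * volume.real (ball (0 : Eu d) 1)) / b.2
            ≤ 2 ^ d * ((2 * r) ^ d * volume.real (ball (0 : Eu d) 1)) / r := by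
              refine div_le_div₀ (by positivity) ?_ hr h1
              gcongr
              exact (hpos b hbF).le
          _ ≤ _ := by
              rw [mul_pow, div_pow, show (32 : ℝ) ^ d = 8 ^ d * 4 ^ d by rw [← mul_pow]; norm_num,
                show 2 ^ d * (2 ^ d * r ^ d * volume.real (ball (0 : Eu d) 1)) / r
                  = 4 ^ d * (r ^ d * volume.real (ball (0 : Eu d) 1) / r) by
                  rw [show (4 : ℝ) ^ d = 2 ^ d * 2 ^ d by rw [← mul_pow]; norm_num]
                  ring]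
              refine (mul_le_mul_of_nonneg_right (pow_le_pow_left₀ (by norm_num) (by norm_num) d)
                (by positivity)).trans (le_of_eq (b := _) (a := (8 : ℝ) ^ d * _) ?_)
              field_simp
    _ = ENNReal.ofReal (32 ^ d) * (ENNReal.ofReal r)⁻¹ * ∑ b ∈ Fk, volume (ball b.1 (r / 4)) :=
        (Finset.mul_sum _ _ _).symm
    _ ≤ _ := by
        refine (mul_le_mul' le_rfl h1).trans (le_of_eq ?_)
        rw [ENNReal.ofReal_mul (by positivity : (0:ℝ) ≤ 32 ^ d), ENNReal.ofReal_mul (by norm_num : (0:ℝ) ≤ 2)]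
        ring

theorem mem_nbhd {A : Set (Eu d)} {R : ℝ} (hR : 0 ≤ R) {a : ℝ} (ha : 0 ≤ a) {y z : Eu d}
    (hy : y ∈ cthickening a A) (hz : dist z y ≤ R) : z ∈ cthickening (R + a) A :=
  cthickening_cthickening_subset hR ha A (mem_cthickening_of_dist_le z y R _ hy hz)

/-- **The main bound.** -/
theorem cover_bound (d : ℕ) (hd : 0 < d) :
    ∃ (N : Finset (Eu d)) (θ L κ W : ℝ) (C : ℝ≥0∞), 0 < θ ∧ 0 < L ∧ 0 < κ ∧ κ ≤ 1 ∧ 0 ≤ W ∧ C ≠ ⊤ ∧
      ∀ (f : Eu d → ℝ), Measurable f → (∀ x, 0 ≤ f x) →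
      (∀ b : Eu d × ℝ, 0 < b.2 → avgF f b ≠ ⊤) →
      ∀ (s : Finset (Eu d × ℝ)) (ρ0 ρ1 : ℝ), 0 < ρ0 → (∀ b ∈ s, ρ0 ≤ b.2 ∧ b.2 ≤ ρ1) →
      ρ0 ≤ ρ1 → ∀ (A : Set (Eu d)), MeasurableSet A → ∀ X : ℝ≥0∞,
      (∀ h : Eu d, ‖h‖ ≤ ρ0 → ∫⁻ y in cthickening (W * ρ1) A, ‖f (y + h) - f y‖ₑ ≤ X * ‖h‖ₑ) →
      JumpBd (coverSet f θ N s) A (κ * ρ0)
        (C * (X + ∑ k ∈ s.image (fun b => scaleIdx b.2), scaleMass f L k)) := by
  classical
  obtain ⟨N, L, θ, Cs, hN, hL, hθ, hθg, hCs, hstuck⟩ := stuck_length d hd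
  obtain ⟨Cg, hCg, κg, hκg, hκg1, hgrow⟩ := jumpBd_grow d hd hθ
  have hg2 : gain d ≤ 1 / 2 := (pow_le_of_le_one (by norm_num) (by norm_num) hd.ne').trans (by norm_num)
  set cS := ENNReal.ofReal (32 ^ d * 2) * ENNReal.ofReal (3 ^ d) * Cs * volume (ball (0 : Eu d) L)
  obtain ⟨Cgr, hCgr, κr, hκr, hκr1, hgr⟩ := growth d hd hθ
  set V := volume (ball (0 : Eu d) 3)
  refine ⟨N, θ, L, min κg κr / 27, 1440, (1 + Cgr * (3 * V)) * (Cg * Cg + cS), hθ, hL,
    by positivity, by linarith [min_le_left κg κr], by norm_num,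
    by finiteness [(measure_ball_lt_top : volume (ball (0 : Eu d) L) < ⊤).ne,
      (measure_ball_lt_top : volume (ball (0 : Eu d) 3) < ⊤).ne],
    fun f hf h0 hfin s ρ0 ρ1 hρ0 hs h01 A hA X hX => ?_⟩
  set ks := s.image fun b => scaleIdx b.2
  set S := ∑ k ∈ ks, scaleMass f L k
  set R := 12 * (40 * ρ1)
  have hρ1 : 0 < ρ1 := hρ0.trans_le h01
  have hR : 0 ≤ R := by positivity
  set A1 := cthickening R A
  set A2 := cthickening (R + R) A
  set A3 := cthickening (R + (R + R)) A
  have hmA : ∀ a, MeasurableSet (cthickening a A : Set (Eu d)) :=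
    fun a => isClosed_cthickening.measurableSet
  set κ0 := min κg κr / 27 * ρ0
  have hκ27 : 27 * κ0 ≤ κg * ρ0 := by
    simp only [κ0]; nlinarith [mul_le_mul_of_nonneg_right (min_le_left κg κr) hρ0.le]
  have hκ27' : 27 * κ0 ≤ κr * ρ0 := by
    simp only [κ0]; nlinarith [mul_le_mul_of_nonneg_right (min_le_right κg κr) hρ0.le]
  have hκρ : 27 * κ0 ≤ ρ0 := hκ27.trans (mul_le_of_le_one_left hρ0.le hκg1)
  have hκ00 : 0 ≤ κ0 := by positivity
  have hκ0 : 9 * κ0 ≤ κg * ρ0 := by linarith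
  set U1 := fun l => lev f l ∪ activeUnion (succSet N s) (Qualified f θ) l with hU1
  set cov : Eu d × ℝ → ℝ → Prop := fun b l => ENNReal.ofReal l < avgF f b ∧ ¬ Stuck f θ N b l
  set U2 := fun l => U1 l ∪ activeUnion s cov l with hU2
  have hlevm : MeasurableSet {q : ℝ × Eu d | q.2 ∈ lev f q.1} := measurableSet_lev_prod hf
  have hU1m : MeasurableSet {q : ℝ × Eu d | q.2 ∈ U1 q.1} :=
    hlevm.union (measurableSet_activeUnion_prod fun b _ => measurableSet_qualified f θ b)
  have hU2m : MeasurableSet {q : ℝ × Eu d | q.2 ∈ U2 q.1} :=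
    hU1m.union (measurableSet_activeUnion_prod fun b _ =>
      (measurableSet_active f b).inter (measurableSet_stuck f θ N b).compl)
  have hsucc : ∀ b ∈ succSet N s, ρ0 ≤ b.2 ∧ b.2 ≤ 40 * ρ1 := by
    intro b hb
    obtain ⟨⟨b0, e⟩, hm, rfl⟩ := Finset.mem_image.1 hb
    obtain ⟨hb0, -⟩ := Finset.mem_product.1 hm
    simp only [succBall]
    exact ⟨by linarith [(hs b0 hb0).1], by linarith [(hs b0 hb0).2]⟩
  have hlev : JumpBd (lev f) A3 ρ0 X := by
    intro h hh
    have hW : A3 ⊆ cthickening (1440 * ρ1) A :=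
      cthickening_mono (le_of_eq (by simp only [R]; ring)) A
    refine le_trans ?_ ((lintegral_mono_set hW).trans (hX h hh))
    set T := {q : ℝ × Eu d | q.2 ∈ A3 ∧ q.2 ∉ lev f q.1 ∧ q.2 + h ∈ lev f q.1}
    have hT : MeasurableSet T := (measurable_snd (hmA _)).inter (hlevm.compl.inter
      (measurableSet_lev_comp hf measurable_fst (measurable_snd.add_const h)))
    calc ∫⁻ l in Ioi (0 : ℝ), jump A3 (lev f l) h
        = ((volume.restrict (Ioi (0 : ℝ))).prod volume) T := (Measure.prod_apply hT).symm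
      _ = ∫⁻ y, (volume.restrict (Ioi (0 : ℝ))) ((fun μ => (μ, y)) ⁻¹' T) :=
          Measure.prod_apply_symm hT
      _ ≤ ∫⁻ y, A3.indicator (fun y => ‖f (y + h) - f y‖ₑ) y := by
          refine lintegral_mono fun y => ?_
          by_cases hy : y ∈ A3
          · rw [indicator_of_mem hy, Real.enorm_eq_ofReal_abs]
            refine le_trans ?_ (ENNReal.ofReal_le_ofReal (le_abs_self _))
            rw [← Real.volume_Ico]
            refine (Measure.restrict_apply_le _ _).trans (measure_mono fun μ hμ => ?_)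
            exact ⟨not_lt.1 hμ.2.1, hμ.2.2⟩
          · rw [indicator_of_notMem hy, show (fun μ : ℝ => (μ, y)) ⁻¹' T = ∅ by ext μ; simp [T, hy],
              measure_empty]
      _ = _ := lintegral_indicator (hmA _) _
  have hb1 : JumpBd U1 A2 (9 * κ0) (Cg * X) :=
    hgrow (lev f) hlevm (succSet N s) (Qualified f θ) ρ0 (40 * ρ1) hρ0 hsucc
      (fun l _ b hb hq => by
        have hb2 : 0 < b.2 := hρ0.trans_le (hsucc b hb).1
        have h := mul_le_mul_of_nonneg_right hq.2 (measureReal_nonneg (μ := volume) (s := ball b.1 b.2))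
        rwa [dens, div_mul_cancel₀ _ (ball_real_pos b.1 hb2).ne'] at h)
      A2 A3 (hmA _) (hmA _) (cthickening_mono (by linarith) A)
      (fun y hy z hz => mem_nbhd hR (by linarith) hy hz) _ X hκ0
      (fun h hh => hlev h (hh.trans (by linarith [mul_le_of_le_one_left hρ0.le hκg1])))
  have hb2 : JumpBd U2 A1 (3 * κ0) (Cg * (Cg * X)) := by
    refine hgrow U1 hU1m s cov ρ0 (40 * ρ1) hρ0 (fun b hb => ⟨(hs b hb).1, by
      linarith [(hs b hb).2]⟩) (fun l _ b hb hp => ?_) A1 A2 (hmA _) (hmA _)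
      (cthickening_mono (by linarith) A) (fun y hy z hz => mem_nbhd hR hR hy hz) _ _ (by linarith)
      (by rw [← mul_assoc]; norm_num; exact hb1)
    obtain ⟨hact, hns⟩ := hp
    simp only [Stuck, not_and, not_forall, not_lt] at hns
    obtain ⟨e, he, ha, hd'⟩ := hns hact
    have hb0 : 0 < b.2 := hρ0.trans_le (hs b hb).1
    refine ((mul_le_mul_of_nonneg_right hθg measureReal_nonneg).trans
      (succ_overlap (hN e he) hb0)).trans (measureReal_mono (inter_subset_inter_left _ ?_)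
      (ne_top_of_le_ne_top measure_ball_lt_top.ne (measure_mono inter_subset_right)))
    intro y hy
    exact Or.inr ⟨succBall e b, Finset.mem_image.2 ⟨(b, e), Finset.mem_product.2 ⟨hb, he⟩, rfl⟩,
      ⟨ha, hd'⟩, hy⟩
  set cyl : ℤ → Set (ℝ × Eu d) := fun k =>
    {q | ∃ b ∈ s, Stuck f θ N b q.1 ∧ NearBall q.2 (scale k) b}
  have hcylm : ∀ k, MeasurableSet (cyl k) := by
    intro k
    have e : cyl k = ⋃ b ∈ s, {l | Stuck f θ N b l} ×ˢ {z | NearBall z (scale k) b} := by
      ext q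
      simp only [cyl, mem_ofPred_eq, mem_iUnion, exists_prop, mem_prod]
    rw [e]
    refine MeasurableSet.biUnion s.countable_toSet fun b _ =>
      (measurableSet_stuck f θ N b).prod ?_
    exact (isOpen_lt (continuous_const.dist continuous_id) continuous_const).measurableSet.inter
      (MeasurableSet.const _)
  set Φ : ℝ → ℝ≥0∞ := fun l => ∑ k ∈ ks, ENNReal.ofReal (32 ^ d * 2) * (ENNReal.ofReal (scale k))⁻¹
    * (ENNReal.ofReal (3 ^ d) * volume (Prod.mk l ⁻¹' cyl k))
  have hΦm : Measurable Φ := Finset.measurable_sum ks fun k _ =>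
    ((measurable_measure_prodMk_left (hcylm k)).const_mul _).const_mul _
  have hΦ : ∫⁻ l in Ioi (0 : ℝ), Φ l ≤ cS * S := by
    simp only [Φ]
    rw [lintegral_finsetSum _ fun k _ =>
      ((measurable_measure_prodMk_left (hcylm k)).const_mul _).const_mul _, Finset.mul_sum]
    refine Finset.sum_le_sum fun k _ => ?_
    rw [lintegral_const_mul _ ((measurable_measure_prodMk_left (hcylm k)).const_mul _),
      lintegral_const_mul _ (measurable_measure_prodMk_left (hcylm k))]
    have hz : ∫⁻ l in Ioi (0 : ℝ), volume (Prod.mk l ⁻¹' cyl k)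
        ≤ Cs * ∫⁻ z, levDefect f z (scale k) L := by
      rw [← Measure.prod_apply (hcylm k), Measure.prod_apply_symm (hcylm k),
        ← lintegral_const_mul' _ _ hCs]
      refine lintegral_mono fun z => ?_
      refine le_trans ?_ (hstuck f hf hfin z (scale k) (scale_pos k))
      rw [Measure.restrict_apply (measurable_prodMk_right (hcylm k))]
      exact measure_mono fun l hl => by
        obtain ⟨⟨b, -, hst, hnear⟩, hl0⟩ := hl
        exact ⟨hl0, b, hnear, hst⟩
    refine (mul_le_mul' le_rfl (mul_le_mul' le_rfl hz)).trans (le_of_eq ?_)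
    rw [show ENNReal.ofReal (32 ^ d * 2) * (ENNReal.ofReal (scale k))⁻¹
        * (ENNReal.ofReal (3 ^ d) * (Cs * ∫⁻ z, levDefect f z (scale k) L))
      = ENNReal.ofReal (32 ^ d * 2) * ENNReal.ofReal (3 ^ d) * Cs
        * ((ENNReal.ofReal (scale k))⁻¹ * ∫⁻ z, levDefect f z (scale k) L) by ring,
      lintegral_levDefect hf hL]
    simp only [cS]
    ring
  intro h hh
  set τ := ‖h‖
  have hτ0 : 0 ≤ τ := norm_nonneg h
  have hpt : ∀ l, jump A (coverSet f θ N s l) h
      ≤ (jump A1 (U2 l) h + Φ l * ‖h‖ₑ)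
        + Cgr * ∫⁻ v in ball (0 : Eu d) 3, (jump A1 (U2 l) (τ • v) + Φ l * (3 * ‖h‖ₑ)) := by
    intro l
    set T := s.filter fun b => Stuck f θ N b l
    obtain ⟨F, hFT, hcovF, Q, hQd, hQ⟩ := exists_selection T θ hθ.le
    have hFs : F ⊆ s := hFT.trans (Finset.filter_subset _ _)
    set G := U2 l ∪ ⋃ b ∈ F, ball b.1 b.2
    have hGm : MeasurableSet G := (measurableSet_fiber hU2m l).union
      (MeasurableSet.biUnion F.countable_toSet fun b _ => measurableSet_ball)
    have hG : ∀ (B : Set (Eu d)) (v : Eu d), ‖v‖ ≤ ρ0 →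
        jump B G v ≤ jump B (U2 l) v + Φ l * ‖v‖ₑ := by
      intro B v hv
      calc jump B G v ≤ jump B (U2 l) v
          + ∑ b ∈ F, volume {y | y ∉ ball b.1 b.2 ∧ y + v ∈ ball b.1 b.2} := by
            refine (measure_mono ?_).trans ((measure_union_le _ _).trans
              (add_le_add le_rfl (measure_biUnion_finset_le F _)))
            rintro y ⟨hyB, hy, hyv⟩
            simp only [G, Set.mem_union, mem_iUnion, exists_prop, not_or, not_exists, not_and] at hy hyv
            rcases hyv with hyv | ⟨b, hb, hyv⟩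
            · exact Or.inl ⟨hyB, hy.1, hyv⟩
            · exact Or.inr (mem_iUnion₂.2 ⟨b, hb, hy.2 b hb, hyv⟩)
        _ ≤ jump B (U2 l) v + ∑ b ∈ F, ENNReal.ofReal (2 ^ d * volume.real (ball b.1 b.2) / b.2)
              * ‖v‖ₑ := by
            refine add_le_add le_rfl (Finset.sum_le_sum fun b hb => ?_)
            exact ball_jump_le b.1 (hρ0.trans_le (hs b (hFs hb)).1) (hv.trans (hs b (hFs hb)).1)
        _ ≤ _ := by
            rw [← Finset.sum_mul]
            refine add_le_add le_rfl (mul_le_mul' ((selected_cost (hθg.trans hg2) hQd hQ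
              (fun b hb => hρ0.trans_le (hs b (hFs hb)).1) ks
              fun b hb => Finset.mem_image_of_mem _ (hFs hb)).trans ?_) le_rfl)
            refine Finset.sum_le_sum fun k _ => mul_le_mul' le_rfl (mul_le_mul' le_rfl
              (measure_mono fun z hz => ?_))
            obtain ⟨b, hb, hnear⟩ := hz
            exact ⟨b, hFs hb, (Finset.mem_filter.1 (hFT hb)).2, hnear⟩
    have e : coverSet f θ N s l = G ∪ ⋃ b ∈ T, ball b.1 b.2 := by
      ext y
      simp only [coverSet, G, hU2, hU1, cov, T, activeUnion, Set.mem_union, mem_iUnion,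
        exists_prop, Finset.mem_filter, mem_ofPred_eq]
      constructor
      · rintro (h | ⟨b, hb, hact, hy⟩)
        · exact Or.inl (Or.inl (Or.inl h))
        · by_cases hst : Stuck f θ N b l
          · exact Or.inr ⟨b, ⟨hb, hst⟩, hy⟩
          · exact Or.inl (Or.inl (Or.inr ⟨b, hb, ⟨hact, hst⟩, hy⟩))
      · rintro (((h | ⟨b, hb, ⟨hact, -⟩, hy⟩) | ⟨b, hb, hy⟩) | ⟨b, ⟨hb, hst⟩, hy⟩)
        · exact Or.inl h
        · exact Or.inr ⟨b, hb, hact, hy⟩
        · exact Or.inr ⟨b, hFs hb, (Finset.mem_filter.1 (hFT hb)).2.1, hy⟩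
        · exact Or.inr ⟨b, hb, hst.1, hy⟩
    rw [e]
    refine (hgr G hGm T ρ0 (40 * ρ1) hρ0 (fun b hb => ?_) A A1 hA (hmA _)
      (fun y hy z hz => mem_cthickening_of_dist_le z y R A hy hz) h
      (hh.trans (by linarith))).trans (add_le_add ?_ (mul_le_mul' le_rfl ?_))
    · have hbs : b ∈ s := (Finset.mem_filter.1 hb).1
      refine ⟨(hs b hbs).1, by linarith [(hs b hbs).2], ?_⟩
      by_cases hbF : b ∈ F
      · have hbG : ball b.1 b.2 ⊆ G := fun y hy => Or.inr (mem_iUnion₂.2 ⟨b, hbF, hy⟩)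
        rw [inter_eq_right.2 hbG]
        exact mul_le_of_le_one_left measureReal_nonneg (hθg.trans (gain_le_one d))
      · exact (hcovF b hb hbF).trans (measureReal_mono (inter_subset_inter_left _ subset_union_right)
          (ne_top_of_le_ne_top measure_ball_lt_top.ne (measure_mono inter_subset_right)))
    · exact (jump_mono (self_subset_cthickening A) _ _).trans (hG A1 h (hh.trans (by linarith)))
    · refine setLIntegral_mono' measurableSet_ball fun v hv => ?_
      have hv3 : ‖v‖ ≤ 3 := (mem_ball_zero_iff.1 hv).le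
      refine (hG A1 (τ • v) ?_).trans (add_le_add le_rfl (mul_le_mul' le_rfl ?_))
      · rw [norm_smul, Real.norm_eq_abs, abs_of_nonneg hτ0]
        nlinarith
      · rw [← ofReal_norm, ← ofReal_norm, norm_smul, Real.norm_eq_abs, abs_of_nonneg hτ0,
          show (3 : ℝ≥0∞) = ENNReal.ofReal 3 by simp, ← ENNReal.ofReal_mul (by norm_num : (0:ℝ) ≤ 3)]
        exact ENNReal.ofReal_le_ofReal (by nlinarith)
  refine (lintegral_mono fun l => hpt l).trans ?_
  have hJ := measurable_jump_at hU2m (hmA R) h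
  rw [lintegral_add_left (hJ.fun_add (hΦm.mul_const _)), lintegral_add_left hJ,
    lintegral_mul_const _ hΦm, lintegral_const_mul' _ _ hCgr]
  have hJv : ∫⁻ l in Ioi (0 : ℝ), ∫⁻ v in ball (0 : Eu d) 3,
      (jump A1 (U2 l) (τ • v) + Φ l * (3 * ‖h‖ₑ))
      ≤ V * ((Cg * (Cg * X) + cS * S) * (3 * ‖h‖ₑ)) := by
    rw [lintegral_lintegral_swap (f := fun (l : ℝ) (v : Eu d) =>
      jump A1 (U2 l) (τ • v) + Φ l * (3 * ‖h‖ₑ))]
    swap
    · exact ((measurable_jump hU2m (hmA R) τ).fun_add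
        ((hΦm.comp measurable_fst).mul_const _)).aemeasurable
    refine (setLIntegral_mono' measurableSet_ball
      (g := fun _ => (Cg * (Cg * X) + cS * S) * (3 * ‖h‖ₑ)) fun v hv => ?_).trans
      (le_of_eq (by rw [setLIntegral_const, mul_comm]))
    have hv3 : ‖v‖ ≤ 3 := (mem_ball_zero_iff.1 hv).le
    rw [lintegral_add_left (measurable_jump_at hU2m (hmA R) _), lintegral_mul_const _ hΦm, add_mul]
    refine add_le_add ((hb2 (τ • v) ?_).trans (mul_le_mul' le_rfl ?_)) (mul_le_mul' hΦ le_rfl)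
    · rw [norm_smul, Real.norm_eq_abs, abs_of_nonneg hτ0]
      nlinarith
    · rw [← ofReal_norm, ← ofReal_norm, norm_smul, Real.norm_eq_abs, abs_of_nonneg hτ0,
        show (3 : ℝ≥0∞) = ENNReal.ofReal 3 by simp, ← ENNReal.ofReal_mul (by norm_num : (0:ℝ) ≤ 3)]
      exact ENNReal.ofReal_le_ofReal (by nlinarith)
  refine (add_le_add (add_le_add (hb2 h (hh.trans (by linarith))) (mul_le_mul' hΦ le_rfl))
    (mul_le_mul' le_rfl hJv)).trans ?_
  have hX' : Cg * (Cg * X) + cS * S ≤ (Cg * Cg + cS) * (X + S) := by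
    rw [show (Cg * Cg + cS) * (X + S) = (Cg * (Cg * X) + cS * S) + (Cg * Cg * S + cS * X) by ring]
    exact le_self_add
  rw [← add_mul]
  refine le_trans (le_of_eq ?_) (mul_le_mul' (le_trans (mul_le_mul' le_rfl hX')
    (le_of_eq (mul_assoc _ _ _).symm)) le_rfl)
  ring

end

end Vale.Agent.P137
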