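import Vale.Agent.P137.HalfSpace

/-!
# P137: the defect telescopes over dyadic scales
-/

namespace Vale.Agent.P137

open MeasureTheory Set Metric Filter
open scoped ENNReal NNReal Topology

noncomputable section

variable {d : ℕ}

/-- The measure of the points where membership in `E` changes under the shift `v`. -/
def flip (E : Set (Eu d)) (v : Eu d) : ℝ≥0∞ := volume {y | ¬(y + v ∈ E ↔ y ∈ E)}

/-- The measure of the defect points for the displacement `v`. -/
def defect (E : Set (Eu d)) (v : Eu d) : ℝ≥0∞ := volume {y | (y, v) ∈ defectSet E}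

theorem measurableSet_flip {E : Set (Eu d)} (hE : MeasurableSet E) (v : Eu d) :
    MeasurableSet {y : Eu d | ¬(y + v ∈ E ↔ y ∈ E)} := by
  have h1 : MeasurableSet {y : Eu d | y + v ∈ E} := (measurable_add_const v) hE
  have e : {y : Eu d | ¬(y + v ∈ E ↔ y ∈ E)} = ({y | y + v ∈ E} \ E) ∪ (E \ {y | y + v ∈ E}) := by
    ext y; simp only [Set.mem_union, Set.mem_sdiff, mem_ofPred_eq]; tauto
  rw [e]
  exact (h1.diff hE).union (hE.diff h1)

theorem measurableSet_defect {E : Set (Eu d)} (hE : MeasurableSet E) (v : Eu d) :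
    MeasurableSet {y : Eu d | (y, v) ∈ defectSet E} :=
  measurable_prodMk_right (measurableSet_defectSet hE)

/-- Twice the defect plus the long jump is twice the short jump. -/
theorem defect_identity {E : Set (Eu d)} (hE : MeasurableSet E) (v : Eu d) :
    2 * defect E v + flip E ((2 : ℝ) • v) = 2 * flip E v := by
  set A := {y : Eu d | ¬(y + v ∈ E ↔ y ∈ E)} with hA
  set B := {y : Eu d | ¬(y - v ∈ E ↔ y ∈ E)} with hB
  set C := {y : Eu d | ¬(y + v ∈ E ↔ y - v ∈ E)} with hC
  set Q := {y : Eu d | (y, v) ∈ defectSet E} with hQ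
  have hmA : MeasurableSet A := measurableSet_flip hE v
  have hmB : MeasurableSet B := by
    simpa [hB, sub_eq_add_neg] using measurableSet_flip hE (-v)
  have hmQ : MeasurableSet Q := measurableSet_defect hE v
  have hmC : MeasurableSet C := by
    have : C = (fun y => y - v) ⁻¹' {y | ¬(y + (2 : ℝ) • v ∈ E ↔ y ∈ E)} := by
      ext y
      have e : y - v + (2 : ℝ) • v = y + v := by rw [two_smul]; abel
      simp [hC, e]
    rw [this]
    exact (continuous_id.sub continuous_const).measurable (measurableSet_flip hE _)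
  have key : ∀ y, 2 * Q.indicator (1 : Eu d → ℝ≥0∞) y + C.indicator (1 : Eu d → ℝ≥0∞) y
      = A.indicator (1 : Eu d → ℝ≥0∞) y + B.indicator (1 : Eu d → ℝ≥0∞) y := by
    intro y
    by_cases h0 : y ∈ E <;> by_cases h1 : y + v ∈ E <;> by_cases h2 : y - v ∈ E <;>
      simp [hA, hB, hC, hQ, defectSet, indicator, h0, h1, h2, one_add_one_eq_two]
  have h := congrArg (fun g => ∫⁻ y, g y) (funext key)
  simp only at h
  rw [lintegral_add_left ((measurable_one.indicator hmQ).const_mul 2),
    lintegral_add_left (measurable_one.indicator hmA),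
    lintegral_const_mul _ (measurable_one.indicator hmQ), lintegral_indicator_one hmQ,
    lintegral_indicator_one hmC, lintegral_indicator_one hmA, lintegral_indicator_one hmB] at h
  have eB : volume B = volume A := by
    rw [← measure_preimage_add_right volume v B]
    refine congrArg volume ?_
    ext y
    simp [hB, hA, iff_comm]
  have eC : volume C = flip E ((2 : ℝ) • v) := by
    rw [← measure_preimage_add_right volume v C, flip]
    refine congrArg volume ?_
    ext y
    simp [hC, two_smul, add_assoc]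
  rw [eB, eC, ← two_mul] at h
  exact h

/-- The dyadic scale of index `k`. -/
def scale (k : ℤ) : ℝ := (2 : ℝ) ^ k

theorem scale_pos (k : ℤ) : 0 < scale k := zpow_pos two_pos k

theorem scale_succ (k : ℤ) : scale (k + 1) = 2 * scale k := by
  rw [scale, scale, zpow_add₀ two_ne_zero, zpow_one, mul_comm]

/-- The normalised defect at scale `k` in the direction `w`. -/
def defTerm (E : Set (Eu d)) (w : Eu d) (k : ℤ) : ℝ≥0∞ :=
  (ENNReal.ofReal (scale k))⁻¹ * defect E (scale k • w)

/-- The difference quotient at scale `k` in the direction `w`. -/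
def quot (E : Set (Eu d)) (w : Eu d) (k : ℤ) : ℝ≥0∞ :=
  (ENNReal.ofReal (scale k))⁻¹ * flip E (scale k • w)

theorem defTerm_add_quot {E : Set (Eu d)} (hE : MeasurableSet E) (w : Eu d) (k : ℤ) :
    defTerm E w k + quot E w (k + 1) = quot E w k := by
  have h := defect_identity hE (scale k • w)
  rw [smul_smul, ← scale_succ] at h
  have e : (ENNReal.ofReal (scale (k + 1)))⁻¹ = 2⁻¹ * (ENNReal.ofReal (scale k))⁻¹ := by
    rw [scale_succ, ENNReal.ofReal_mul two_pos.le, ENNReal.ofReal_ofNat,
      ENNReal.mul_inv (Or.inl (by simp)) (Or.inl (by simp))]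
  have h2 : (2 : ℝ≥0∞) * 2⁻¹ = 1 := ENNReal.mul_inv_cancel (by simp) (by simp)
  rw [defTerm, quot, quot, e]
  calc (ENNReal.ofReal (scale k))⁻¹ * defect E (scale k • w)
        + 2⁻¹ * (ENNReal.ofReal (scale k))⁻¹ * flip E (scale (k + 1) • w)
      = 2⁻¹ * (ENNReal.ofReal (scale k))⁻¹
          * (2 * defect E (scale k • w) + flip E (scale (k + 1) • w)) := by
        rw [mul_add, show (2 : ℝ≥0∞)⁻¹ * (ENNReal.ofReal (scale k))⁻¹ * (2 * defect E (scale k • w))
          = 2 * 2⁻¹ * ((ENNReal.ofReal (scale k))⁻¹ * defect E (scale k • w)) by ring, h2, one_mul]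
    _ = _ := by
        rw [h, show (2 : ℝ≥0∞)⁻¹ * (ENNReal.ofReal (scale k))⁻¹ * (2 * flip E (scale k • w))
          = 2 * 2⁻¹ * ((ENNReal.ofReal (scale k))⁻¹ * flip E (scale k • w)) by ring, h2, one_mul]

theorem sum_defTerm_le {E : Set (Eu d)} (hE : MeasurableSet E) (w : Eu d) (a : ℤ) (n : ℕ) :
    (∑ i ∈ Finset.range n, defTerm E w (a + i)) + quot E w (a + n) = quot E w a := by
  induction n with
  | zero => simp
  | succ n ih =>
    rw [Finset.sum_range_succ, add_assoc, Nat.cast_succ, ← add_assoc a, defTerm_add_quot hE, ih]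

end

end Vale.Agent.P137
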