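import Vale.Agent.P137.Unc.Cover
import Vale.Agent.P137.Clip

/-!
# P137: the finite maximal functions as functions
-/

namespace Vale.Agent.P137

open MeasureTheory Set Metric Filter
open scoped ENNReal NNReal Topology RealInnerProductSpace

noncomputable section

variable {d : ℕ}

theorem avgF_eq {f : Eu d → ℝ} (hf : Measurable f) (h0 : ∀ x, 0 ≤ f x) {b : Eu d × ℝ}
    (hb : 0 < b.2) :
    avgF f b = (∫⁻ y in ball b.1 b.2, ENNReal.ofReal (f y)) / volume (ball b.1 b.2) := by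
  rw [lintegral_eq_lintegral_meas_lt _ (Eventually.of_forall h0) hf.aemeasurable,
    ENNReal.div_eq_inv_mul, ← lintegral_const_mul' _ _
      (ENNReal.inv_ne_top.2 (measure_ball_pos volume b.1 hb).ne')]
  refine lintegral_congr fun μ => ?_
  rw [ofReal_dens _ _ hb, ENNReal.div_eq_inv_mul, Measure.restrict_apply' measurableSet_ball]
  rfl

theorem avgF_ne_top {f : Eu d → ℝ} (hf : Measurable f) (h0 : ∀ x, 0 ≤ f x)
    (hi : ∫⁻ y, ENNReal.ofReal (f y) ≠ ⊤) {b : Eu d × ℝ} (hb : 0 < b.2) : avgF f b ≠ ⊤ := by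
  rw [avgF_eq hf h0 hb]
  exact ENNReal.div_ne_top (ne_top_of_le_ne_top hi (setLIntegral_le_lintegral _ _))
    (measure_ball_pos volume b.1 hb).ne'

theorem levels_length (a : ℝ≥0∞) :
    ∫⁻ l in Ioi (0 : ℝ), {l : ℝ | ENNReal.ofReal l < a}.indicator (1 : ℝ → ℝ≥0∞) l = a := by
  rw [lintegral_indicator_one (measurableSet_lt ENNReal.measurable_ofReal measurable_const),
    Measure.restrict_apply (measurableSet_lt ENNReal.measurable_ofReal measurable_const)]
  rcases eq_or_ne a ⊤ with rfl | ha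
  · simp [Real.volume_Ioi]
  · have e : {l : ℝ | ENNReal.ofReal l < a} ∩ Ioi 0 = Ioo 0 a.toReal := by
      ext l
      simp only [mem_inter_iff, mem_ofPred_eq, mem_Ioi, mem_Ioo]
      exact ⟨fun ⟨h1, h2⟩ => ⟨h2, (ENNReal.ofReal_lt_iff_lt_toReal h2.le ha).1 h1⟩,
        fun ⟨h1, h2⟩ => ⟨(ENNReal.ofReal_lt_iff_lt_toReal h1.le ha).2 h2, h1⟩⟩
    rw [e, Real.volume_Ioo, sub_zero, ENNReal.ofReal_toReal ha]

/-- The function whose super-level sets are `coverSet`. -/
def coverFun (f : Eu d → ℝ) (θ : ℝ) (N : Finset (Eu d)) (s : Finset (Eu d × ℝ)) (x : Eu d) :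
    ℝ≥0∞ :=
  ∫⁻ l in Ioi (0 : ℝ), (coverSet f θ N s l).indicator 1 x

/-- The uncentred maximal function, by levels. -/
def levelMax (f : Eu d → ℝ) (x : Eu d) : ℝ≥0∞ :=
  ⨆ (b : Eu d × ℝ) (_ : 0 < b.2 ∧ x ∈ ball b.1 b.2), avgF f b

theorem measurableSet_coverSet_prod {f : Eu d → ℝ} (hf : Measurable f) (θ : ℝ) (N : Finset (Eu d))
    (s : Finset (Eu d × ℝ)) : MeasurableSet {q : ℝ × Eu d | q.2 ∈ coverSet f θ N s q.1} :=
  ((measurableSet_lev_prod hf).union
    (measurableSet_activeUnion_prod fun b _ => measurableSet_qualified f θ b)).union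
    (measurableSet_activeUnion_prod fun b _ => measurableSet_active f b)

theorem measurable_coverFun {f : Eu d → ℝ} (hf : Measurable f) (θ : ℝ) (N : Finset (Eu d))
    (s : Finset (Eu d × ℝ)) : Measurable (coverFun f θ N s) :=
  Measurable.lintegral_prod_right' (f := fun q : Eu d × ℝ => (coverSet f θ N s q.2).indicator 1 q.1)
    ((measurable_one.indicator (measurableSet_coverSet_prod hf θ N s)).comp measurable_swap)

theorem ofReal_le_coverFun (f : Eu d → ℝ) (θ : ℝ) (N : Finset (Eu d)) (s : Finset (Eu d × ℝ))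
    (x : Eu d) : ENNReal.ofReal (f x) ≤ coverFun f θ N s x := by
  conv_lhs => rw [← levels_length (ENNReal.ofReal (f x))]
  refine setLIntegral_mono' measurableSet_Ioi fun l hl => ?_
  by_cases h : ENNReal.ofReal l < ENNReal.ofReal (f x)
  · rw [indicator_of_mem (show l ∈ {l : ℝ | ENNReal.ofReal l < ENNReal.ofReal (f x)} from h),
      indicator_of_mem]
    · simp
    · exact Or.inl (Or.inl (ENNReal.ofReal_lt_ofReal_iff'.1 h).1)
  · rw [indicator_of_notMem (show l ∉ {l : ℝ | ENNReal.ofReal l < ENNReal.ofReal (f x)} from h)]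
    exact zero_le

theorem avg_le_coverFun (f : Eu d → ℝ) (θ : ℝ) (N : Finset (Eu d)) (s : Finset (Eu d × ℝ))
    {b : Eu d × ℝ} (hb : b ∈ s) {x : Eu d} (hx : x ∈ ball b.1 b.2) :
    avgF f b ≤ coverFun f θ N s x := by
  conv_lhs => rw [← levels_length (avgF f b)]
  refine setLIntegral_mono' measurableSet_Ioi fun l hl => ?_
  by_cases h : ENNReal.ofReal l < avgF f b
  · rw [indicator_of_mem (show l ∈ {l : ℝ | ENNReal.ofReal l < avgF f b} from h), indicator_of_mem]
    · simp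
    · exact Or.inr ⟨b, hb, h, hx⟩
  · rw [indicator_of_notMem (show l ∉ {l : ℝ | ENNReal.ofReal l < avgF f b} from h)]; exact zero_le

theorem coverFun_mono (f : Eu d → ℝ) (θ : ℝ) (N : Finset (Eu d)) {s s' : Finset (Eu d × ℝ)}
    (h : s ⊆ s') (x : Eu d) : coverFun f θ N s x ≤ coverFun f θ N s' x := by
  classical
  refine lintegral_mono fun l => indicator_le_indicator_of_subset ?_ (fun _ => zero_le) x
  have hs : succSet N s ⊆ succSet N s' :=
    Finset.image_subset_image (Finset.product_subset_product h subset_rfl)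
  rintro y ((hy | ⟨b, hb, hp, hy⟩) | ⟨b, hb, hp, hy⟩)
  · exact Or.inl (Or.inl hy)
  · exact Or.inl (Or.inr ⟨b, hs hb, hp, hy⟩)
  · exact Or.inr ⟨b, h hb, hp, hy⟩

theorem succSet_pos {N : Finset (Eu d)} {s : Finset (Eu d × ℝ)} (hs : ∀ b ∈ s, 0 < b.2) :
    ∀ b ∈ succSet N s, 0 < b.2 := by
  intro b hb
  obtain ⟨⟨b0, e⟩, hm, rfl⟩ := Finset.mem_image.1 hb
  exact mul_pos (by norm_num) (hs b0 (Finset.mem_product.1 hm).1)

theorem coverFun_le {f : Eu d → ℝ} (θ : ℝ) (N : Finset (Eu d)) {s : Finset (Eu d × ℝ)}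
    (hs : ∀ b ∈ s, 0 < b.2) (x : Eu d) :
    coverFun f θ N s x ≤ max (ENNReal.ofReal (f x)) (levelMax f x) := by
  set a := max (ENNReal.ofReal (f x)) (levelMax f x)
  rw [← levels_length a]
  refine setLIntegral_mono' measurableSet_Ioi fun l hl => ?_
  by_cases h : x ∈ coverSet f θ N s l
  swap
  · rw [indicator_of_notMem h]; exact zero_le
  have hl' : ENNReal.ofReal l < a := by
    rcases h with (h | ⟨b, hb, hp, hy⟩) | ⟨b, hb, hp, hy⟩
    · exact lt_max_of_lt_left ((ENNReal.ofReal_lt_ofReal_iff (lt_trans hl h)).2 h)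
    · exact lt_max_of_lt_right (hp.1.trans_le (le_iSup₂_of_le b ⟨succSet_pos hs b hb, hy⟩ le_rfl))
    · exact lt_max_of_lt_right (hp.trans_le (le_iSup₂_of_le b ⟨hs b hb, hy⟩ le_rfl))
  rw [indicator_of_mem h, indicator_of_mem (show l ∈ {l : ℝ | ENNReal.ofReal l < a} from hl')]
  simp

theorem coverFun_ne_top {f : Eu d → ℝ} (hfin : ∀ b : Eu d × ℝ, 0 < b.2 → avgF f b ≠ ⊤) (θ : ℝ)
    (N : Finset (Eu d)) {s : Finset (Eu d × ℝ)} (hs : ∀ b ∈ s, 0 < b.2) (x : Eu d) :
    coverFun f θ N s x ≠ ⊤ := by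
  classical
  set a := ENNReal.ofReal (f x) + ∑ b ∈ succSet N s ∪ s, avgF f b
  have ha : a ≠ ⊤ := ENNReal.add_ne_top.2 ⟨ENNReal.ofReal_ne_top,
    ENNReal.sum_ne_top.2 fun b hb => hfin b ((Finset.mem_union.1 hb).elim (succSet_pos hs b) (hs b))⟩
  refine ne_top_of_le_ne_top ha ?_
  rw [← levels_length a]
  refine setLIntegral_mono' measurableSet_Ioi fun l hl => ?_
  by_cases h : x ∈ coverSet f θ N s l
  swap
  · rw [indicator_of_notMem h]; exact zero_le
  have hl' : ENNReal.ofReal l < a := by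
    rcases h with (h | ⟨b, hb, hp, -⟩) | ⟨b, hb, hp, -⟩
    · exact ((ENNReal.ofReal_lt_ofReal_iff (lt_trans hl h)).2 h).trans_le le_self_add
    · exact hp.1.trans_le ((Finset.single_le_sum (fun _ _ => zero_le)
        (Finset.mem_union_left s hb)).trans le_add_self)
    · exact hp.trans_le ((Finset.single_le_sum (fun _ _ => zero_le)
        (Finset.mem_union_right _ hb)).trans le_add_self)
  rw [indicator_of_mem h, indicator_of_mem (show l ∈ {l : ℝ | ENNReal.ofReal l < a} from hl')]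
  simp

/-- The increase of the finite maximal function is bounded by the jumps of its levels. -/
theorem coverFun_increase {f : Eu d → ℝ} (hf : Measurable f)
    (hfin : ∀ b : Eu d × ℝ, 0 < b.2 → avgF f b ≠ ⊤) (θ : ℝ) (N : Finset (Eu d))
    {s : Finset (Eu d × ℝ)} (hs : ∀ b ∈ s, 0 < b.2) {A : Set (Eu d)} (hA : MeasurableSet A)
    (h : Eu d) :
    ∫⁻ x in A, ENNReal.ofReal ((coverFun f θ N s (x + h)).toReal - (coverFun f θ N s x).toReal)
      ≤ ∫⁻ l in Ioi (0 : ℝ), jump A (coverSet f θ N s l) h := by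
  set U := coverSet f θ N s
  have hU := measurableSet_coverSet_prod hf θ N s
  set T := {q : ℝ × Eu d | q.2 ∈ A ∧ (q.2 ∉ U q.1 ∧ q.2 + h ∈ U q.1)}
  have h2 : Measurable fun q : ℝ × Eu d => (q.1, q.2 + h) := by fun_prop
  have hT : MeasurableSet T := (measurable_snd hA).inter (hU.compl.inter (h2 hU))
  calc ∫⁻ x in A, ENNReal.ofReal ((coverFun f θ N s (x + h)).toReal - (coverFun f θ N s x).toReal)
      ≤ ∫⁻ x in A, ∫⁻ l in Ioi (0 : ℝ), T.indicator 1 (l, x) := by
        refine setLIntegral_mono' hA fun x hx => ?_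
        have hle : coverFun f θ N s (x + h)
            ≤ coverFun f θ N s x + ∫⁻ l in Ioi (0 : ℝ), T.indicator 1 (l, x) := by
          have hTl : Measurable fun l : ℝ => T.indicator (1 : ℝ × Eu d → ℝ≥0∞) (l, x) :=
            (measurable_one.indicator hT).comp measurable_prodMk_right
          rw [coverFun, coverFun, ← lintegral_add_right _ hTl]
          refine lintegral_mono fun l => ?_
          by_cases h1 : x + h ∈ U l
          · rw [indicator_of_mem h1]
            by_cases h2 : x ∈ U l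
            · rw [indicator_of_mem h2]; exact le_self_add
            · rw [indicator_of_mem (show (l, x) ∈ T from ⟨hx, h2, h1⟩)]
              exact le_add_self
          · rw [indicator_of_notMem h1]; exact zero_le
        rw [ENNReal.ofReal_sub _ ENNReal.toReal_nonneg,
          ENNReal.ofReal_toReal (coverFun_ne_top hfin θ N hs _),
          ENNReal.ofReal_toReal (coverFun_ne_top hfin θ N hs _)]
        exact tsub_le_iff_left.2 hle
    _ ≤ ∫⁻ x, ∫⁻ l in Ioi (0 : ℝ), T.indicator 1 (l, x) := setLIntegral_le_lintegral _ _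
    _ = ∫⁻ l in Ioi (0 : ℝ), ∫⁻ x, T.indicator 1 (l, x) := by
        rw [lintegral_lintegral_swap (f := fun (l : ℝ) (x : Eu d) => T.indicator 1 (l, x))
          (measurable_one.indicator hT).aemeasurable]
    _ = _ := by
        refine lintegral_congr fun l => ?_
        show _ = volume (Prod.mk l ⁻¹' T)
        rw [← lintegral_indicator_one (measurable_prodMk_left hT)]
        rfl

theorem setLIntegral_comp_add (F : Eu d → ℝ≥0∞) (A : Set (Eu d)) (hA : MeasurableSet A) (h : Eu d) :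
    ∫⁻ x in A, F (x + h) = ∫⁻ z in (fun z => z - h) ⁻¹' A, F z := by
  have hm : MeasurableSet ((fun z : Eu d => z - h) ⁻¹' A) := (measurable_id.sub_const h) hA
  rw [← lintegral_indicator hA, ← lintegral_indicator hm]
  conv_rhs => rw [← lintegral_add_right_eq_self _ h]
  refine lintegral_congr fun x => ?_
  by_cases hx : x ∈ A <;> simp [hx, indicator]

theorem shift_subset (A : Set (Eu d)) {h : Eu d} {R : ℝ} (hh : ‖h‖ ≤ R) :
    (fun z => z - h) ⁻¹' A ⊆ cthickening R A := fun z hz =>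
  mem_cthickening_of_dist_le z (z - h) R A hz (by rw [dist_self_sub_right]; exact hh)

/-- Translation bounds propagate from short to long shifts. -/
theorem subdivide {u : Eu d → ℝ} (hu : Measurable u) {A : Set (Eu d)} (hA : MeasurableSet A)
    {H κ : ℝ} (hκ : 0 < κ) {Y : ℝ≥0∞}
    (hY : ∀ h : Eu d, ‖h‖ ≤ κ → ∫⁻ x in cthickening H A, ‖u (x + h) - u x‖ₑ ≤ Y * ‖h‖ₑ)
    {h : Eu d} (hh : ‖h‖ ≤ H) : ∫⁻ x in A, ‖u (x + h) - u x‖ₑ ≤ Y * ‖h‖ₑ := by
  obtain ⟨n, hn⟩ := exists_nat_gt (max 1 (‖h‖ / κ))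
  have hn1 : (1 : ℝ) ≤ n := (le_max_left _ _).trans hn.le
  have hn0 : (n : ℝ) ≠ 0 := by linarith
  set g : Eu d := (n : ℝ)⁻¹ • h
  have hg : ‖g‖ ≤ κ := by
    rw [norm_smul, norm_inv, Real.norm_natCast, inv_mul_le_iff₀ (by linarith)]
    have := (div_le_iff₀ hκ).1 ((le_max_right _ _).trans hn.le)
    linarith
  have hsum : ∀ x, ‖u (x + h) - u x‖ₑ
      ≤ ∑ i ∈ Finset.range n, ‖u (x + (i : ℝ) • g + g) - u (x + (i : ℝ) • g)‖ₑ := by
    intro x
    have e : u (x + h) - u x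
        = ∑ i ∈ Finset.range n, (u (x + ((i + 1 : ℕ) : ℝ) • g) - u (x + (i : ℝ) • g)) := by
      rw [Finset.sum_range_sub (fun i : ℕ => u (x + (i : ℝ) • g)), Nat.cast_zero, zero_smul,
        add_zero, smul_inv_smul₀ hn0]
    rw [e]
    refine (enorm_sum_le _ _).trans (le_of_eq (Finset.sum_congr rfl fun i _ => ?_))
    rw [Nat.cast_succ, add_smul, one_smul, ← add_assoc]
  refine (setLIntegral_mono' hA fun x _ => hsum x).trans ?_
  have hm : ∀ i : ℕ, Measurable fun x : Eu d => ‖u (x + (i : ℝ) • g + g) - u (x + (i : ℝ) • g)‖ₑ :=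
    fun i => ((hu.comp (by fun_prop)).sub (hu.comp (by fun_prop))).enorm
  rw [lintegral_finsetSum _ fun i _ => hm i]
  refine (Finset.sum_le_sum (g := fun _ => Y * ‖g‖ₑ) fun i hi => ?_).trans (le_of_eq ?_)
  · rw [setLIntegral_comp_add (fun z => ‖u (z + g) - u z‖ₑ) A hA ((i : ℝ) • g)]
    refine (lintegral_mono_set (shift_subset A ?_)).trans (hY g hg)
    rw [norm_smul, Real.norm_natCast, norm_smul, norm_inv, Real.norm_natCast, ← mul_assoc]
    refine le_trans (mul_le_of_le_one_left (norm_nonneg h) ?_) hh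
    rw [← div_eq_mul_inv, div_le_one (by linarith)]
    exact_mod_cast (Finset.mem_range.1 hi).le
  · rw [Finset.sum_const, Finset.card_range, nsmul_eq_mul, enorm_smul, enorm_inv hn0,
      Real.enorm_natCast, show (n : ℝ≥0∞) * (Y * ((n : ℝ≥0∞)⁻¹ * ‖h‖ₑ))
        = (n : ℝ≥0∞) * (n : ℝ≥0∞)⁻¹ * (Y * ‖h‖ₑ) by ring,
      ENNReal.mul_inv_cancel (by exact_mod_cast hn0) (ENNReal.natCast_ne_top n), one_mul]

/-- **The finite maximal function obeys the variation bound.** -/
theorem finite_max_bound (d : ℕ) (hd : 0 < d) :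
    ∃ (N : Finset (Eu d)) (θ L W : ℝ) (C : ℝ≥0∞), 0 < L ∧ 0 ≤ W ∧ C ≠ ⊤ ∧
      ∀ (f : Eu d → ℝ), Measurable f → (∀ x, 0 ≤ f x) →
      (∀ b : Eu d × ℝ, 0 < b.2 → avgF f b ≠ ⊤) →
      ∀ (s : Finset (Eu d × ℝ)) (ρ1 : ℝ), 0 < ρ1 → (∀ b ∈ s, 0 < b.2 ∧ b.2 ≤ ρ1) →
      ∀ (A : Set (Eu d)), MeasurableSet A → ∀ (H : ℝ) (X : ℝ≥0∞), 0 ≤ H →
      (∀ v : Eu d, ‖v‖ ≤ ρ1 →
        ∫⁻ y in cthickening (W * ρ1 + ρ1 + H) A, ‖f (y + v) - f y‖ₑ ≤ X * ‖v‖ₑ) →
      ∀ h : Eu d, ‖h‖ ≤ H →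
        ∫⁻ x in A, ‖(coverFun f θ N s (x + h)).toReal - (coverFun f θ N s x).toReal‖ₑ
          ≤ C * (X + ∑ k ∈ s.image (fun b => scaleIdx b.2), scaleMass f L k) * ‖h‖ₑ := by
  classical
  obtain ⟨N, θ, L, κ, W, C, -, hL, hκ, hκ1, hW, hC, hbd⟩ := cover_bound d hd
  refine ⟨N, θ, L, W, 2 * C, hL, hW, by finiteness, fun f hf h0 hfin s ρ1 hρ1 hs A hA H X hH hX h hh => ?_⟩
  obtain ⟨ρ0, hρ0, hρ01, hρs⟩ : ∃ ρ0, 0 < ρ0 ∧ ρ0 ≤ ρ1 ∧ ∀ b ∈ s, ρ0 ≤ b.2 := by
    obtain ⟨b, hb, hmin⟩ := Finset.exists_min_image (insert (0, ρ1) s) (fun b => b.2)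
      ⟨_, Finset.mem_insert_self _ _⟩
    refine ⟨b.2, ?_, hmin _ (Finset.mem_insert_self _ _), fun c hc => hmin _ (Finset.mem_insert_of_mem hc)⟩
    rcases Finset.mem_insert.1 hb with rfl | hb'
    · exact hρ1
    · exact (hs b hb').1
  set Y := C * (X + ∑ k ∈ s.image (fun b => scaleIdx b.2), scaleMass f L k)
  set u := fun x => (coverFun f θ N s x).toReal
  have hu : Measurable u := (measurable_coverFun hf θ N s).ennreal_toReal
  rw [mul_assoc 2 C _]
  refine subdivide hu hA (mul_pos hκ hρ0) (fun g hg => ?_) hh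
  set A1 := cthickening H A
  set A2 := cthickening ρ1 A1
  have hA1 : MeasurableSet A1 := isClosed_cthickening.measurableSet
  have hA2 : MeasurableSet A2 := isClosed_cthickening.measurableSet
  have hbig : cthickening (W * ρ1) A2 ⊆ cthickening (W * ρ1 + ρ1 + H) A :=
    (cthickening_cthickening_subset (by positivity) hρ1.le A1).trans
      (cthickening_cthickening_subset (by positivity) hH A)
  have hone : ∀ g : Eu d, ‖g‖ ≤ κ * ρ0 →
      ∫⁻ x in A2, ENNReal.ofReal (u (x + g) - u x) ≤ Y * ‖g‖ₑ := fun g hg =>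
    (coverFun_increase hf hfin θ N (fun b hb => (hs b hb).1) hA2 g).trans
      (hbd f hf h0 hfin s ρ0 ρ1 hρ0 (fun b hb => ⟨hρs b hb, (hs b hb).2⟩) hρ01 A2 hA2 X
        (fun v hv => (lintegral_mono_set hbig).trans (hX v (hv.trans hρ01))) g hg)
  have hg1 : ‖g‖ ≤ ρ1 := hg.trans ((mul_le_of_le_one_left hρ0.le hκ1).trans hρ01)
  have hsplit : ∀ x, ‖u (x + g) - u x‖ₑ
      ≤ ENNReal.ofReal (u (x + g) - u x) + ENNReal.ofReal (u x - u (x + g)) := fun x => by
    rw [Real.enorm_eq_ofReal_abs]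
    rcases le_total (u x) (u (x + g)) with h' | h'
    · rw [abs_of_nonneg (by linarith)]; exact le_self_add
    · rw [abs_of_nonpos (by linarith), neg_sub]; exact le_add_self
  refine (setLIntegral_mono' hA1 fun x _ => hsplit x).trans ?_
  have hmg : Measurable fun x => ENNReal.ofReal (u (x + g) - u x) :=
    ((hu.comp (measurable_add_const g)).sub hu).ennreal_ofReal
  rw [lintegral_add_left hmg, show 2 * (C * (X + ∑ k ∈ s.image (fun b => scaleIdx b.2),
    scaleMass f L k)) = Y + Y from two_mul Y, add_mul]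
  refine add_le_add ((lintegral_mono_set (self_subset_cthickening A1)).trans (hone g hg)) ?_
  have h2 := setLIntegral_comp_add (fun z => ENNReal.ofReal (u (z + -g) - u z)) A1 hA1 g
  simp only [add_neg_cancel_right] at h2
  rw [h2]
  refine (lintegral_mono_set (shift_subset A1 hg1)).trans ((hone (-g) (by rwa [norm_neg])).trans
    (le_of_eq (by rw [enorm_neg])))

end

end Vale.Agent.P137
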