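import Vale.Agent.P137.Unc.Defect

/-!
# P137: small defect at a scale means close to one half-space, with a linear error
-/

namespace Vale.Agent.P137

open MeasureTheory Set Metric Filter
open scoped ENNReal NNReal Topology RealInnerProductSpace

noncomputable section

variable {d : ℕ}

/-- The defect of `E` near `z` up to the radius `ρ`. -/
def wdef (E : Set (Eu d)) (z : Eu d) (ρ : ℝ) : ℝ :=
  volume.real (defectSet E ∩ ball z ρ ×ˢ ball 0 ρ)

theorem ball_prod_ne_top (z w : Eu d) (ρ σ : ℝ) :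
    volume (ball z ρ ×ˢ ball w σ) ≠ ⊤ := by
  rw [Measure.volume_eq_prod, Measure.prod_prod]
  exact ENNReal.mul_ne_top measure_ball_lt_top.ne measure_ball_lt_top.ne

theorem defectSet_compl (E : Set (Eu d)) : defectSet Eᶜ = defectSet E := by
  ext p
  simp only [defectSet, mem_ofPred_eq, mem_compl_iff, not_not]
  tauto

theorem wdef_compl (E : Set (Eu d)) (z : Eu d) (ρ : ℝ) : wdef Eᶜ z ρ = wdef E z ρ := by
  rw [wdef, wdef, defectSet_compl]

theorem wdef_nonneg (E : Set (Eu d)) (z : Eu d) (ρ : ℝ) : 0 ≤ wdef E z ρ := measureReal_nonneg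

theorem half_space_scaled (d : ℕ) (hd : 0 < d) {β ε : ℝ} (hβ : 0 < β) (hβ1 : β ≤ 1) (hε : 0 < ε) :
    ∃ δ u : ℝ, 0 < δ ∧ 0 < u ∧ ∀ (E : Set (Eu d)) (y : Eu d) (R : ℝ), MeasurableSet E → 0 < R →
      wdef E y (80 * R) ≤ δ * R ^ (2 * d) → |dens E y R - 1 / 2| ≤ u →
      ∃ e : Eu d, ‖e‖ = 1 ∧
        volume.real (E ∩ ball y (3 * R) ∩ {p | ⟪e, p - y⟫ < -(β * R)}) ≤ ε * R ^ d ∧
        volume.real (Eᶜ ∩ ball y (3 * R) ∩ {p | β * R < ⟪e, p - y⟫}) ≤ ε * R ^ d := by
  obtain ⟨δ, u, hδ, hu, h⟩ := half_space d hd hβ hβ1 hε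
  refine ⟨δ, u, hδ, hu, fun E y R hE hR hW hdens => ?_⟩
  set φ : Eu d → Eu d := fun p => y + R • p with hφ
  have hRd : 0 < R ^ d := pow_pos hR d
  have hpre : ∀ S : Set (Eu d), volume.real (φ ⁻¹' S) = volume.real S / R ^ d := by
    intro S
    rw [show φ ⁻¹' S = (fun p => R • p) ⁻¹' ((fun p => y + p) ⁻¹' S) from rfl, measureReal_def,
      Measure.addHaar_preimage_smul volume hR.ne', measure_preimage_add, ENNReal.toReal_mul,
      finrank_euclideanSpace_fin, abs_inv, abs_of_pos hRd,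
      ENNReal.toReal_ofReal (inv_nonneg.2 hRd.le), measureReal_def, div_eq_inv_mul]
  have hball : ∀ ρ : ℝ, φ ⁻¹' ball y (ρ * R) = ball 0 ρ := by
    intro ρ
    ext p
    simp only [hφ, mem_preimage, mem_ball, dist_eq_norm, sub_zero, add_sub_cancel_left, norm_smul,
      Real.norm_eq_abs, abs_of_pos hR]
    rw [mul_comm ρ R, mul_lt_mul_iff_of_pos_left hR]
  have hin : ∀ e p : Eu d, ⟪e, φ p - y⟫ = R * ⟪e, p⟫ := fun e p => by
    rw [hφ, add_sub_cancel_left, real_inner_smul_right]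
  have hEm : MeasurableSet (φ ⁻¹' E) := (by fun_prop : Measurable φ) hE
  have hW' : volume.real (defectSet (φ ⁻¹' E) ∩ ball 0 80 ×ˢ ball 0 80) ≤ δ := by
    have : (volume : Measure (Eu d × Eu d)).IsAddHaarMeasure := by
      rw [Measure.volume_eq_prod]; exact Measure.prod.instIsAddHaarMeasure _ _
    have e : defectSet (φ ⁻¹' E) ∩ ball 0 80 ×ˢ ball 0 80
        = (fun p => R • p) ⁻¹' ((fun p => ((y, 0) : Eu d × Eu d) + p) ⁻¹'
            (defectSet E ∩ ball y (80 * R) ×ˢ ball 0 (80 * R))) := by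
      ext ⟨p, v⟩
      simp only [defectSet, hφ, mem_inter_iff, mem_ofPred_eq, mem_prod, mem_preimage, Prod.smul_mk,
        Prod.mk_add_mk, zero_add, mem_ball, dist_eq_norm, sub_zero, add_sub_cancel_left,
        norm_smul, Real.norm_eq_abs, abs_of_pos hR, smul_add, smul_sub, add_assoc, add_sub_assoc]
      rw [mul_comm 80 R, mul_lt_mul_iff_of_pos_left hR, mul_lt_mul_iff_of_pos_left hR]
    rw [measureReal_def, e, Measure.addHaar_preimage_smul _ hR.ne', measure_preimage_add,
      ENNReal.toReal_mul, Module.finrank_prod, finrank_euclideanSpace_fin, abs_inv, ← two_mul,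
      abs_of_pos (pow_pos hR _), ENNReal.toReal_ofReal (inv_nonneg.2 (pow_pos hR _).le),
      inv_mul_le_iff₀ (pow_pos hR _)]
    exact hW.trans (le_of_eq (mul_comm _ _))
  have hd' : dens (φ ⁻¹' E) 0 1 = dens E y R := by
    rw [dens, dens, show φ ⁻¹' E ∩ ball 0 1 = φ ⁻¹' (E ∩ ball y (1 * R)) by
      rw [preimage_inter, hball], hpre, ball_real y hR, one_mul]
    field_simp
  obtain ⟨e, he, h1, h2⟩ := h _ hEm hW' (by rw [hd']; exact hdens)
  refine ⟨-e, by rw [norm_neg, he], ?_, ?_⟩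
  · rw [← div_le_iff₀ hRd, ← hpre]
    refine le_trans (le_of_eq (congrArg volume.real ?_)) h1
    rw [preimage_inter, preimage_inter, hball]
    congr 1
    ext p
    simp only [mem_preimage, mem_ofPred_eq, inner_neg_left, hin]
    rw [neg_lt_neg_iff, mul_comm β R, mul_lt_mul_iff_of_pos_left hR]
  · rw [← div_le_iff₀ hRd, ← hpre]
    refine le_trans (le_of_eq (congrArg volume.real ?_)) h2
    rw [preimage_inter, preimage_inter, hball]
    congr 1
    ext p
    simp only [mem_preimage, mem_ofPred_eq, inner_neg_left, hin]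
    rw [lt_neg, mul_comm β R, ← mul_neg, mul_lt_mul_iff_of_pos_left hR]

/-- Points of `E` with low density make defects. -/
theorem wdef_low {E S : Set (Eu d)} (hE : MeasurableSet E) (hS : MeasurableSet S) {z : Eu d}
    {q ρ η : ℝ} (hq : 0 < q) (hqρ : q ≤ ρ) (hη : η < 1 / 2) (hSE : S ⊆ E ∩ ball z ρ)
    (hlow : ∀ y ∈ S, dens E y q ≤ η) :
    (1 - 2 * η) * (q ^ d * volume.real (ball (0 : Eu d) 1)) * volume.real S ≤ wdef E z ρ := by
  set D := defectSet E ∩ ball z ρ ×ˢ ball 0 ρ with hD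
  have hDm : MeasurableSet D :=
    (measurableSet_defectSet hE).inter (measurableSet_ball.prod measurableSet_ball)
  have hDf : volume D ≠ ⊤ := ne_top_of_le_ne_top (ball_prod_ne_top _ _ _ _)
    (measure_mono inter_subset_right)
  set c := ENNReal.ofReal ((1 - 2 * η) * q ^ d) * volume (ball (0 : Eu d) 1)
  have hfib : ∀ y ∈ S, c ≤ volume (Prod.mk y ⁻¹' D) := by
    intro y hy
    have h := exits_measure (E := E) hη hq (hlow y hy)
    have hsub : {v ∈ ball (0 : Eu d) 1 | y + q • v ∉ E ∧ y - q • v ∉ E}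
        ⊆ (fun v => q • v) ⁻¹' (Prod.mk y ⁻¹' D) := by
      rintro v ⟨hv, h1, h2⟩
      refine ⟨Or.inl ⟨(hSE hy).1, h1, h2⟩, (hSE hy).2, mem_ball_zero_iff.2 ?_⟩
      show ‖q • v‖ < ρ
      rw [norm_smul, Real.norm_eq_abs, abs_of_pos hq]
      nlinarith [mem_ball_zero_iff.1 hv]
    have h' := h.trans (measure_mono hsub)
    rw [Measure.addHaar_preimage_smul volume hq.ne', finrank_euclideanSpace_fin, abs_inv,
      abs_of_pos (pow_pos hq d)] at h'
    have h'' := mul_le_mul' (le_refl (ENNReal.ofReal (q ^ d))) h'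
    rw [← mul_assoc, ← mul_assoc, ← ENNReal.ofReal_mul (pow_pos hq d).le,
      ← ENNReal.ofReal_mul (pow_pos hq d).le, mul_inv_cancel₀ (pow_pos hq d).ne', ENNReal.ofReal_one,
      one_mul, mul_comm (q ^ d)] at h''
    exact h''
  have h1 : c * volume S ≤ volume D := by
    rw [Measure.volume_eq_prod, Measure.prod_apply hDm, ← setLIntegral_const]
    exact (setLIntegral_mono' hS hfib).trans (setLIntegral_le_lintegral _ _)
  have h2 := ENNReal.toReal_mono hDf h1
  rw [ENNReal.toReal_mul, ENNReal.toReal_mul,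
    ENNReal.toReal_ofReal (mul_nonneg (by linarith) (pow_pos hq d).le)] at h2
  simp only [wdef, measureReal_def] at *
  exact le_trans (le_of_eq (by ring)) h2

theorem continuous_dens (E : Set (Eu d)) (hE : MeasurableSet E) {R : ℝ} (hR : 0 < R) :
    Continuous fun y => dens E y R := by
  have e : (fun y => dens E y R) = fun y => (∫ p in E, (ball (0 : Eu d) R).indicator
      (fun _ => (1 : ℝ)) (p - y)) / (R ^ d * volume.real (ball (0 : Eu d) 1)) := by
    funext y
    rw [dens, ball_real y hR]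
    congr 1
    rw [show (fun p => (ball (0 : Eu d) R).indicator (fun _ => (1 : ℝ)) (p - y))
        = (ball y R).indicator (fun _ => (1 : ℝ)) by
      funext p
      by_cases hp : p ∈ ball y R
      · rw [indicator_of_mem hp, indicator_of_mem]
        simpa [dist_eq_norm] using hp
      · rw [indicator_of_notMem hp, indicator_of_notMem]
        simpa [dist_eq_norm] using hp,
      setIntegral_indicator measurableSet_ball, setIntegral_const, smul_eq_mul, mul_one]
  rw [e]
  refine Continuous.div_const (continuous_iff_continuousAt.2 fun y0 => ?_) _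
  refine continuousAt_of_dominated (bound := (ball y0 (R + 1)).indicator fun _ => (1 : ℝ))
    (Eventually.of_forall fun y => ?_) ?_ ?_ ?_
  · exact ((measurable_const.indicator measurableSet_ball).comp
      (measurable_id.sub_const y)).aestronglyMeasurable
  · filter_upwards [ball_mem_nhds y0 one_pos] with y hy
    refine Eventually.of_forall fun p => ?_
    by_cases hp : p - y ∈ ball (0 : Eu d) R
    · rw [indicator_of_mem hp, indicator_of_mem, norm_one]
      rw [mem_ball_zero_iff] at hp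
      rw [mem_ball, dist_eq_norm] at hy ⊢
      linarith [norm_sub_le_norm_sub_add_norm_sub p y y0]
    · rw [indicator_of_notMem hp, norm_zero]
      exact indicator_nonneg (fun _ _ => zero_le_one) p
  · exact ((integrable_indicator_iff measurableSet_ball).2
      (integrableOn_const measure_ball_lt_top.ne)).integrableOn
  · have hs : volume (sphere y0 R) = 0 := Measure.addHaar_sphere_of_ne_zero volume y0 hR.ne'
    filter_upwards [ae_restrict_of_ae (measure_eq_zero_iff_ae_notMem.1 hs)] with p hp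
    have hopen : IsOpen {y : Eu d | ‖p - y‖ ≠ R} :=
      isOpen_ne_fun (by fun_prop) continuous_const
    have hne : ‖p - y0‖ ≠ R := by rwa [mem_sphere, dist_eq_norm] at hp
    refine (continuousAt_congr ?_).2
      (continuousAt_const (y := (ball (0 : Eu d) R).indicator (fun _ => (1 : ℝ)) (p - y0)))
    rcases lt_or_gt_of_ne hne with hlt | hgt
    · filter_upwards [(isOpen_lt (by fun_prop : Continuous fun y => ‖p - y‖)
        continuous_const).mem_nhds hlt] with y hy
      rw [indicator_of_mem (mem_ball_zero_iff.2 hy), indicator_of_mem (mem_ball_zero_iff.2 hlt)]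
    · filter_upwards [(isOpen_lt continuous_const
        (by fun_prop : Continuous fun y => ‖p - y‖)).mem_nhds hgt] with y hy
      rw [indicator_of_notMem fun hc => not_lt.2 hy.le (mem_ball_zero_iff.1 hc),
        indicator_of_notMem fun hc => not_lt.2 hgt.le (mem_ball_zero_iff.1 hc)]

/-- Half-space approximation with an error that is linear in the defect. -/
def IsFlat (E : Set (Eu d)) (z e : Eu d) (a ρ b η : ℝ) : Prop :=
  volume.real (E ∩ ball z ρ ∩ {p | ⟪e, p - z⟫ < a - b}) ≤ η ∧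
    volume.real (Eᶜ ∩ ball z ρ ∩ {p | a + b < ⟪e, p - z⟫}) ≤ η

theorem flat_exists (d : ℕ) (hd : 0 < d) {C β : ℝ} (hC : 1 ≤ C) (hβ : 0 < β) (hβ1 : β ≤ 1) :
    ∃ δ K : ℝ, 0 < δ ∧ 0 ≤ K ∧ ∀ (E : Set (Eu d)) (z : Eu d) (r : ℝ), MeasurableSet E → 0 < r →
      wdef E z (81 * C * r) ≤ δ * r ^ (2 * d) →
      ∃ e : Eu d, ∃ a : ℝ, ‖e‖ = 1 ∧
        IsFlat E z e a (C * r) (β * r) (K * (wdef E z (81 * C * r) / r ^ d)) := by
  set ω := volume.real (ball (0 : Eu d) 1) with hω
  have hωp : 0 < ω := unit_ball_pos d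
  have hq : 0 < β / 2 := by linarith
  set ε := ω * (β / 2) ^ d / (4 * C ^ d) with hεdef
  have hεp : 0 < ε := by positivity
  obtain ⟨δ0, u0, hδ0, hu0, hhs⟩ := half_space_scaled d hd (β := β / (2 * C)) (ε := ε)
    (by positivity) (by rw [div_le_one (by positivity)]; linarith) hεp
  set u := min u0 (1 / 4) with hu
  have hup : 0 < u := lt_min hu0 (by norm_num)
  set K := max (1 / (2 * u * (C ^ d * ω))) (2 / ((β / 2) ^ d * ω)) with hK
  have hK0 : 0 ≤ K := le_max_of_le_right (by positivity)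
  refine ⟨δ0 * C ^ (2 * d), K, by positivity, hK0, fun E z r hE hr hW => ?_⟩
  set R := C * r with hR
  have hRp : 0 < R := by positivity
  set W := wdef E z (81 * C * r) with hWdef
  have hW0 : 0 ≤ W := wdef_nonneg _ _ _
  have hρ : ∀ {S : Set (Eu d)}, S ⊆ ball z R → S ⊆ ball z (81 * C * r) := fun h =>
    h.trans (ball_subset_ball (by nlinarith))
  have hrd : 0 < r ^ d := pow_pos hr d
  have hlin : ∀ (F S : Set (Eu d)), MeasurableSet F → wdef F z (81 * C * r) = W → MeasurableSet S →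
      S ⊆ F ∩ ball z R → ∀ q η c : ℝ, 0 < q → q ≤ R → η < 1 / 2 → 0 < c →
      (∀ y ∈ S, dens F y q ≤ η) → c * r ^ d ≤ (1 - 2 * η) * (q ^ d * ω) → 1 / c ≤ K →
      volume.real S ≤ K * (W / r ^ d) := by
    intro F S hF hFW hSm hS q η c hq0 hqR hη hc hlow hcq hcK
    have h := wdef_low hF hSm (z := z) (ρ := 81 * C * r) hq0 (hqR.trans (by nlinarith)) hη
      (fun y hy => ⟨(hS hy).1, hρ subset_rfl (hS hy).2⟩) hlow
    rw [hFW, ← hω] at h
    have h1 : volume.real S * (c * r ^ d) ≤ W :=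
      le_trans (by rw [mul_comm]; exact mul_le_mul_of_nonneg_right hcq measureReal_nonneg) h
    calc volume.real S ≤ W / (c * r ^ d) := (le_div_iff₀ (by positivity)).2 h1
      _ = 1 / c * (W / r ^ d) := by rw [div_mul_div_comm, one_mul]
      _ ≤ _ := mul_le_mul_of_nonneg_right hcK (by positivity)
  have hqR : R ^ d = C ^ d * r ^ d := by rw [hR, mul_pow]
  have hempty : volume.real (∅ : Set (Eu d)) ≤ K * (W / r ^ d) := by
    rw [measureReal_empty]; positivity
  have hinner : ∀ {e p : Eu d}, ‖e‖ = 1 → p ∈ ball z R → |⟪e, p - z⟫| < R := fun he hp => by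
    refine lt_of_le_of_lt ((abs_real_inner_le_norm _ _).trans (le_of_eq ?_)) (mem_ball_iff_norm.1 hp)
    rw [he, one_mul]
  set e1 : Eu d := EuclideanSpace.single ⟨0, hd⟩ 1
  have he1 : ‖e1‖ = 1 := by simp [e1]
  have hKu : 1 / (2 * u * (C ^ d * ω)) ≤ K := le_max_left _ _
  by_cases hlow : ∀ y ∈ ball z R, dens E y R ≤ 1 / 2 - u
  · refine ⟨e1, R + β * r, he1, ?_, ?_⟩
    · exact hlin E _ hE rfl ((hE.inter measurableSet_ball).inter
        (isOpen_lt (by fun_prop) continuous_const).measurableSet) inter_subset_left R _ _ hRp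
        le_rfl (by linarith) (by positivity) (fun y hy => hlow y hy.1.2)
        (le_of_eq (by rw [hqR]; ring)) hKu
    · refine le_trans (le_of_eq (congrArg volume.real ?_)) hempty
      refine eq_empty_of_forall_notMem fun p hp => ?_
      have := abs_lt.1 (hinner he1 hp.1.2)
      linarith [show R + β * r + β * r < ⟪e1, p - z⟫ from hp.2, mul_pos hβ hr]
  by_cases hhigh : ∀ y ∈ ball z R, 1 / 2 + u ≤ dens E y R
  · refine ⟨e1, -(R + β * r), he1, ?_, ?_⟩
    · refine le_trans (le_of_eq (congrArg volume.real ?_)) hempty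
      refine eq_empty_of_forall_notMem fun p hp => ?_
      have := abs_lt.1 (hinner he1 hp.1.2)
      linarith [show ⟪e1, p - z⟫ < -(R + β * r) - β * r from hp.2, mul_pos hβ hr]
    · exact hlin Eᶜ _ hE.compl (wdef_compl E z _) ((hE.compl.inter measurableSet_ball).inter
        (isOpen_lt continuous_const (by fun_prop)).measurableSet) inter_subset_left R (1 / 2 - u) _
        hRp le_rfl (by linarith) (by positivity)
        (fun y hy => by rw [dens_compl E hE y hRp]; linarith [hhigh y hy.1.2])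
        (le_of_eq (by rw [hqR]; ring)) hKu
  push Not at hlow hhigh
  obtain ⟨y0, hy0, hy0d⟩ : ∃ y ∈ ball z R, |dens E y R - 1 / 2| ≤ u := by
    by_contra hcon
    push Not at hcon
    obtain ⟨y1, hy1, h1⟩ := hlow
    obtain ⟨y2, hy2, h2⟩ := hhigh
    have h1' : 1 / 2 < dens E y1 R := by
      rcases lt_abs.1 (hcon y1 hy1) with h | h <;> linarith
    have h2' : dens E y2 R < 1 / 2 := by
      rcases lt_abs.1 (hcon y2 hy2) with h | h <;> linarith
    obtain ⟨y, hy, hyd⟩ := (convex_ball z R).isPreconnected.intermediate_value hy2 hy1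
      (continuous_dens E hE hRp).continuousOn ⟨h2'.le, h1'.le⟩
    have := hcon y hy
    rw [show dens E y R = 1 / 2 from hyd, sub_self, abs_zero] at this
    linarith
  have hyz : dist y0 z < R := mem_ball.1 hy0
  have hsub80 : wdef E y0 (80 * R) ≤ W := by
    refine measureReal_mono (inter_subset_inter_right _ (prod_mono ?_ ?_))
      (ne_top_of_le_ne_top (ball_prod_ne_top _ _ _ _) (measure_mono inter_subset_right))
    · exact ball_subset_ball' (by nlinarith)
    · exact ball_subset_ball (by nlinarith)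
  obtain ⟨e, he, hlo, hhi⟩ := hhs E y0 R hE hRp
    (hsub80.trans (hW.trans (le_of_eq (by rw [hR, mul_pow]; ring)))) (hy0d.trans (min_le_left _ _))
  have hband : ∀ y p : Eu d, ⟪e, p - y0⟫ ≤ ⟪e, y - y0⟫ + ‖p - y‖ := fun y p => by
    have h3 : ⟪e, p - y⟫ ≤ ‖p - y‖ :=
      (real_inner_le_norm e (p - y)).trans (by rw [he, one_mul])
    rw [show p - y0 = (y - y0) + (p - y) by abel, inner_add_right]
    linarith
  have hyy0 : ∀ y : Eu d, ⟪e, y - z⟫ = ⟪e, y - y0⟫ + ⟪e, y0 - z⟫ := fun y => by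
    rw [← inner_add_right, sub_add_sub_cancel]
  have hβR : β / (2 * C) * R = β / 2 * r := by rw [hR]; field_simp
  rw [hβR] at hlo hhi
  have hqle : β / 2 * r ≤ R := by rw [hR]; nlinarith
  have hq' : 0 < β / 2 * r := by positivity
  have hcK : 1 / ((β / 2) ^ d * ω / 2) ≤ K :=
    le_trans (le_of_eq (by field_simp)) (le_max_right _ _)
  have hdens : ∀ (F T : Set (Eu d)) (y : Eu d), F ∩ ball y (β / 2 * r) ⊆ T →
      volume T ≠ ⊤ → volume.real T ≤ ε * R ^ d → dens F y (β / 2 * r) ≤ 1 / 4 := by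
    intro F T y hsub hT hTb
    rw [dens, ball_real y hq', ← hω, div_le_iff₀ (by positivity)]
    refine ((measureReal_mono hsub hT).trans hTb).trans (le_of_eq ?_)
    rw [hqR, hεdef, mul_pow]
    field_simp
  have hfin : ∀ S : Set (Eu d), volume (S ∩ ball y0 (3 * R)) ≠ ⊤ := fun S =>
    ne_top_of_le_ne_top measure_ball_lt_top.ne (measure_mono inter_subset_right)
  have h3R : ∀ y ∈ ball z R, ball y (β / 2 * r) ⊆ ball y0 (3 * R) := fun y hy =>
    ball_subset_ball' (by
      have := dist_triangle_right y y0 z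
      linarith [mem_ball.1 hy])
  refine ⟨e, ⟪e, y0 - z⟫, he, ?_, ?_⟩
  · refine hlin E _ hE rfl ((hE.inter measurableSet_ball).inter
      (isOpen_lt (by fun_prop) continuous_const).measurableSet) inter_subset_left (β / 2 * r)
      (1 / 4) ((β / 2) ^ d * ω / 2) hq' hqle (by norm_num) (by positivity) (fun y hy => ?_)
      (le_of_eq (by rw [mul_pow]; ring)) hcK
    refine hdens E (E ∩ ball y0 (3 * R) ∩ {p | ⟪e, p - y0⟫ < -(β / 2 * r)}) y (fun p hp =>
      ⟨⟨hp.1, h3R y hy.1.2 hp.2⟩, ?_⟩) (ne_top_of_le_ne_top (hfin E)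
        (measure_mono inter_subset_left)) hlo
    have h1 : ⟪e, y - z⟫ < ⟪e, y0 - z⟫ - β * r := hy.2
    have h2 := hyy0 y
    show ⟪e, p - y0⟫ < -(β / 2 * r)
    linarith [hband y p, mem_ball_iff_norm.1 hp.2]
  · refine hlin Eᶜ _ hE.compl (wdef_compl E z _) ((hE.compl.inter measurableSet_ball).inter
      (isOpen_lt continuous_const (by fun_prop)).measurableSet) inter_subset_left (β / 2 * r)
      (1 / 4) ((β / 2) ^ d * ω / 2) hq' hqle (by norm_num) (by positivity) (fun y hy => ?_)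
      (le_of_eq (by rw [mul_pow]; ring)) hcK
    refine hdens Eᶜ (Eᶜ ∩ ball y0 (3 * R) ∩ {p | β / 2 * r < ⟪e, p - y0⟫}) y (fun p hp =>
      ⟨⟨hp.1, h3R y hy.1.2 hp.2⟩, ?_⟩) (ne_top_of_le_ne_top (hfin Eᶜ)
        (measure_mono inter_subset_left)) hhi
    have h1 : ⟪e, y0 - z⟫ + β * r < ⟪e, y - z⟫ := hy.2
    have h2 := hyy0 y
    show β / 2 * r < ⟪e, p - y0⟫
    linarith [hband p y, (norm_sub_rev y p).le, mem_ball_iff_norm.1 hp.2]

/-- Two nested flat sets that both cross the inner region have almost the same normal. -/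
theorem normals_close {E F : Set (Eu d)} (hE : MeasurableSet E) (hEF : E ⊆ F) {z e e' : Eu d}
    {a a' ρ b η η' r C1 τ : ℝ} (hr : 0 < r) (he : ‖e‖ = 1) (he' : ‖e'‖ = 1)
    (h : IsFlat E z e a ρ b η) (h' : IsFlat F z e' a' ρ b η') (ha : |a| ≤ C1 * r)
    (ha' : |a'| ≤ C1 * r) (hb : b ≤ r) (hτ : 0 < τ) (hρ : (4 * (C1 + 2) / τ ^ 2 + 1) * r ≤ ρ)
    (hsmall : η + η' < r ^ d * volume.real (ball (0 : Eu d) 1)) : ‖e - e'‖ ≤ τ := by
  by_contra hcon
  push Not at hcon
  set S := 2 * (C1 + 2) / τ ^ 2 * r with hS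
  have hS0 : 0 ≤ S := by
    have : 0 ≤ C1 := by nlinarith [abs_nonneg a]
    positivity
  have hsq : ‖e - e'‖ ^ 2 = 2 - 2 * ⟪e, e'⟫ := by
    rw [norm_sub_sq_real, he, he']; ring
  have hw1 : ⟪e, S • (e - e')⟫ = S * (1 - ⟪e, e'⟫) := by
    rw [real_inner_smul_right, inner_sub_right, real_inner_self_eq_norm_sq, he]; ring
  have hw2 : ⟪e', S • (e - e')⟫ = -(S * (1 - ⟪e, e'⟫)) := by
    rw [real_inner_smul_right, inner_sub_right, real_inner_self_eq_norm_sq, he', real_inner_comm]
    ring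
  have hbig : (C1 + 2) * r ≤ S * (1 - ⟪e, e'⟫) := by
    have h1 : τ ^ 2 / 2 ≤ 1 - ⟪e, e'⟫ := by
      nlinarith [pow_le_pow_left₀ hτ.le hcon.le 2]
    refine le_trans (le_of_eq ?_) (mul_le_mul_of_nonneg_left h1 hS0)
    rw [hS]; field_simp
  have hwn : ‖S • (e - e')‖ ≤ 2 * S := by
    rw [norm_smul, Real.norm_eq_abs, abs_of_nonneg hS0, mul_comm 2 S]
    exact mul_le_mul_of_nonneg_left ((norm_sub_le e e').trans (by rw [he, he']; norm_num)) hS0
  set c := z + S • (e - e') with hc
  have hcb : ∀ p ∈ ball c r, p ∈ ball z ρ ∧ |⟪e, p - z⟫ - S * (1 - ⟪e, e'⟫)| < r ∧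
      |⟪e', p - z⟫ + S * (1 - ⟪e, e'⟫)| < r := by
    intro p hp
    rw [mem_ball_iff_norm] at hp
    have e0 : p - z = S • (e - e') + (p - c) := by rw [hc]; abel
    refine ⟨mem_ball_iff_norm.2 ?_, ?_, ?_⟩
    · rw [e0]
      refine lt_of_le_of_lt (norm_add_le _ _) (lt_of_lt_of_le (b := 2 * S + r) (by linarith) ?_)
      refine le_trans (le_of_eq ?_) hρ
      rw [hS]; ring
    · rw [e0, inner_add_right, hw1, add_sub_cancel_left]
      exact lt_of_le_of_lt ((abs_real_inner_le_norm _ _).trans (by rw [he, one_mul])) hp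
    · rw [e0, inner_add_right, hw2, neg_add_cancel_comm]
      exact lt_of_le_of_lt ((abs_real_inner_le_norm _ _).trans (by rw [he', one_mul])) hp
  have hsub : ball c r ⊆ (Eᶜ ∩ ball z ρ ∩ {p | a + b < ⟪e, p - z⟫})
      ∪ (F ∩ ball z ρ ∩ {p | ⟪e', p - z⟫ < a' - b}) := by
    intro p hp
    obtain ⟨h1, h2, h3⟩ := hcb p hp
    rw [abs_lt] at h2 h3
    rw [abs_le] at ha ha'
    by_cases hpE : p ∈ E
    · exact Or.inr ⟨⟨hEF hpE, h1⟩, by show ⟪e', p - z⟫ < a' - b; linarith⟩
    · exact Or.inl ⟨⟨hpE, h1⟩, by show a + b < ⟪e, p - z⟫; linarith⟩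
  have hfin : ∀ T S' : Set (Eu d), volume (T ∩ ball z ρ ∩ S') ≠ ⊤ := fun T S' =>
    ne_top_of_le_ne_top measure_ball_lt_top.ne (measure_mono fun p hp => hp.1.2)
  have h4 := (measureReal_mono (μ := volume) hsub
    (measure_union_ne_top (hfin _ _) (hfin _ _))).trans (measureReal_union_le _ _)
  rw [ball_real c hr] at h4
  linarith [h.2, h'.1]

end

end Vale.Agent.P137
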