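import Vale.Agent.P137.Unc.Defect

/-!
# P137: adding balls in which a set is dense costs a multiple of the boundary of the set

Random lattice lines: from an exit point of the enlarged set one walks inside it until the first
entry into the dense set.
-/

namespace Vale.Agent.P137

open MeasureTheory Set Metric Filter
open scoped ENNReal NNReal Topology RealInnerProductSpace

noncomputable section

variable {d : ℕ}

/-- The measure of the points of `A` that enter `G` under the shift `v`. -/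
def jump (A G : Set (Eu d)) (v : Eu d) : ℝ≥0∞ := volume (A ∩ {y | y ∉ G ∧ y + v ∈ G})

theorem jump_zero (A G : Set (Eu d)) : jump A G 0 = 0 := by
  rw [jump, show {y : Eu d | y ∉ G ∧ y + 0 ∈ G} = ∅ by ext y; simp, inter_empty, measure_empty]

/-- The points `y` from which the lattice line of step `w` runs inside `U` into `G`. -/
def walkSet (A G U : Set (Eu d)) (K : ℕ) (R : ℝ) (w : Eu d) : Set (Eu d) :=
  {y | y ∈ A ∧ y ∉ U ∧ ∃ N : ℕ, N * ‖w‖ ≤ R ∧ y + (N : ℝ) • w ∈ G ∧
    ∀ i : ℕ, K ≤ i → i ≤ N → y + (i : ℝ) • w ∈ U}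

/-- Candidates for the last step before `G`, `i` steps after an exit of `U`. -/
def entrySet (A G U : Set (Eu d)) (K : ℕ) (w : Eu d) (i : ℕ) : Set (Eu d) :=
  {z | (z ∈ A ∧ z ∉ G ∧ z + w ∈ G) ∧ z - (i : ℝ) • w ∉ U ∧
    ∀ i' : ℕ, i' + K ≤ i → z - (i' : ℝ) • w ∈ U}

theorem measurableSet_entrySet {A G U : Set (Eu d)} (hA : MeasurableSet A) (hG : MeasurableSet G)
    (hU : MeasurableSet U) (K : ℕ) (w : Eu d) (i : ℕ) :
    MeasurableSet (entrySet A G U K w i) := by
  have hm : ∀ c : ℝ, MeasurableSet {z : Eu d | z - c • w ∈ U} := fun c =>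
    (continuous_id.sub continuous_const).measurable hU
  simp only [entrySet, Set.ofPred_and, Set.ofPred_forall]
  exact (hA.inter (hG.compl.inter ((measurable_add_const w) hG))).inter
    ((hm _).compl.inter (MeasurableSet.iInter fun i' => MeasurableSet.iInter fun _ => hm _))

/-- Each entry point serves at most `K` exit points. -/
theorem walkSet_le {A A' G U : Set (Eu d)} (hA' : MeasurableSet A') (hG : MeasurableSet G)
    (hU : MeasurableSet U) (hGU : G ⊆ U) {K : ℕ} (hK : 1 ≤ K) {R : ℝ} {w : Eu d}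
    (hAA : ∀ y ∈ A, ∀ z, dist z y ≤ R → z ∈ A') :
    volume (walkSet A G U K R w) ≤ K * jump A' G w := by
  classical
  have hsub : walkSet A G U K R w
      ⊆ ⋃ i : ℕ, (fun y => y + (i : ℝ) • w) ⁻¹' entrySet A' G U K w i := by
    rintro y ⟨hyA, hyU, N, hN, hNG, hrun⟩
    have hex : ∃ n : ℕ, y + (n : ℝ) • w ∈ G := ⟨N, hNG⟩
    have h0 : Nat.find hex ≠ 0 := fun h => by
      have := Nat.find_spec hex
      rw [h] at this
      simp only [Nat.cast_zero, zero_smul, add_zero] at this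
      exact hyU (hGU this)
    obtain ⟨m, hm⟩ := Nat.exists_eq_succ_of_ne_zero h0
    have hmN : m + 1 ≤ N := by have := Nat.find_min' hex hNG; omega
    refine mem_iUnion.2 ⟨m, ⟨?_, Nat.find_min hex (show m < Nat.find hex by omega), ?_⟩, ?_,
      fun i' hi' => ?_⟩
    · refine hAA y hyA _ ?_
      rw [dist_eq_norm, add_sub_cancel_left, norm_smul, Real.norm_natCast]
      refine le_trans (mul_le_mul_of_nonneg_right ?_ (norm_nonneg w)) hN
      exact_mod_cast (by omega : m ≤ N)
    · have := Nat.find_spec hex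
      rw [hm, Nat.cast_succ, add_smul, one_smul, ← add_assoc] at this
      exact this
    · show y + (m : ℝ) • w - (m : ℝ) • w ∉ U
      rwa [add_sub_cancel_right]
    · show y + (m : ℝ) • w - (i' : ℝ) • w ∈ U
      rw [show y + (m : ℝ) • w - (i' : ℝ) • w = y + ((m - i' : ℕ) : ℝ) • w by
        rw [Nat.cast_sub (by omega), sub_smul]; abel]
      exact hrun _ (by omega) (by omega)
  set S := A' ∩ {z | z ∉ G ∧ z + w ∈ G} with hS
  have hSm : MeasurableSet S := hA'.inter (hG.compl.inter ((measurable_add_const w) hG))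
  refine (measure_mono hsub).trans ((measure_iUnion_le _).trans ?_)
  simp only [measure_preimage_add_right]
  simp only [← lintegral_indicator_one (measurableSet_entrySet hA' hG hU K w _)]
  rw [← lintegral_tsum fun i =>
    (measurable_one.indicator (measurableSet_entrySet hA' hG hU K w i)).aemeasurable]
  refine (lintegral_mono (g := S.indicator fun _ => (K : ℝ≥0∞)) fun z => ?_).trans
    (le_of_eq (lintegral_indicator_const hSm _))
  by_cases hz : ∃ i, z ∈ entrySet A' G U K w i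
  · rw [indicator_of_mem (show z ∈ S from ⟨hz.choose_spec.1.1, hz.choose_spec.1.2⟩)]
    set i0 := Nat.find hz with hi0
    rw [tsum_eq_sum (s := Finset.Ico i0 (i0 + K))]
    · refine (Finset.sum_le_card_nsmul _ _ 1 fun i _ =>
        indicator_le_self' (fun _ _ => zero_le) z).trans (le_of_eq ?_)
      simp
    · intro i hi
      refine indicator_of_notMem (fun hzi => hi (Finset.mem_Ico.2 ⟨Nat.find_min' hz hzi, ?_⟩)) _
      by_contra hcon
      exact (Nat.find_spec hz).2.1 (hzi.2.2 i0 (by omega))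
  · push Not at hz
    simp [fun i => indicator_of_notMem (hz i) (1 : Eu d → ℝ≥0∞)]

theorem measurableSet_walk {A G U : Set (Eu d)} (hA : MeasurableSet A) (hG : MeasurableSet G)
    (hU : MeasurableSet U) (K : ℕ) (R τ : ℝ) :
    MeasurableSet {p : Eu d × Eu d | p.1 ∈ walkSet A G U K R (τ • p.2)} := by
  have hm : ∀ (c : ℝ) {T : Set (Eu d)}, MeasurableSet T →
      MeasurableSet {p : Eu d × Eu d | p.1 + c • τ • p.2 ∈ T} := fun c T hT =>
    (continuous_fst.add ((continuous_snd.const_smul τ).const_smul c)).measurable hT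
  have hn : ∀ c : ℝ, MeasurableSet {p : Eu d × Eu d | c * ‖τ • p.2‖ ≤ R} := fun c =>
    (isClosed_le ((continuous_snd.const_smul τ).norm.const_mul c) continuous_const).measurableSet
  show MeasurableSet {p : Eu d × Eu d | p.1 ∈ A ∧ p.1 ∉ U ∧ ∃ N : ℕ, (N : ℝ) * ‖τ • p.2‖ ≤ R ∧
    p.1 + (N : ℝ) • τ • p.2 ∈ G ∧ ∀ i : ℕ, K ≤ i → i ≤ N → p.1 + (i : ℝ) • τ • p.2 ∈ U}
  simp only [Set.ofPred_and, Set.ofPred_exists, Set.ofPred_forall]
  exact (measurable_fst hA).inter ((measurable_fst hU).compl.inter (MeasurableSet.iUnion fun N =>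
    (hn _).inter ((hm _ hG).inter (MeasurableSet.iInter fun i => MeasurableSet.iInter fun _ =>
      MeasurableSet.iInter fun _ => hm _ hU))))

/-- A segment from just outside a ball to a distant interior point enters the ball quickly. -/
theorem segment_mem_ball {c y w : Eu d} {r τ ε s : ℝ} (hr : 0 < r) (hτr : τ ≤ r) (hτ : 0 ≤ τ)
    (hy : dist y c < r + τ) (hw : dist w c < r) (hwy : ε * r ≤ dist w y) (hε : 0 ≤ ε)
    (hs : 3 * τ ≤ s * ε ^ 2 * r) (hs0 : 0 < s) (hs1 : s ≤ 1) :
    y + s • (w - y) ∈ ball c r := by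
  rw [mem_ball, dist_eq_norm]
  rw [dist_eq_norm] at hy hw hwy
  have e : ‖y + s • (w - y) - c‖ ^ 2
      = (1 - s) * ‖y - c‖ ^ 2 + s * ‖w - c‖ ^ 2 - s * (1 - s) * ‖w - y‖ ^ 2 := by
    have h1 : y + s • (w - y) - c = (y - c) + s • (w - y) := by abel
    have h2 : w - c = (y - c) + (w - y) := by abel
    rw [h1, h2, norm_add_sq_real, norm_add_sq_real, norm_smul, Real.norm_eq_abs, mul_pow, sq_abs,
      real_inner_smul_right]
    ring
  have i1 := mul_le_mul_of_nonneg_left (pow_le_pow_left₀ (norm_nonneg _) hy.le 2)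
    (by linarith : 0 ≤ 1 - s)
  have i2 := mul_lt_mul_of_pos_left (pow_lt_pow_left₀ hw (norm_nonneg _) two_ne_zero) hs0
  have i3 := mul_le_mul_of_nonneg_left (pow_le_pow_left₀ (mul_nonneg hε hr.le) hwy 2)
    (mul_nonneg hs0.le (by linarith : 0 ≤ 1 - s))
  have i4 : 2 * r * τ + τ ^ 2 ≤ 3 * τ * r := by nlinarith
  have i5 := mul_le_mul_of_nonneg_left
    (i4.trans (mul_le_mul_of_nonneg_right hs hr.le)) (by linarith : 0 ≤ 1 - s)
  have : ‖y + s • (w - y) - c‖ ^ 2 < r ^ 2 := by rw [e]; nlinarith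
  exact lt_of_pow_lt_pow_left₀ 2 hr.le this

/-- **The growth lemma.** -/
theorem growth (d : ℕ) (hd : 0 < d) {θ : ℝ} (hθ : 0 < θ) :
    ∃ C : ℝ≥0∞, C ≠ ⊤ ∧ ∃ κ : ℝ, 0 < κ ∧ κ ≤ 1 ∧
      ∀ (G : Set (Eu d)), MeasurableSet G → ∀ (s : Finset (Eu d × ℝ)) (ρ0 ρ1 : ℝ), 0 < ρ0 →
      (∀ b ∈ s, ρ0 ≤ b.2 ∧ b.2 ≤ ρ1 ∧
        θ * volume.real (ball b.1 b.2) ≤ volume.real (G ∩ ball b.1 b.2)) →
      ∀ (A A' : Set (Eu d)), MeasurableSet A → MeasurableSet A' →
      (∀ y ∈ A, ∀ z, dist z y ≤ 12 * ρ1 → z ∈ A') →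
      ∀ h : Eu d, ‖h‖ ≤ κ * ρ0 →
        jump A (G ∪ ⋃ b ∈ s, ball b.1 b.2) h
          ≤ jump A G h + C * ∫⁻ v in ball (0 : Eu d) 3, jump A' G (‖h‖ • v) := by
  set ω := volume.real (ball (0 : Eu d) 1) with hω
  have hωp : 0 < ω := unit_ball_pos d
  set ε := min θ 1 / 2 with hεdef
  have hεp : 0 < ε := by positivity
  have hε1 : ε ≤ 1 := by linarith [min_le_right θ 1]
  set K := ⌈6 / ε ^ 2⌉₊ with hKdef
  have hK : 6 / ε ^ 2 ≤ K := Nat.le_ceil _
  have hK1 : 1 ≤ K := Nat.ceil_pos.2 (by positivity)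
  set c := θ * ω / 2 / 2 ^ d with hcdef
  have hc : 0 < c := by positivity
  refine ⟨ENNReal.ofReal c⁻¹ * K, ENNReal.mul_ne_top ENNReal.ofReal_ne_top (ENNReal.natCast_ne_top _),
    1, one_pos, le_rfl, fun G hG s ρ0 ρ1 hρ0 hs A A' hA hA' hAA h hh => ?_⟩
  rw [one_mul] at hh
  rcases eq_or_ne h 0 with rfl | hh0
  · rw [jump_zero]; exact zero_le
  set τ := ‖h‖ with hτdef
  have hτ : 0 < τ := norm_pos_iff.2 hh0
  set U := G ∪ ⋃ b ∈ s, ball b.1 b.2 with hUdef
  have hU : MeasurableSet U :=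
    hG.union (MeasurableSet.biUnion s.countable_toSet fun b _ => measurableSet_ball)
  set Y := A ∩ {y | y ∉ U ∧ y + h ∈ ⋃ b ∈ s, ball b.1 b.2} with hY
  have hYm : MeasurableSet Y := hA.inter (hU.compl.inter ((measurable_add_const h)
    (MeasurableSet.biUnion s.countable_toSet fun b _ => measurableSet_ball)))
  have hsplit : jump A U h ≤ jump A G h + volume Y := by
    refine (measure_mono ?_).trans (measure_union_le _ _)
    rintro y ⟨hyA, hy, hy' | hy'⟩
    · exact Or.inl ⟨hyA, fun hyG => hy (Or.inl hyG), hy'⟩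
    · exact Or.inr ⟨hyA, hy, hy'⟩
  refine hsplit.trans (add_le_add le_rfl ?_)
  have hW := measurableSet_walk hA hG hU K (12 * ρ1) τ
  have hlow : ∀ y ∈ Y, ENNReal.ofReal c
      ≤ ∫⁻ v in ball (0 : Eu d) 3,
        {p : Eu d × Eu d | p.1 ∈ walkSet A G U K (12 * ρ1) (τ • p.2)}.indicator 1 (y, v) := by
    rintro y ⟨hyA, hyU, hyb⟩
    simp only [mem_iUnion, exists_prop] at hyb
    obtain ⟨⟨ctr, r⟩, hbs, hyh⟩ := hyb
    obtain ⟨hr0, hr1, hdense⟩ := hs _ hbs
    simp only at hr0 hr1 hdense hyh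
    have hr : 0 < r := hρ0.trans_le hr0
    have hyc : dist y ctr < r + τ := by
      have := dist_triangle y (y + h) ctr
      rw [dist_self_add_right] at this
      linarith [mem_ball.1 hyh]
    set j := ⌈r / τ⌉₊ with hj
    have hj1 : r ≤ j * τ := (div_le_iff₀ hτ).1 (Nat.le_ceil _)
    have hj2 : (j : ℝ) * τ ≤ 2 * r := by
      have := mul_lt_mul_of_pos_right (Nat.ceil_lt_add_one (div_nonneg hr.le hτ.le)) hτ
      rw [add_mul, div_mul_cancel₀ _ hτ.ne', one_mul, ← hj] at this
      linarith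
    have hjτ : 0 < (j : ℝ) * τ := hr.trans_le hj1
    have hj0 : (0 : ℝ) < j := pos_of_mul_pos_left hjτ hτ.le
    set T := (G ∩ ball ctr r) \ ball y (ε * r) with hT
    set V := (fun v => ((j : ℝ) * τ) • v) ⁻¹' ((fun z => y + z) ⁻¹' T) with hV
    have hVm : MeasurableSet V := by
      refine (measurable_const_smul _) ((measurable_const_add y) ?_)
      exact (hG.inter measurableSet_ball).diff measurableSet_ball
    have hTv : θ * ω * r ^ d / 2 ≤ volume.real T := by
      have h1 : volume.real (G ∩ ball ctr r) ≤ volume.real T + volume.real (ball y (ε * r)) := by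
        refine (measureReal_mono (subset_sdiff_union (G ∩ ball ctr r) (ball y (ε * r))) ?_).trans (measureReal_union_le _ _)
        exact measure_union_ne_top (ne_top_of_le_ne_top measure_ball_lt_top.ne
          (measure_mono fun z hz => hz.1.2)) measure_ball_lt_top.ne
      rw [ball_real y (mul_pos hεp hr), mul_pow, ← hω] at h1
      rw [ball_real ctr hr, ← hω] at hdense
      have h2 : ε ^ d ≤ θ / 2 := (pow_le_of_le_one hεp.le hε1 hd.ne').trans
        (by linarith [min_le_left θ 1])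
      nlinarith [mul_le_mul_of_nonneg_right h2 (mul_pos (pow_pos hr d) hωp).le]
    have hVc : ENNReal.ofReal c ≤ volume V := by
      have hfT : volume T ≠ ⊤ :=
        ne_top_of_le_ne_top measure_ball_lt_top.ne (measure_mono fun z hz => hz.1.2)
      rw [hV, Measure.addHaar_preimage_smul volume hjτ.ne', measure_preimage_add,
        finrank_euclideanSpace_fin, abs_inv, abs_of_pos (pow_pos hjτ d),
        ← ENNReal.ofReal_toReal hfT, ← ENNReal.ofReal_mul (inv_nonneg.2 (pow_pos hjτ d).le)]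
      refine ENNReal.ofReal_le_ofReal ?_
      rw [← measureReal_def]
      calc c = θ * ω * r ^ d / 2 / (2 * r) ^ d := by
            rw [hcdef, mul_pow]; field_simp
        _ ≤ θ * ω * r ^ d / 2 / ((j : ℝ) * τ) ^ d :=
            div_le_div_of_nonneg_left (by positivity) (pow_pos hjτ d)
              (pow_le_pow_left₀ hjτ.le hj2 d)
        _ ≤ volume.real T / ((j : ℝ) * τ) ^ d :=
            div_le_div_of_nonneg_right hTv (pow_pos hjτ d).le
        _ = _ := div_eq_inv_mul _ _
    refine hVc.trans ?_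
    rw [← lintegral_indicator_one hVm, ← lintegral_indicator measurableSet_ball]
    refine lintegral_mono fun v => ?_
    by_cases hv : v ∈ V
    swap
    · rw [indicator_of_notMem hv]; exact zero_le
    have hvT : y + ((j : ℝ) * τ) • v ∈ T := hv
    have hw := mem_ball.1 hvT.1.2
    have hdist : dist (y + ((j : ℝ) * τ) • v) y = (j : ℝ) * τ * ‖v‖ := by
      rw [dist_eq_norm, add_sub_cancel_left, norm_smul, Real.norm_eq_abs, abs_of_pos hjτ]
    have hτr : τ ≤ r := hh.trans hr0
    have h3r : (j : ℝ) * τ * ‖v‖ < 3 * r := by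
      rw [← hdist]
      linarith [dist_triangle_right (y + ((j : ℝ) * τ) • v) y ctr]
    have hv3 : ‖v‖ < 3 := by
      nlinarith [mul_le_mul_of_nonneg_right hj1 (norm_nonneg v)]
    have hmem : (y, v) ∈ {p : Eu d × Eu d | p.1 ∈ walkSet A G U K (12 * ρ1) (τ • p.2)} := by
      refine ⟨hyA, hyU, j, ?_, ?_, fun i hi hij => Or.inr (mem_iUnion₂.2 ⟨(ctr, r), hbs, ?_⟩)⟩
      · rw [norm_smul, Real.norm_eq_abs, abs_of_pos hτ, ← mul_assoc]
        linarith
      · rw [smul_smul]; exact hvT.1.1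
      · have e : y + (i : ℝ) • τ • v
            = y + ((i : ℝ) / j) • (y + ((j : ℝ) * τ) • v - y) := by
          rw [add_sub_cancel_left, smul_smul, smul_smul, ← mul_assoc, div_mul_cancel₀ _ hj0.ne']
        show y + (i : ℝ) • τ • v ∈ ball ctr r
        rw [e]
        refine segment_mem_ball (ε := ε) hr hτr hτ.le hyc hw ?_ hεp.le ?_ ?_ ?_
        · exact not_lt.1 fun hlt => hvT.2 (mem_ball.2 hlt)
        · have h1 : (K : ℝ) ≤ i := by exact_mod_cast hi
          rw [div_le_iff₀ (by positivity)] at hK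
          rw [div_mul_eq_mul_div, div_mul_eq_mul_div, le_div_iff₀ hj0]
          nlinarith [mul_le_mul_of_nonneg_right (hK.trans (mul_le_mul_of_nonneg_right h1
            (sq_nonneg ε))) hr.le]
        · exact div_pos (Nat.cast_pos.2 (lt_of_lt_of_le hK1 hi)) hj0
        · exact (div_le_one hj0).2 (by exact_mod_cast hij)
    rw [indicator_of_mem hv, indicator_of_mem (mem_ball_zero_iff.2 hv3), indicator_of_mem hmem]
    rfl
  have h1 : ENNReal.ofReal c * volume Y
      ≤ ∫⁻ y, ∫⁻ v in ball (0 : Eu d) 3,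
        {p : Eu d × Eu d | p.1 ∈ walkSet A G U K (12 * ρ1) (τ • p.2)}.indicator 1 (y, v) :=
    calc ENNReal.ofReal c * volume Y = ∫⁻ _ in Y, ENNReal.ofReal c := (setLIntegral_const _ _).symm
      _ ≤ _ := setLIntegral_mono' hYm hlow
      _ ≤ _ := setLIntegral_le_lintegral _ _
  rw [lintegral_lintegral_swap (f := fun y v =>
    {p : Eu d × Eu d | p.1 ∈ walkSet A G U K (12 * ρ1) (τ • p.2)}.indicator 1 (y, v))
    (measurable_one.indicator hW).aemeasurable] at h1
  have h2 : ∫⁻ v in ball (0 : Eu d) 3, ∫⁻ y,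
      {p : Eu d × Eu d | p.1 ∈ walkSet A G U K (12 * ρ1) (τ • p.2)}.indicator 1 (y, v)
      ≤ K * ∫⁻ v in ball (0 : Eu d) 3, jump A' G (τ • v) := by
    rw [← lintegral_const_mul' _ _ (ENNReal.natCast_ne_top K)]
    refine lintegral_mono fun v => ?_
    refine le_trans (le_of_eq ?_) (walkSet_le (A := A) (R := 12 * ρ1) hA' hG hU subset_union_left
      hK1 hAA)
    rw [← lintegral_indicator_one
      (s := walkSet A G U K (12 * ρ1) (τ • v)) (measurable_prodMk_right hW)]
    rfl
  have h3 := mul_le_mul' (le_refl (ENNReal.ofReal c⁻¹)) (h1.trans h2)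
  rw [← mul_assoc, ← mul_assoc, ← ENNReal.ofReal_mul (inv_nonneg.2 hc.le), inv_mul_cancel₀ hc.ne',
    ENNReal.ofReal_one, one_mul] at h3
  exact h3

end

end Vale.Agent.P137
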