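import Vale.Agent.P137.Unc.Successor

/-!
# P137: the defects of all levels, summed over places and scales
-/

namespace Vale.Agent.P137

open MeasureTheory Set Metric Filter
open scoped ENNReal NNReal Topology RealInnerProductSpace Pointwise

noncomputable section

variable {d : ℕ}

/-- The defect of all levels at scale `k`. -/
def scaleMass (f : Eu d → ℝ) (L : ℝ) (k : ℤ) : ℝ≥0∞ :=
  ∫⁻ μ in Ioi (0 : ℝ), ∫⁻ w in ball (0 : Eu d) L, defTerm (lev f μ) w k

theorem measurableSet_lev_comp {f : Eu d → ℝ} (hf : Measurable f) {α : Type*} [MeasurableSpace α]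
    {a : α → ℝ} {p : α → Eu d} (ha : Measurable a) (hp : Measurable p) :
    MeasurableSet {x | p x ∈ lev f (a x)} :=
  measurableSet_lt ha (hf.comp hp)

theorem measurableSet_defectSet_comp {f : Eu d → ℝ} (hf : Measurable f) {α : Type*}
    [MeasurableSpace α] {a : α → ℝ} {p v : α → Eu d} (ha : Measurable a) (hp : Measurable p)
    (hv : Measurable v) : MeasurableSet {x | (p x, v x) ∈ defectSet (lev f (a x))} := by
  have h1 := measurableSet_lev_comp hf ha hp
  have h2 := measurableSet_lev_comp hf ha (hp.add hv)
  have h3 := measurableSet_lev_comp hf ha (hp.sub hv)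
  exact (h1.inter (h2.compl.inter h3.compl)).union (h1.compl.inter (h2.inter h3))

theorem measurable_defect_lev {f : Eu d → ℝ} (hf : Measurable f) (c : ℝ) :
    Measurable fun q : ℝ × Eu d => defect (lev f q.1) (c • q.2) :=
  measurable_measure_prodMk_left (ν := (volume : Measure (Eu d)))
    (s := {x : (ℝ × Eu d) × Eu d | (x.2, c • x.1.2) ∈ defectSet (lev f x.1.1)})
    (measurableSet_defectSet_comp hf (measurable_fst.comp measurable_fst) measurable_snd
      ((measurable_snd.comp measurable_fst).const_smul c))

theorem lintegral_levDefect {f : Eu d → ℝ} (hf : Measurable f) {L : ℝ} (hL : 0 < L) (k : ℤ) :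
    (ENNReal.ofReal (scale k))⁻¹ * ∫⁻ z, levDefect f z (scale k) L
      = volume (ball (0 : Eu d) L) * scaleMass f L k := by
  set r := scale k with hr
  have hr0 : 0 < r := scale_pos k
  set R := L * r
  have hrd : 0 < r ^ (2 * d) := pow_pos hr0 _
  have hW : ∀ (μ : ℝ) (z : Eu d), ENNReal.ofReal (wdef (lev f μ) z R / r ^ (2 * d))
      = ENNReal.ofReal (r ^ (2 * d))⁻¹
        * ∫⁻ v in ball (0 : Eu d) R, volume ({y | (y, v) ∈ defectSet (lev f μ)} ∩ ball z R) := by
    intro μ z
    rw [div_eq_inv_mul, ENNReal.ofReal_mul (inv_nonneg.2 hrd.le)]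
    congr 1
    rw [wdef, measureReal_def, ENNReal.ofReal_toReal (ne_top_of_le_ne_top
      (ball_prod_ne_top _ _ _ _) (measure_mono inter_subset_right)), Measure.volume_eq_prod,
      Measure.prod_apply_symm ((measurableSet_defectSet (measurableSet_lev hf μ)).inter
        (measurableSet_ball.prod measurableSet_ball)), ← lintegral_indicator measurableSet_ball]
    refine lintegral_congr fun v => ?_
    by_cases hv : v ∈ ball (0 : Eu d) R
    · rw [indicator_of_mem hv]
      congr 1
      ext y
      simp only [mem_preimage, mem_inter_iff, mem_prod, mem_ofPred_eq, hv, and_true]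
    · rw [indicator_of_notMem hv, measure_eq_zero_iff_ae_notMem]
      exact Eventually.of_forall fun y hy => hv hy.2.2
  have hswap : ∀ (μ : ℝ) (v : Eu d),
      ∫⁻ z, volume ({y | (y, v) ∈ defectSet (lev f μ)} ∩ ball z R)
        = volume (ball (0 : Eu d) R) * defect (lev f μ) v := by
    intro μ v
    set Q := {y | (y, v) ∈ defectSet (lev f μ)} with hQ
    have hQm : MeasurableSet Q := measurableSet_defect (measurableSet_lev hf μ) v
    set P := {q : Eu d × Eu d | q.2 ∈ Q ∧ dist q.2 q.1 < R}
    have hP : MeasurableSet P := (measurable_snd hQm).inter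
      (isOpen_lt (continuous_snd.dist continuous_fst) continuous_const).measurableSet
    calc ∫⁻ z, volume (Q ∩ ball z R) = (volume.prod volume) P := (Measure.prod_apply hP).symm
      _ = ∫⁻ y, volume ((fun z => (z, y)) ⁻¹' P) := Measure.prod_apply_symm hP
      _ = ∫⁻ y, Q.indicator (fun _ => volume (ball (0 : Eu d) R)) y := by
          refine lintegral_congr fun y => ?_
          by_cases hy : y ∈ Q
          · rw [indicator_of_mem hy, ← Measure.addHaar_ball_center volume y]
            congr 1
            ext z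
            simp [P, hy, dist_comm]
          · rw [indicator_of_notMem hy, show (fun z => (z, y)) ⁻¹' P = ∅ by ext z; simp [P, hy],
              measure_empty]
      _ = _ := lintegral_indicator_const hQm _
  have hmW : Measurable fun q : Eu d × ℝ =>
      ∫⁻ v in ball (0 : Eu d) R, volume ({y | (y, v) ∈ defectSet (lev f q.2)} ∩ ball q.1 R) := by
    refine Measurable.lintegral_prod_right' (f := fun q : (Eu d × ℝ) × Eu d =>
      volume ({y | (y, q.2) ∈ defectSet (lev f q.1.2)} ∩ ball q.1.1 R)) ?_
    exact measurable_measure_prodMk_left (ν := (volume : Measure (Eu d)))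
      (s := {x : ((Eu d × ℝ) × Eu d) × Eu d |
        (x.2, x.1.2) ∈ defectSet (lev f x.1.1.2) ∧ x.2 ∈ ball x.1.1.1 R})
      ((measurableSet_defectSet_comp hf (measurable_snd.comp (measurable_fst.comp measurable_fst))
        measurable_snd (measurable_snd.comp measurable_fst)).inter
        (isOpen_lt (continuous_snd.dist (continuous_fst.comp (continuous_fst.comp continuous_fst)))
          continuous_const).measurableSet)
  have hscaled : ∀ μ : ℝ, ∫⁻ z, ∫⁻ v in ball (0 : Eu d) R,
      volume ({y | (y, v) ∈ defectSet (lev f μ)} ∩ ball z R)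
      = volume (ball (0 : Eu d) L) * ENNReal.ofReal (r ^ (2 * d))
        * ∫⁻ w in ball (0 : Eu d) L, defect (lev f μ) (r • w) := by
    intro μ
    rw [lintegral_lintegral_swap (f := fun (z v : Eu d) =>
      volume ({y | (y, v) ∈ defectSet (lev f μ)} ∩ ball z R))]
    swap
    · exact (measurable_measure_prodMk_left (ν := (volume : Measure (Eu d)))
        (s := {x : (Eu d × Eu d) × Eu d | (x.2, x.1.2) ∈ defectSet (lev f μ) ∧ x.2 ∈ ball x.1.1 R})
        ((measurableSet_defectSet_comp hf measurable_const measurable_snd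
          (measurable_snd.comp measurable_fst)).inter (isOpen_lt (continuous_snd.dist
            (continuous_fst.comp continuous_fst)) continuous_const).measurableSet)).aemeasurable
    simp only [hswap]
    rw [lintegral_const_mul' _ _ measure_ball_lt_top.ne]
    have hbR : ball (0 : Eu d) R = r • ball (0 : Eu d) L := by
      rw [_root_.smul_ball hr0.ne', smul_zero, Real.norm_eq_abs, abs_of_pos hr0, mul_comm]
    have hchange : ∫⁻ v in ball (0 : Eu d) R, defect (lev f μ) v
        = ENNReal.ofReal (r ^ d) * ∫⁻ w in ball (0 : Eu d) L, defect (lev f μ) (r • w) := by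
      have hmeas : Measurable fun v : Eu d => defect (lev f μ) v := by
        have h := (measurable_defect_lev hf 1).comp (measurable_prodMk_left (x := μ))
        simpa [Function.comp_def] using h
      have h := lintegral_map (μ := (volume : Measure (Eu d)))
        (f := (ball (0 : Eu d) R).indicator fun v => defect (lev f μ) v) (g := fun w => r • w)
        (hmeas.indicator measurableSet_ball) (measurable_const_smul r)
      rw [Measure.map_addHaar_smul volume hr0.ne', lintegral_smul_measure, finrank_euclideanSpace_fin,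
        lintegral_indicator measurableSet_ball, abs_inv, abs_of_pos (pow_pos hr0 d)] at h
      have e : ∫⁻ w, (ball (0 : Eu d) R).indicator (fun v => defect (lev f μ) v) (r • w)
          = ∫⁻ w in ball (0 : Eu d) L, defect (lev f μ) (r • w) := by
        rw [← lintegral_indicator measurableSet_ball]
        refine lintegral_congr fun w => ?_
        by_cases hw : w ∈ ball (0 : Eu d) L
        · rw [indicator_of_mem hw, indicator_of_mem (hbR ▸ smul_mem_smul_set hw)]
        · rw [indicator_of_notMem hw, indicator_of_notMem]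
          rw [hbR, smul_mem_smul_set_iff₀ hr0.ne']
          exact hw
      rw [← e, ← h, smul_eq_mul, ← mul_assoc, ← ENNReal.ofReal_mul (pow_pos hr0 d).le,
        mul_inv_cancel₀ (pow_pos hr0 d).ne', ENNReal.ofReal_one, one_mul]
    have hbv : volume (ball (0 : Eu d) R) = ENNReal.ofReal (r ^ d) * volume (ball (0 : Eu d) L) := by
      rw [show R = r * L from mul_comm L r, Measure.addHaar_ball_mul_of_pos volume 0 hr0 L,
        finrank_euclideanSpace_fin]
    rw [hchange, hbv, two_mul, pow_add, ENNReal.ofReal_mul (pow_pos hr0 d).le]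
    ring
  calc (ENNReal.ofReal r)⁻¹ * ∫⁻ z, levDefect f z r L
      = (ENNReal.ofReal r)⁻¹ * ∫⁻ μ in Ioi (0 : ℝ), ∫⁻ z, ENNReal.ofReal (r ^ (2 * d))⁻¹
          * ∫⁻ v in ball (0 : Eu d) R, volume ({y | (y, v) ∈ defectSet (lev f μ)} ∩ ball z R) := by
        simp only [levDefect, ← hW]
        rw [lintegral_lintegral_swap (f := fun (z : Eu d) (μ : ℝ) =>
          ENNReal.ofReal (wdef (lev f μ) z R / r ^ (2 * d)))]
        simp only [hW]
        exact (hmW.const_mul _).aemeasurable
    _ = (ENNReal.ofReal r)⁻¹ * ∫⁻ μ in Ioi (0 : ℝ), volume (ball (0 : Eu d) L)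
          * ∫⁻ w in ball (0 : Eu d) L, defect (lev f μ) (r • w) := by
        congr 1
        refine lintegral_congr fun μ => ?_
        rw [lintegral_const_mul' _ _ ENNReal.ofReal_ne_top, hscaled, ← mul_assoc, mul_left_comm,
          ← ENNReal.ofReal_mul (inv_nonneg.2 hrd.le), inv_mul_cancel₀ hrd.ne', ENNReal.ofReal_one,
          mul_one]
    _ = _ := by
        rw [lintegral_const_mul' _ _ measure_ball_lt_top.ne, mul_left_comm, scaleMass]
        simp only [defTerm]
        rw [← lintegral_const_mul' _ _ (by simpa using hr0)]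
        congr 1
        refine lintegral_congr fun μ => ?_
        rw [← lintegral_const_mul' _ _ (by simpa using hr0)]

/-- The shift of all levels is the increment of the function. -/
theorem lintegral_flip_lev {f : Eu d → ℝ} (hf : Measurable f) (h0 : ∀ x, 0 ≤ f x) (v : Eu d) :
    ∫⁻ μ in Ioi (0 : ℝ), flip (lev f μ) v = ∫⁻ y, ‖f (y + v) - f y‖ₑ := by
  set S := {q : ℝ × Eu d | ¬(q.2 + v ∈ lev f q.1 ↔ q.2 ∈ lev f q.1)} with hS
  have hSm : MeasurableSet S := by
    have h1 := measurableSet_lev_comp hf (α := ℝ × Eu d) measurable_fst (measurable_snd.add_const v)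
    have h2 := measurableSet_lev_comp hf (α := ℝ × Eu d) measurable_fst measurable_snd
    have e : S = ({q : ℝ × Eu d | q.2 + v ∈ lev f q.1} \ {q | q.2 ∈ lev f q.1})
        ∪ ({q | q.2 ∈ lev f q.1} \ {q : ℝ × Eu d | q.2 + v ∈ lev f q.1}) := by
      ext q; simp only [hS, Set.mem_union, Set.mem_sdiff, mem_ofPred_eq]; tauto
    rw [e]
    exact (h1.diff h2).union (h2.diff h1)
  calc ∫⁻ μ in Ioi (0 : ℝ), flip (lev f μ) v
      = ((volume.restrict (Ioi (0 : ℝ))).prod volume) S := (Measure.prod_apply hSm).symm
    _ = ∫⁻ y, (volume.restrict (Ioi (0 : ℝ))) ((fun μ => (μ, y)) ⁻¹' S) := Measure.prod_apply_symm hSm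
    _ = _ := by
        refine lintegral_congr fun y => ?_
        rw [Measure.restrict_apply (measurable_prodMk_right hSm)]
        have hcase : ∀ a b : ℝ, 0 ≤ a → a ≤ b →
            volume ({μ : ℝ | ¬(μ < b ↔ μ < a)} ∩ Ioi 0) = ENNReal.ofReal (b - a) := by
          intro a b ha hab
          refine le_antisymm ?_ ?_
          · refine (measure_mono (t := Icc a b) fun μ hμ => ?_).trans (le_of_eq Real.volume_Icc)
            obtain ⟨hμ, -⟩ := hμ
            simp only [mem_ofPred_eq, not_iff] at hμ
            constructor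
            · by_contra hc; push Not at hc; exact (hμ.2 hc) (hc.trans_le hab)
            · by_contra hc; push Not at hc
              exact absurd (hμ.1 (not_lt.2 hc.le)) (not_lt.2 (hab.trans hc.le))
          · rw [← Real.volume_Ioo]
            exact measure_mono fun μ hμ =>
              ⟨fun h => absurd (h.1 hμ.2) (not_lt.2 hμ.1.le), ha.trans_lt hμ.1⟩
        rcases le_total (f y) (f (y + v)) with hle | hle
        · rw [Real.enorm_eq_ofReal_abs, abs_of_nonneg (by linarith), ← hcase _ _ (h0 y) hle]
          rfl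
        · rw [Real.enorm_eq_ofReal_abs, abs_of_nonpos (by linarith), neg_sub,
            ← hcase _ _ (h0 (y + v)) hle]
          congr 1
          ext μ
          simp [hS, lev, iff_comm]

theorem measurable_flip_lev {f : Eu d → ℝ} (hf : Measurable f) (c : ℝ) :
    Measurable fun q : ℝ × Eu d => flip (lev f q.1) (c • q.2) := by
  have h1 := measurableSet_lev_comp hf (α := (ℝ × Eu d) × Eu d) (measurable_fst.comp measurable_fst)
    (measurable_snd.add ((measurable_snd.comp measurable_fst).const_smul c))
  have h2 := measurableSet_lev_comp hf (α := (ℝ × Eu d) × Eu d) (measurable_fst.comp measurable_fst)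
    measurable_snd
  have h : MeasurableSet {x : (ℝ × Eu d) × Eu d |
      ¬(x.2 + c • x.1.2 ∈ lev f x.1.1 ↔ x.2 ∈ lev f x.1.1)} := by
    have e : {x : (ℝ × Eu d) × Eu d | ¬(x.2 + c • x.1.2 ∈ lev f x.1.1 ↔ x.2 ∈ lev f x.1.1)}
        = ({x | x.2 + c • x.1.2 ∈ lev f x.1.1} \ {x | x.2 ∈ lev f x.1.1})
        ∪ ({x | x.2 ∈ lev f x.1.1} \ {x | x.2 + c • x.1.2 ∈ lev f x.1.1}) := by
      ext x; simp only [Set.mem_union, Set.mem_sdiff, mem_ofPred_eq]; tauto
    rw [e]
    exact (h1.diff h2).union (h2.diff h1)
  exact measurable_measure_prodMk_left (ν := (volume : Measure (Eu d))) h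

/-- **All scales together cost the variation.** -/
theorem sum_scaleMass_le {f : Eu d → ℝ} (hf : Measurable f) (h0 : ∀ x, 0 ≤ f x) {P : ℝ≥0∞}
    (hP : ∀ v : Eu d, ∫⁻ y, ‖f (y + v) - f y‖ₑ ≤ P * ‖v‖ₑ) {L : ℝ} (s : Finset ℤ) :
    ∑ k ∈ s, scaleMass f L k ≤ P * ENNReal.ofReal L * volume (ball (0 : Eu d) L) := by
  rcases s.eq_empty_or_nonempty with rfl | hne
  · simp
  set a := s.min' hne
  set b := s.max' hne
  have hsub : s ⊆ (Finset.range ((b - a).toNat + 1)).image fun i : ℕ => a + (i : ℤ) := by
    intro k hk
    have h1 := s.min'_le k hk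
    have h2 := s.le_max' k hk
    exact Finset.mem_image.2 ⟨(k - a).toNat, Finset.mem_range.2 (by omega), by omega⟩
  refine (Finset.sum_le_sum_of_subset hsub).trans ?_
  rw [Finset.sum_image (fun i _ j _ h => by simpa using h)]
  set n := (b - a).toNat + 1
  have hmd : ∀ k : ℤ, Measurable fun q : ℝ × Eu d => defTerm (lev f q.1) q.2 k := fun k =>
    (measurable_defect_lev hf (scale k)).const_mul _
  simp only [scaleMass]
  rw [← lintegral_finsetSum _ fun i _ => (hmd _).lintegral_prod_right']
  calc ∫⁻ μ in Ioi (0 : ℝ), ∑ i ∈ Finset.range n, ∫⁻ w in ball (0 : Eu d) L,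
        defTerm (lev f μ) w (a + i)
      ≤ ∫⁻ μ in Ioi (0 : ℝ), ∫⁻ w in ball (0 : Eu d) L, quot (lev f μ) w a := by
        refine lintegral_mono fun μ => ?_
        rw [← lintegral_finsetSum (f := fun (i : ℕ) (w : Eu d) => defTerm (lev f μ) w (a + i)) _
          fun i _ => (hmd _).comp (measurable_prodMk_left (x := μ))]
        refine lintegral_mono fun w => ?_
        exact le_self_add.trans (le_of_eq (sum_defTerm_le (measurableSet_lev hf μ) w a n))
    _ = ∫⁻ w in ball (0 : Eu d) L, ∫⁻ μ in Ioi (0 : ℝ), quot (lev f μ) w a :=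
        lintegral_lintegral_swap ((measurable_flip_lev hf (scale a)).const_mul _).aemeasurable
    _ ≤ ∫⁻ _ in ball (0 : Eu d) L, P * ENNReal.ofReal L := by
        refine setLIntegral_mono' measurableSet_ball fun w hw => ?_
        simp only [quot]
        rw [lintegral_const_mul' _ _ (by simpa using scale_pos a), lintegral_flip_lev hf h0]
        refine (mul_le_mul' le_rfl (hP _)).trans ?_
        rw [← ofReal_norm, norm_smul, Real.norm_eq_abs, abs_of_pos (scale_pos a),
          ENNReal.ofReal_mul (scale_pos a).le,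
          show (ENNReal.ofReal (scale a))⁻¹ * (P * (ENNReal.ofReal (scale a) * ENNReal.ofReal ‖w‖))
            = (ENNReal.ofReal (scale a))⁻¹ * ENNReal.ofReal (scale a) * (P * ENNReal.ofReal ‖w‖) by
            ring,
          ENNReal.inv_mul_cancel (by simpa using scale_pos a) ENNReal.ofReal_ne_top, one_mul]
        exact mul_le_mul' le_rfl (ENNReal.ofReal_le_ofReal (mem_ball_zero_iff.1 hw).le)
    _ = _ := setLIntegral_const _ _

end

end Vale.Agent.P137
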