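import Vale.Agent.P137.Unc.Growth
import Vale.Agent.P137.Unc.Scales

/-!
# P137: growth of a family of sets indexed by the level
-/

namespace Vale.Agent.P137

open MeasureTheory Set Metric Filter
open scoped ENNReal NNReal Topology RealInnerProductSpace

noncomputable section

variable {d : ℕ}

theorem pow_one_add_le_growth (d : ℕ) {t : ℝ} (ht : 0 ≤ t) (ht1 : t ≤ 1) :
    (1 + t) ^ d ≤ 1 + 2 ^ d * t := by
  have key : (1 + t) ^ d ≤ 1 + (2 ^ d - 1) * t := by
    induction d with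
    | zero => simp
    | succ d ih =>
      have h2 : (1 : ℝ) ≤ 2 ^ d := one_le_pow₀ one_le_two
      rw [pow_succ, pow_succ]
      nlinarith [mul_le_mul_of_nonneg_right ih (show 0 ≤ 1 + t by linarith),
        mul_nonneg (mul_nonneg ht (sub_nonneg.2 ht1)) (sub_nonneg.2 h2)]
  linarith

/-- An integrated one-sided translation bound. -/
def JumpBd (U : ℝ → Set (Eu d)) (A : Set (Eu d)) (κ : ℝ) (X : ℝ≥0∞) : Prop :=
  ∀ h : Eu d, ‖h‖ ≤ κ → ∫⁻ l in Ioi (0 : ℝ), jump A (U l) h ≤ X * ‖h‖ₑ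

theorem jump_mono {A B : Set (Eu d)} (h : A ⊆ B) (G : Set (Eu d)) (v : Eu d) :
    jump A G v ≤ jump B G v :=
  measure_mono (inter_subset_inter_left _ h)

/-- The union of the balls of `T` that satisfy `p` at the level `l`. -/
def activeUnion (T : Finset (Eu d × ℝ)) (p : Eu d × ℝ → ℝ → Prop) (l : ℝ) : Set (Eu d) :=
  {y | ∃ b ∈ T, p b l ∧ y ∈ ball b.1 b.2}

theorem measurableSet_activeUnion_prod {T : Finset (Eu d × ℝ)} {p : Eu d × ℝ → ℝ → Prop}
    (hp : ∀ b ∈ T, MeasurableSet {l | p b l}) :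
    MeasurableSet {q : ℝ × Eu d | q.2 ∈ activeUnion T p q.1} := by
  have e : {q : ℝ × Eu d | q.2 ∈ activeUnion T p q.1}
      = ⋃ b ∈ T, {l | p b l} ×ˢ ball b.1 b.2 := by
    ext q
    simp only [activeUnion, mem_ofPred_eq, mem_iUnion, exists_prop, mem_prod]
  rw [e]
  exact MeasurableSet.biUnion T.countable_toSet fun b hb => (hp b hb).prod measurableSet_ball

theorem measurableSet_fiber {U : ℝ → Set (Eu d)}
    (hU : MeasurableSet {q : ℝ × Eu d | q.2 ∈ U q.1}) (l : ℝ) : MeasurableSet (U l) :=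
  measurable_prodMk_left hU

theorem measurable_jump {U : ℝ → Set (Eu d)} (hU : MeasurableSet {q : ℝ × Eu d | q.2 ∈ U q.1})
    {A : Set (Eu d)} (hA : MeasurableSet A) (τ : ℝ) :
    Measurable fun q : ℝ × Eu d => jump A (U q.1) (τ • q.2) := by
  have h1 : Measurable fun x : (ℝ × Eu d) × Eu d => (x.1.1, x.2) := by fun_prop
  have h2 : Measurable fun x : (ℝ × Eu d) × Eu d => (x.1.1, x.2 + τ • x.1.2) := by fun_prop
  exact measurable_measure_prodMk_left (ν := (volume : Measure (Eu d)))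
    (s := {x : (ℝ × Eu d) × Eu d | x.2 ∈ A ∧ (x.2 ∉ U x.1.1 ∧ x.2 + τ • x.1.2 ∈ U x.1.1)})
    ((measurable_snd hA).inter ((h1 hU).compl.inter (h2 hU)))

theorem measurable_jump_at {U : ℝ → Set (Eu d)} (hU : MeasurableSet {q : ℝ × Eu d | q.2 ∈ U q.1})
    {A : Set (Eu d)} (hA : MeasurableSet A) (h : Eu d) :
    Measurable fun l : ℝ => jump A (U l) h := by
  have hm := (measurable_jump hU hA 1).comp (measurable_id.prodMk (measurable_const (a := h)))
  simpa [Function.comp_def] using hm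

/-- **One growth step for a family of sets.** -/
theorem jumpBd_grow (d : ℕ) (hd : 0 < d) {θ : ℝ} (hθ : 0 < θ) :
    ∃ C : ℝ≥0∞, C ≠ ⊤ ∧ ∃ κ : ℝ, 0 < κ ∧ κ ≤ 1 ∧
      ∀ (U : ℝ → Set (Eu d)), MeasurableSet {q : ℝ × Eu d | q.2 ∈ U q.1} →
      ∀ (T : Finset (Eu d × ℝ)) (p : Eu d × ℝ → ℝ → Prop) (ρ0 ρ1 : ℝ), 0 < ρ0 →
      (∀ b ∈ T, ρ0 ≤ b.2 ∧ b.2 ≤ ρ1) →
      (∀ l, 0 < l → ∀ b ∈ T, p b l →
        θ * volume.real (ball b.1 b.2) ≤ volume.real (U l ∩ ball b.1 b.2)) →
      ∀ (A A' : Set (Eu d)), MeasurableSet A → MeasurableSet A' → A ⊆ A' →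
      (∀ y ∈ A, ∀ z, dist z y ≤ 12 * ρ1 → z ∈ A') →
      ∀ (κ0 : ℝ) (X : ℝ≥0∞), κ0 ≤ κ * ρ0 → JumpBd U A' (3 * κ0) X →
        JumpBd (fun l => U l ∪ activeUnion T p l) A κ0 (C * X) := by
  classical
  obtain ⟨Cg, hCg, κ, hκ, hκ1, hgrow⟩ := growth d hd hθ
  set V := volume (ball (0 : Eu d) 3) with hV
  refine ⟨1 + Cg * (3 * V), by finiteness [(measure_ball_lt_top : V < ⊤).ne], κ, hκ, hκ1,
    fun U hU T p ρ0 ρ1 hρ0 hr hdense A A' hA hA' hAA hnb κ0 X hκ0 hX h hh => ?_⟩
  set τ := ‖h‖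
  have hτ0 : 0 ≤ τ := norm_nonneg h
  have hpt : ∀ l, 0 < l → jump A (U l ∪ activeUnion T p l) h
      ≤ jump A' (U l) h + Cg * ∫⁻ v in ball (0 : Eu d) 3, jump A' (U l) (τ • v) := by
    intro l hl
    have e : activeUnion T p l = ⋃ b ∈ T.filter (fun b => p b l), ball b.1 b.2 := by
      ext y
      simp only [activeUnion, mem_ofPred_eq, mem_iUnion, Finset.mem_filter, exists_prop, and_assoc]
    rw [e]
    refine (hgrow (U l) (measurableSet_fiber hU l) (T.filter fun b => p b l) ρ0 ρ1 hρ0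
      (fun b hb => ?_) A A' hA hA' hnb h (hh.trans hκ0)).trans
      (add_le_add (jump_mono hAA _ _) le_rfl)
    obtain ⟨hbT, hbp⟩ := Finset.mem_filter.1 hb
    exact ⟨(hr b hbT).1, (hr b hbT).2, hdense l hl b hbT hbp⟩
  refine (setLIntegral_mono' measurableSet_Ioi fun l hl => hpt l hl).trans ?_
  rw [lintegral_add_left (measurable_jump_at hU hA' h), lintegral_const_mul' _ _ hCg,
    lintegral_lintegral_swap (f := fun (l : ℝ) (v : Eu d) => jump A' (U l) (τ • v))
      (measurable_jump hU hA' τ).aemeasurable]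
  refine le_trans (add_le_add (hX h (hh.trans (by linarith [hh])))
    (mul_le_mul' le_rfl (setLIntegral_mono' measurableSet_ball
      (g := fun _ => X * (3 * ‖h‖ₑ)) fun v hv => ?_))) (le_of_eq ?_)
  · have hv3 : ‖v‖ ≤ 3 := (mem_ball_zero_iff.1 hv).le
    refine (hX (τ • v) ?_).trans (mul_le_mul' le_rfl ?_)
    · rw [norm_smul, Real.norm_eq_abs, abs_of_nonneg hτ0]
      nlinarith
    · rw [← ofReal_norm, ← ofReal_norm, norm_smul, Real.norm_eq_abs, abs_of_nonneg hτ0,
        show (3 : ℝ≥0∞) = ENNReal.ofReal 3 by simp, ← ENNReal.ofReal_mul (by norm_num : (0:ℝ) ≤ 3)]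
      exact ENNReal.ofReal_le_ofReal (by nlinarith)
  · rw [setLIntegral_const, ← hV]
    ring

theorem ball_jump_le (c : Eu d) {ρ : ℝ} (hρ : 0 < ρ) {v : Eu d} (hv : ‖v‖ ≤ ρ) :
    volume {y | y ∉ ball c ρ ∧ y + v ∈ ball c ρ}
      ≤ ENNReal.ofReal (2 ^ d * volume.real (ball c ρ) / ρ) * ‖v‖ₑ := by
  have h0 := norm_nonneg v
  have hsub : {y | y ∉ ball c ρ ∧ y + v ∈ ball c ρ} ⊆ ball c (ρ + ‖v‖) \ ball c ρ := by
    rintro y ⟨hy, hyv⟩
    refine ⟨?_, hy⟩
    rw [mem_ball] at hyv ⊢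
    have := dist_triangle y (y + v) c
    rw [dist_self_add_right] at this
    linarith
  refine (measure_mono hsub).trans ?_
  have hle : ball c ρ ⊆ ball c (ρ + ‖v‖) := ball_subset_ball (by linarith)
  rw [← ofReal_norm, ← ENNReal.ofReal_mul (by positivity), ← ENNReal.ofReal_toReal
    (ne_top_of_le_ne_top measure_ball_lt_top.ne (measure_mono sdiff_subset))]
  refine ENNReal.ofReal_le_ofReal ?_
  rw [← measureReal_def, measureReal_sdiff hle measurableSet_ball measure_ball_lt_top.ne,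
    ball_real c (by linarith : 0 < ρ + ‖v‖), ball_real c hρ]
  have h := pow_one_add_le_growth d (t := ‖v‖ / ρ) (by positivity) ((div_le_one hρ).2 hv)
  have e : (ρ + ‖v‖) ^ d = ρ ^ d * (1 + ‖v‖ / ρ) ^ d := by
    rw [← mul_pow]
    congr 1
    field_simp
  rw [e, show 2 ^ d * (ρ ^ d * volume.real (ball (0 : Eu d) 1)) / ρ * ‖v‖
    = ρ ^ d * (2 ^ d * (‖v‖ / ρ)) * volume.real (ball (0 : Eu d) 1) by ring, ← sub_mul]
  refine mul_le_mul_of_nonneg_right ?_ measureReal_nonneg
  nlinarith [mul_le_mul_of_nonneg_left h (pow_pos hρ d).le]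

/-- Selection: the unselected balls are covered, the selected ones own disjoint large parts. -/
theorem exists_selection (T : Finset (Eu d × ℝ)) (θ : ℝ) (hθ : 0 ≤ θ) :
    ∃ F : Finset (Eu d × ℝ), F ⊆ T ∧
      (∀ b ∈ T, b ∉ F → θ * volume.real (ball b.1 b.2)
        ≤ volume.real ((⋃ b' ∈ F, ball b'.1 b'.2) ∩ ball b.1 b.2)) ∧
      ∃ Q : Eu d × ℝ → Set (Eu d), (F : Set (Eu d × ℝ)).PairwiseDisjoint Q ∧
        ∀ b ∈ F, MeasurableSet (Q b) ∧ Q b ⊆ ball b.1 b.2 ∧
          (1 - θ) * volume.real (ball b.1 b.2) ≤ volume.real (Q b) := by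
  classical
  induction T using Finset.induction with
  | empty => exact ⟨∅, subset_rfl, by simp, fun _ => ∅, by simp [Set.PairwiseDisjoint], by simp⟩
  | insert a T ha ih =>
    obtain ⟨F, hFT, hcov, Q, hdisj, hQ⟩ := ih
    set G := ⋃ b' ∈ F, ball b'.1 b'.2 with hG
    have hGm : MeasurableSet G :=
      MeasurableSet.biUnion F.countable_toSet fun b _ => measurableSet_ball
    by_cases hc : θ * volume.real (ball a.1 a.2) ≤ volume.real (G ∩ ball a.1 a.2)
    · refine ⟨F, hFT.trans (Finset.subset_insert a T), fun b hb hbF => ?_, Q, hdisj, hQ⟩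
      rcases Finset.mem_insert.1 hb with rfl | hb
      · exact hc
      · exact hcov b hb hbF
    push Not at hc
    have haF : a ∉ F := fun h => ha (hFT h)
    refine ⟨insert a F, Finset.insert_subset_insert a hFT, fun b hb hbF => ?_,
      Function.update Q a (ball a.1 a.2 \ G), ?_, fun b hb => ?_⟩
    · simp only [Finset.mem_insert, not_or] at hbF
      have hb' : b ∈ T := (Finset.mem_insert.1 hb).resolve_left hbF.1
      refine (hcov b hb' hbF.2).trans (measureReal_mono (inter_subset_inter_left _ ?_)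
        (ne_top_of_le_ne_top measure_ball_lt_top.ne (measure_mono inter_subset_right)))
      exact biUnion_subset_biUnion_left (Finset.coe_subset.2 (Finset.subset_insert a F))
    · rw [Finset.coe_insert, Set.pairwiseDisjoint_insert]
      refine ⟨fun b hb c hc' hne => ?_, fun b hb hne => ?_⟩
      · show Disjoint (Function.update Q a _ b) (Function.update Q a _ c)
        rw [Function.update_of_ne (show b ≠ a from fun h => haF (h ▸ hb)),
          Function.update_of_ne (show c ≠ a from fun h => haF (h ▸ hc'))]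
        exact hdisj hb hc' hne
      · rw [Function.update_self, Function.update_of_ne hne.symm]
        exact Set.disjoint_left.2 fun y hy hy' =>
          hy.2 (mem_iUnion₂.2 ⟨b, hb, (hQ b hb).2.1 hy'⟩)
    · rcases Finset.mem_insert.1 hb with rfl | hb
      · rw [Function.update_self]
        refine ⟨measurableSet_ball.diff hGm, sdiff_subset, ?_⟩
        have h := measureReal_inter_add_sdiff (μ := volume) (s := ball b.1 b.2) hGm
          measure_ball_lt_top.ne
        rw [inter_comm] at h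
        nlinarith
      · rw [Function.update_of_ne (fun h : b = a => haF (h ▸ hb))]
        exact hQ b hb

end

end Vale.Agent.P137
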