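import Vale.Agent.P137.Unc.Flat

/-!
# P137: all level sets of a function share one normal where the defect is small
-/

namespace Vale.Agent.P137

open MeasureTheory Set Metric Filter
open scoped ENNReal NNReal Topology RealInnerProductSpace

noncomputable section

variable {d : ℕ}

theorem band_mono {E : Set (Eu d)} {z : Eu d} {ρ ρ' : ℝ} (hρ : ρ' ≤ ρ) {S S' : Set (Eu d)}
    (h : ∀ p ∈ ball z ρ', p ∈ S' → p ∈ S) :
    volume.real (E ∩ ball z ρ' ∩ S') ≤ volume.real (E ∩ ball z ρ ∩ S) :=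
  measureReal_mono (fun p hp => ⟨⟨hp.1.1, ball_subset_ball hρ hp.1.2⟩, h p hp.1.2 hp.2⟩)
    (ne_top_of_le_ne_top measure_ball_lt_top.ne (measure_mono fun p hp => hp.1.2))

theorem sub_band {E : Set (Eu d)} {z c : Eu d} {ρ R : ℝ} (hsub : ball c ρ ⊆ ball z R) {S : Set (Eu d)}
    (h : ∀ p ∈ ball c ρ, p ∈ S) :
    volume.real (E ∩ ball c ρ) ≤ volume.real (E ∩ ball z R ∩ S) :=
  measureReal_mono (fun p hp => ⟨⟨hp.1, hsub hp.2⟩, h p hp.2⟩)
    (ne_top_of_le_ne_top measure_ball_lt_top.ne (measure_mono fun p hp => hp.1.2))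

theorem isFlat_mono {E : Set (Eu d)} {z e e' : Eu d} {a a' ρ ρ' b b' η η' : ℝ}
    (h : IsFlat E z e a ρ b η) (hρ : ρ' ≤ ρ) (hη : η ≤ η')
    (h1 : ∀ p ∈ ball z ρ', ⟪e', p - z⟫ < a' - b' → ⟪e, p - z⟫ < a - b)
    (h2 : ∀ p ∈ ball z ρ', a' + b' < ⟪e', p - z⟫ → a + b < ⟪e, p - z⟫) :
    IsFlat E z e' a' ρ' b' η' := by
  exact ⟨((band_mono hρ h1).trans h.1).trans hη, ((band_mono hρ h2).trans h.2).trans hη⟩

theorem exists_net (d : ℕ) {τ : ℝ} (hτ : 0 < τ) :
    ∃ N : Finset (Eu d), (∀ e ∈ N, ‖e‖ = 1) ∧ ∀ e : Eu d, ‖e‖ = 1 → ∃ e' ∈ N, ‖e - e'‖ < τ := by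
  obtain ⟨t, hts, htf, hcov⟩ := finite_cover_balls_of_compact (isCompact_sphere (0 : Eu d) 1) hτ
  refine ⟨htf.toFinset, fun e he => by simpa using hts (htf.mem_toFinset.1 he), fun e he => ?_⟩
  obtain ⟨e', he', hd⟩ := mem_iUnion₂.1 (hcov (show e ∈ sphere (0 : Eu d) 1 by simpa using he))
  exact ⟨e', htf.mem_toFinset.2 he', by rwa [mem_ball, dist_eq_norm] at hd⟩

/-- A finite net of normals, one of which fits every level with small defect. -/
theorem common_normal (d : ℕ) (hd : 0 < d) :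
    ∃ N : Finset (Eu d), (∀ e ∈ N, ‖e‖ = 1) ∧ ∃ L δ K : ℝ, 0 < L ∧ 0 < δ ∧ 0 ≤ K ∧
      ∀ (E : ℝ → Set (Eu d)), (∀ μ, MeasurableSet (E μ)) → Antitone E →
      ∀ (z : Eu d) (r : ℝ), 0 < r → ∃ e ∈ N, ∀ μ : ℝ, wdef (E μ) z (L * r) ≤ δ * r ^ (2 * d) →
        ∃ a : ℝ, IsFlat (E μ) z e a (200 * r) (r / 50) (K * (wdef (E μ) z (L * r) / r ^ d)) := by
  set τ : ℝ := 1 / 40000 with hτ
  obtain ⟨N, hN, hnet⟩ := exists_net d (show (0 : ℝ) < τ by norm_num [hτ])
  set C : ℝ := 4 * (202 + 2) / τ ^ 2 + 1 with hC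
  have hC200 : 200 ≤ C := by norm_num [hC, hτ]
  obtain ⟨δ0, K, hδ0, hK, hflat⟩ := flat_exists d hd (C := C) (β := 1 / 100) (by linarith)
    (by norm_num) (by norm_num)
  set ω := volume.real (ball (0 : Eu d) 1)
  have hωp : 0 < ω := unit_ball_pos d
  refine ⟨N, hN, 81 * C, min δ0 (ω / (3 * (K + 1))), K, by positivity,
    lt_min hδ0 (by positivity), hK, fun E hE hanti z r hr => ?_⟩
  have hfl : ∀ μ, wdef (E μ) z (81 * C * r) ≤ min δ0 (ω / (3 * (K + 1))) * r ^ (2 * d) →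
      ∃ e : Eu d, ∃ a : ℝ, ‖e‖ = 1 ∧ IsFlat (E μ) z e a (C * r) (1 / 100 * r)
        (K * (wdef (E μ) z (81 * C * r) / r ^ d)) ∧
        K * (wdef (E μ) z (81 * C * r) / r ^ d) ≤ r ^ d * ω / 3 := by
    intro μ hμ
    obtain ⟨e, a, he, hf⟩ := hflat (E μ) z r (hE μ) hr
      (hμ.trans (mul_le_mul_of_nonneg_right (min_le_left _ _) (by positivity)))
    refine ⟨e, a, he, hf, ?_⟩
    have h1 := hμ.trans (mul_le_mul_of_nonneg_right (min_le_right δ0 _) (by positivity))
    rw [show r ^ (2 * d) = r ^ d * r ^ d by rw [two_mul, pow_add]] at h1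
    have h2 : wdef (E μ) z (81 * C * r) / r ^ d ≤ ω / (3 * (K + 1)) * r ^ d := by
      rw [div_le_iff₀ (pow_pos hr d)]; exact h1.trans (le_of_eq (by ring))
    refine (mul_le_mul_of_nonneg_left h2 hK).trans ?_
    have h4 : K * (ω / (3 * (K + 1))) ≤ ω / 3 := by
      rw [mul_div_assoc', div_le_div_iff₀ (by positivity) (by norm_num)]
      nlinarith
    calc K * (ω / (3 * (K + 1)) * r ^ d) = K * (ω / (3 * (K + 1))) * r ^ d := by ring
      _ ≤ ω / 3 * r ^ d := mul_le_mul_of_nonneg_right h4 (by positivity)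
      _ = _ := by ring
  set δ := min δ0 (ω / (3 * (K + 1))) with hδ
  have hin : ∀ {e p : Eu d}, ‖e‖ = 1 → p ∈ ball z (200 * r) → |⟪e, p - z⟫| < 200 * r := by
    intro e p he hp
    refine lt_of_le_of_lt ((abs_real_inner_le_norm _ _).trans (le_of_eq ?_)) (mem_ball_iff_norm.1 hp)
    rw [he, one_mul]
  have hCr : 200 * r ≤ C * r := mul_le_mul_of_nonneg_right hC200 hr.le
  obtain ⟨e0, he0N, hclose⟩ : ∃ e0 ∈ N, ∀ μ e a, wdef (E μ) z (81 * C * r) ≤ δ * r ^ (2 * d) →
      ‖e‖ = 1 → |a| ≤ 202 * r → IsFlat (E μ) z e a (C * r) (1 / 100 * r)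
        (K * (wdef (E μ) z (81 * C * r) / r ^ d)) →
      K * (wdef (E μ) z (81 * C * r) / r ^ d) ≤ r ^ d * ω / 3 → ‖e - e0‖ ≤ 2 * τ := by
    by_cases hex : ∃ ν e a, ‖e‖ = 1 ∧ |a| ≤ 202 * r ∧ IsFlat (E ν) z e a (C * r) (1 / 100 * r)
        (K * (wdef (E ν) z (81 * C * r) / r ^ d)) ∧
        K * (wdef (E ν) z (81 * C * r) / r ^ d) ≤ r ^ d * ω / 3
    · obtain ⟨ν, e', a', he', ha', hf', hs'⟩ := hex
      obtain ⟨e0, he0, hd0⟩ := hnet e' he'
      refine ⟨e0, he0, fun μ e a _ he ha hf hs => ?_⟩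
      have hlt : K * (wdef (E μ) z (81 * C * r) / r ^ d) + K * (wdef (E ν) z (81 * C * r) / r ^ d)
          < r ^ d * ω := by linarith [mul_pos (pow_pos hr d) hωp]
      have : ‖e - e'‖ ≤ τ := by
        rcases le_total μ ν with hle | hle
        · rw [norm_sub_rev]
          exact normals_close (hE ν) (hanti hle) hr he' he hf' hf ha' ha (by linarith)
            (by norm_num [hτ]) le_rfl (by rw [add_comm]; exact hlt)
        · exact normals_close (hE μ) (hanti hle) hr he he' hf hf' ha ha' (by linarith)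
            (by norm_num [hτ]) le_rfl hlt
      linarith [norm_sub_le_norm_sub_add_norm_sub e e' e0]
    · obtain ⟨e0, he0, -⟩ := hnet (EuclideanSpace.single ⟨0, hd⟩ 1) (by simp)
      exact ⟨e0, he0, fun μ e a _ he ha hf hs => absurd ⟨μ, e, a, he, ha, hf, hs⟩ hex⟩
  have he0 := hN e0 he0N
  refine ⟨e0, he0N, fun μ hμ => ?_⟩
  obtain ⟨e, a, he, hf, hs⟩ := hfl μ hμ
  by_cases ha : |a| ≤ 202 * r
  · have hee := hclose μ e a hμ he ha hf hs
    have hdiff : ∀ p ∈ ball z (200 * r), |⟪e, p - z⟫ - ⟪e0, p - z⟫| ≤ r / 100 := fun p hp => by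
      rw [← inner_sub_left]
      refine (abs_real_inner_le_norm _ _).trans ((mul_le_mul hee (mem_ball_iff_norm.1 hp).le
        (norm_nonneg _) (by norm_num [hτ])).trans (le_of_eq ?_))
      rw [hτ]; ring
    refine ⟨a, isFlat_mono hf hCr le_rfl (fun p hp h => ?_) (fun p hp h => ?_)⟩
    · linarith [(abs_le.1 (hdiff p hp)).2]
    · linarith [(abs_le.1 (hdiff p hp)).1]
  · rw [abs_le, not_and_or, not_le, not_le] at ha
    rcases ha with ha | ha
    · refine ⟨-(201 * r), isFlat_mono hf hCr le_rfl (fun p hp h => ?_) (fun p hp h => ?_)⟩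
      · exfalso; linarith [(abs_lt.1 (hin he0 hp)).1]
      · linarith [(abs_lt.1 (hin he hp)).1]
    · refine ⟨201 * r, isFlat_mono hf hCr le_rfl (fun p hp h => ?_) (fun p hp h => ?_)⟩
      · linarith [(abs_lt.1 (hin he hp)).2]
      · exfalso; linarith [(abs_lt.1 (hin he0 hp)).2]

/-- The successor of a ball in the direction `e`. -/
def succBall (e : Eu d) (b : Eu d × ℝ) : Eu d × ℝ := (b.1 + (79 / 2 * b.2) • e, 40 * b.2)

/-- The gain constant of the successor. -/
def gain (d : ℕ) : ℝ := (1 / 4000 : ℝ) ^ d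

theorem gain_pos (d : ℕ) : 0 < gain d := pow_pos (by norm_num) d

theorem gain_le_one (d : ℕ) : gain d ≤ 1 := pow_le_one₀ (by norm_num) (by norm_num)

theorem ball_upper_dens {E : Set (Eu d)} {z e c : Eu d} {a b η r ρ : ℝ} (hE : MeasurableSet E)
    (h : IsFlat E z e a (200 * r) b η) (hρ : 0 < ρ) (hsub : ball c ρ ⊆ ball z (200 * r))
    (hup : ∀ p ∈ ball c ρ, a + b < ⟪e, p - z⟫) :
    1 - η / volume.real (ball c ρ) ≤ dens E c ρ := by
  have hp := ball_real_pos c hρ
  have h1 : volume.real (Eᶜ ∩ ball c ρ) ≤ η := (sub_band hsub hup).trans h.2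
  have h2 := dens_compl E hE c hρ
  rw [dens] at h2
  linarith [div_le_div_of_nonneg_right h1 hp.le]

theorem ball_lower_dens {E : Set (Eu d)} {z e c : Eu d} {a b η r ρ : ℝ}
    (h : IsFlat E z e a (200 * r) b η) (hρ : 0 < ρ) (hsub : ball c ρ ⊆ ball z (200 * r))
    (hlo : ∀ p ∈ ball c ρ, ⟪e, p - z⟫ < a - b) :
    dens E c ρ ≤ η / volume.real (ball c ρ) :=
  div_le_div_of_nonneg_right ((sub_band hsub hlo).trans h.1) (ball_real_pos c hρ).le

theorem inner_ball_bound {z e c p : Eu d} (he : ‖e‖ = 1) {ρ : ℝ} (hp : p ∈ ball c ρ) :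
    |⟪e, p - z⟫ - ⟪e, c - z⟫| < ρ := by
  rw [← inner_sub_right, sub_sub_sub_cancel_right]
  exact lt_of_le_of_lt ((abs_real_inner_le_norm _ _).trans (by rw [he, one_mul]))
    (mem_ball_iff_norm.1 hp)

theorem succ_subset {z e c : Eu d} {ρ r : ℝ} (he : ‖e‖ = 1) (hc : dist c z < r / 4) (hr : r ≤ ρ)
    (hρ : ρ < 2 * r) : ball (c + (79 / 2 * ρ) • e) (40 * ρ) ⊆ ball z (200 * r) := by
  refine ball_subset_ball' ?_
  have h := dist_triangle (c + (79 / 2 * ρ) • e) c z
  rw [dist_self_add_left, norm_smul, he, mul_one, Real.norm_eq_abs,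
    abs_of_pos (by linarith [dist_nonneg (x := c) (y := z)] : (0:ℝ) < 79 / 2 * ρ)] at h
  linarith

theorem inter_ball_le {E : Set (Eu d)} {z e c : Eu d} {a η r ρ : ℝ} (he : ‖e‖ = 1)
    (h : IsFlat E z e a (200 * r) (r / 50) η) (hsub : ball c ρ ⊆ ball z (200 * r)) :
    volume.real (E ∩ ball c ρ)
      ≤ volume.real (ball c ρ ∩ {p | a - r / 50 < ⟪e, p - z⟫}) + η := by
  set T := ball c ρ ∩ {p | a - r / 50 < ⟪e, p - z⟫}
  have hcover : E ∩ ball c ρ ⊆ (T ∪ (E ∩ ball z (200 * r) ∩ {p | ⟪e, p - z⟫ < a - r / 50}))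
      ∪ {p | ⟪e, p - z⟫ = a - r / 50} := by
    intro p hp
    rcases lt_trichotomy ⟪e, p - z⟫ (a - r / 50) with h' | h' | h'
    · exact Or.inl (Or.inr ⟨⟨hp.1, hsub hp.2⟩, h'⟩)
    · exact Or.inr h'
    · exact Or.inl (Or.inl ⟨hp.2, h'⟩)
  have hnull : volume {p : Eu d | ⟪e, p - z⟫ = a - r / 50} = 0 := by
    have hne : (innerSL ℝ e : Eu d →L[ℝ] ℝ).toLinearMap ≠ 0 := fun h' => by
      have := congrArg (fun f : Eu d →ₗ[ℝ] ℝ => f e) h'
      simp [he] at this
    have h0 : volume ((innerSL ℝ e : Eu d →L[ℝ] ℝ).toLinearMap.ker : Set (Eu d)) = 0 :=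
      Measure.addHaar_submodule volume _ (fun h' => hne (LinearMap.ker_eq_top.1 h'))
    rw [← measure_preimage_add_right volume (z + (a - r / 50) • e)]
    refine measure_mono_null (fun p hp => ?_) h0
    simp only [mem_preimage, mem_ofPred_eq] at hp
    rw [show p + (z + (a - r / 50) • e) - z = p + (a - r / 50) • e by abel, inner_add_right,
      real_inner_smul_right, real_inner_self_eq_norm_sq, he] at hp
    show (innerSL ℝ e) p = 0
    rw [innerSL_apply_apply]
    linarith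
  have hfin1 : volume (T ∪ (E ∩ ball z (200 * r) ∩ {p | ⟪e, p - z⟫ < a - r / 50})) ≠ ⊤ :=
    measure_union_ne_top
      (ne_top_of_le_ne_top measure_ball_lt_top.ne (measure_mono inter_subset_left))
      (ne_top_of_le_ne_top measure_ball_lt_top.ne (measure_mono fun p hp => hp.1.2))
  refine (measureReal_mono hcover (measure_union_ne_top hfin1 (by rw [hnull]; simp))).trans
    ((measureReal_union_le _ _).trans ?_)
  rw [measureReal_def (s := {p | ⟪e, p - z⟫ = a - r / 50}), hnull, ENNReal.toReal_zero, add_zero]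
  exact (measureReal_union_le _ _).trans (add_le_add le_rfl h.1)

theorem gain_arith {A A' T Z η P V g q : ℝ} (hT : A ≤ T + η) (hmain : (T + Z) * P ≤ A' + η)
    (hg : g ≤ q) (hZ : Z = q * V) (hV : 0 < V) (hP : 0 < P) :
    A / V + g ≤ A' / (P * V) + η / (P * V) + η / V := by
  rw [← add_div, div_add' _ _ _ hV.ne', div_add_div _ _ (mul_pos hP hV).ne' hV.ne',
    div_le_div_iff₀ hV (mul_pos (mul_pos hP hV) hV)]
  have h4 := mul_le_mul_of_nonneg_right (add_le_add hT (mul_le_mul_of_nonneg_right hg hV.le)) hP.le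
  have h5 : (A + g * V) * P ≤ A' + η + η * P := by subst hZ; linarith
  nlinarith [mul_le_mul_of_nonneg_right h5 (mul_pos hV hV).le]

/-- **Per level**: the successor gains, and is dense unless the level lies far ahead. -/
theorem level_gain {E : Set (Eu d)} (hE : MeasurableSet E) {z e c c1 : Eu d} {a η r ρ ρ1 : ℝ}
    (hr : 0 < r) (he : ‖e‖ = 1) (h : IsFlat E z e a (200 * r) (r / 50) η)
    (hc : dist c z < r / 4) (hρ : r ≤ ρ) (hρ2 : ρ < 2 * r)
    (hc1 : dist c1 z < r / 4) (hρ1 : r ≤ ρ1) (hρ12 : ρ1 < 2 * r) :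
    dens E c ρ + gain d * dens E c1 ρ1
        ≤ dens E (c + (79 / 2 * ρ) • e) (40 * ρ) + gain d * dens E c ρ
          + 3 * (η / (r ^ d * volume.real (ball (0 : Eu d) 1))) ∧
      (a - r / 50 < ⟪e, c - z⟫ + 7 * ρ →
        gain d ≤ dens E (c + (79 / 2 * ρ) • e) (40 * ρ)
          + η / (r ^ d * volume.real (ball (0 : Eu d) 1))) := by
  set ω := volume.real (ball (0 : Eu d) 1) with hω
  have hωp : 0 < ω := unit_ball_pos d
  have hρ0 : 0 < ρ := hr.trans_le hρ
  have hρ10 : 0 < ρ1 := hr.trans_le hρ1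
  set σ := ⟪e, c - z⟫
  set c' := c + (79 / 2 * ρ) • e with hc'
  have hη0 : 0 ≤ η := le_trans measureReal_nonneg h.1
  set N := η / (r ^ d * ω)
  have hN0 : 0 ≤ N := by positivity
  have herr : ∀ (c : Eu d) (s : ℝ), r ≤ s → η / volume.real (ball c s) ≤ N := fun c s hs => by
    rw [ball_real c (hr.trans_le hs), ← hω]
    exact div_le_div_of_nonneg_left hη0 (by positivity)
      (mul_le_mul_of_nonneg_right (pow_le_pow_left₀ hr.le hs d) hωp.le)
  have hg0 := gain_pos d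
  have hg1 := gain_le_one d
  have hsubB : ∀ c : Eu d, ∀ s, dist c z < r / 4 → s < 2 * r → ball c s ⊆ ball z (200 * r) :=
    fun c s h1 h2 => ball_subset_ball' (by linarith)
  have hsub' : ball c' (40 * ρ) ⊆ ball z (200 * r) := succ_subset he hc hρ hρ2
  have hσ' : ⟪e, c' - z⟫ = σ + 79 / 2 * ρ := by
    rw [hc', add_sub_right_comm, inner_add_right, real_inner_smul_right, real_inner_self_eq_norm_sq,
      he]
    ring
  have hσ1 : |⟪e, c1 - z⟫| < r / 4 :=
    lt_of_le_of_lt ((abs_real_inner_le_norm _ _).trans (by rw [he, one_mul]))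
      (by rwa [dist_eq_norm] at hc1)
  have hσ : |σ| < r / 4 :=
    lt_of_le_of_lt ((abs_real_inner_le_norm _ _).trans (by rw [he, one_mul]))
      (by rwa [dist_eq_norm] at hc)
  have hd' := dens_nonneg E c' (40 * ρ)
  have hd0 := dens_nonneg E c ρ
  have hd1 := dens_le_one E c1 ρ1
  rcases le_or_gt (σ + 7 * ρ) (a - r / 50) with hii | hnii
  · refine ⟨?_, fun hlt => absurd hlt (not_lt.2 hii)⟩
    have e0 := (ball_lower_dens h hρ0 (hsubB c ρ hc hρ2) fun p hp => by
      linarith [(abs_lt.1 (inner_ball_bound (z := z) he hp)).2]).trans (herr c ρ hρ)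
    have e1 := (ball_lower_dens h hρ10 (hsubB c1 ρ1 hc1 hρ12) fun p hp => by
      linarith [(abs_lt.1 (inner_ball_bound (z := z) he hp)).2, (abs_lt.1 hσ).1,
        (abs_lt.1 hσ1).2]).trans (herr c1 ρ1 hρ1)
    nlinarith [mul_le_mul_of_nonneg_left e1 hg0.le]
  rcases le_or_gt (a + r / 50) (σ - ρ / 2) with hi | hni
  · have e0 := ball_upper_dens hE h (by linarith : 0 < 40 * ρ) hsub' fun p hp => by
      linarith [(abs_lt.1 (inner_ball_bound (z := z) he hp)).1]
    have e1 := herr c' (40 * ρ) (by linarith)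
    refine ⟨?_, fun _ => by linarith⟩
    have hdle := dens_le_one E c ρ
    nlinarith [mul_le_mul_of_nonneg_left hd1 hg0.le,
      mul_nonneg (sub_nonneg.2 hg1) (sub_nonneg.2 hdle)]
  set T := ball c ρ ∩ {p | a - r / 50 < ⟪e, p - z⟫}
  set Z := ball (c + (-(13 / 20 * ρ)) • e) (ρ / 100)
  set φ : Eu d → Eu d := fun y => c' + (40 : ℝ) • (y - c) with hφ
  have hTm : MeasurableSet T :=
    measurableSet_ball.inter (isOpen_lt continuous_const (by fun_prop)).measurableSet
  have hmap : ∀ y ∈ ball c ρ, φ y ∈ ball c' (40 * ρ) ∧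
      ⟪e, φ y - z⟫ = σ + 79 / 2 * ρ + 40 * (⟪e, y - z⟫ - σ) := by
    intro y hy
    refine ⟨?_, ?_⟩
    · rw [mem_ball_iff_norm, hφ, add_sub_cancel_left, norm_smul, Real.norm_ofNat]
      exact mul_lt_mul_of_pos_left (mem_ball_iff_norm.1 hy) (by norm_num)
    · rw [hφ, add_sub_right_comm, inner_add_right, hσ', real_inner_smul_right,
        ← inner_sub_right _ (y - z), sub_sub_sub_cancel_right]
  have hZ : ∀ y ∈ Z, y ∈ ball c ρ ∧ |⟪e, y - z⟫ - σ + 13 / 20 * ρ| < ρ / 100 := by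
    intro y hy
    refine ⟨?_, ?_⟩
    · refine ball_subset_ball' ?_ hy
      rw [dist_self_add_left, norm_smul, he, mul_one, norm_neg, Real.norm_eq_abs,
        abs_of_pos (by positivity)]
      linarith
    · have := inner_ball_bound (z := z) he hy
      rw [add_sub_right_comm, inner_add_right, real_inner_smul_right, real_inner_self_eq_norm_sq,
        he] at this
      refine lt_of_eq_of_lt (congrArg abs ?_) this
      ring
  have hdisj : Disjoint T Z := Set.disjoint_left.2 fun y hy hy' => by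
    have h2 : a - r / 50 < ⟪e, y - z⟫ := hy.2
    linarith [(abs_lt.1 (hZ y hy').2).2]
  set X := Eᶜ ∩ ball z (200 * r) ∩ {p | a + r / 50 < ⟪e, p - z⟫}
  have hsubT : T ∪ Z ⊆ φ ⁻¹' ((E ∩ ball c' (40 * ρ)) ∪ X) := by
    intro y hy
    have hyc : y ∈ ball c ρ := hy.elim (fun h => h.1) fun h => (hZ y h).1
    obtain ⟨hb, hs⟩ := hmap y hyc
    have hbd := abs_lt.1 (inner_ball_bound (z := z) he hyc)
    have hlt : a + r / 50 < ⟪e, φ y - z⟫ := by
      rcases hy with hy | hy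
      · have h2 : a - r / 50 < ⟪e, y - z⟫ := hy.2
        linarith [hbd.1]
      · linarith [(abs_lt.1 (hZ y hy).2).1]
    by_cases hφE : φ y ∈ E
    · exact Or.inl ⟨hφE, hb⟩
    · exact Or.inr ⟨⟨hφE, hsub' hb⟩, hlt⟩
  have hpre : ∀ S : Set (Eu d), volume (φ ⁻¹' S) = ENNReal.ofReal ((40 : ℝ) ^ d)⁻¹ * volume S := by
    intro S
    rw [show φ ⁻¹' S = (fun y => y + -c) ⁻¹'
        ((fun y => (40 : ℝ) • y) ⁻¹' ((fun y => c' + y) ⁻¹' S)) by
      ext y; simp [hφ, sub_eq_add_neg],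
      measure_preimage_add_right, Measure.addHaar_preimage_smul volume (by norm_num : (40:ℝ) ≠ 0),
      measure_preimage_add, finrank_euclideanSpace_fin, abs_inv,
      abs_of_pos (by positivity : (0:ℝ) < 40 ^ d)]
  have hfU : volume ((E ∩ ball c' (40 * ρ)) ∪ X) ≠ ⊤ := measure_union_ne_top
    (ne_top_of_le_ne_top measure_ball_lt_top.ne (measure_mono inter_subset_right))
    (ne_top_of_le_ne_top measure_ball_lt_top.ne (measure_mono fun p hp => hp.1.2))
  have hmain : (volume.real T + volume.real Z) * 40 ^ d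
      ≤ volume.real (E ∩ ball c' (40 * ρ)) + η := by
    have h1 := ENNReal.toReal_mono
      (by rw [hpre]; exact ENNReal.mul_ne_top ENNReal.ofReal_ne_top hfU)
      (measure_mono (μ := volume) hsubT)
    rw [hpre, ENNReal.toReal_mul, ENNReal.toReal_ofReal (by positivity)] at h1
    simp only [← measureReal_def] at h1
    rw [measureReal_union hdisj measurableSet_ball
      (ne_top_of_le_ne_top measure_ball_lt_top.ne (measure_mono inter_subset_left))
      measure_ball_lt_top.ne, ← div_eq_inv_mul, le_div_iff₀ (by positivity)] at h1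
    exact h1.trans ((measureReal_union_le _ _).trans (add_le_add le_rfl h.2))
  have hT : volume.real (E ∩ ball c ρ) ≤ volume.real T + η :=
    inter_ball_le he h (hsubB c ρ hc hρ2)
  have hB : volume.real (ball c ρ) = ρ ^ d * ω := ball_real c hρ0
  have hB' : volume.real (ball c' (40 * ρ)) = 40 ^ d * (ρ ^ d * ω) := by
    rw [ball_real c' (by linarith : 0 < 40 * ρ), mul_pow, ← hω]; ring
  have hZv : volume.real Z = (1 / 100) ^ d * (ρ ^ d * ω) := by
    show volume.real (ball (c + (-(13 / 20 * ρ)) • e) (ρ / 100)) = _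
    rw [ball_real _ (by positivity), div_eq_mul_one_div ρ, mul_pow, ← hω]; ring
  have hgZ : gain d ≤ (1 / 100 : ℝ) ^ d := pow_le_pow_left₀ (by norm_num) (by norm_num) d
  have hVp : 0 < ρ ^ d * ω := by positivity
  have key : dens E c ρ + gain d
      ≤ dens E c' (40 * ρ) + η / volume.real (ball c' (40 * ρ)) + η / volume.real (ball c ρ) := by
    simp only [dens]
    rw [hB, hB']
    exact gain_arith hT (by rw [← hZv] at *; exact hmain) hgZ hZv hVp (by positivity)
  have e1 := herr c' (40 * ρ) (by linarith)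
  have e2 := herr c ρ hρ
  refine ⟨?_, fun _ => ?_⟩
  · linarith [mul_le_mul_of_nonneg_left hd1 hg0.le, mul_nonneg hg0.le hd0]
  · have h6 : volume.real Z * 40 ^ d ≤ volume.real (E ∩ ball c' (40 * ρ)) + η := by
      nlinarith [mul_nonneg (measureReal_nonneg (μ := volume) (s := T))
        (by positivity : (0:ℝ) ≤ 40 ^ d)]
    rw [hZv] at h6
    have h7 : gain d ≤ (volume.real (E ∩ ball c' (40 * ρ)) + η) / volume.real (ball c' (40 * ρ)) := by
      rw [hB', le_div_iff₀ (by positivity)]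
      nlinarith [mul_le_mul_of_nonneg_right hgZ (by positivity : (0:ℝ) ≤ 40 ^ d * (ρ ^ d * ω))]
    rw [add_div] at h7
    simp only [dens]
    linarith

/-- **A level above a far level is empty in the ball.** -/
theorem level_above_far {E F : Set (Eu d)} (hEF : E ⊆ F) {z e c : Eu d} {a a' η η' r ρ : ℝ}
    (hr : 0 < r) (he : ‖e‖ = 1) (h : IsFlat E z e a (200 * r) (r / 50) η)
    (h' : IsFlat F z e a' (200 * r) (r / 50) η') (hc : dist c z < r / 4) (hρ : r ≤ ρ)
    (hρ2 : ρ < 2 * r) (hfar : ⟪e, c - z⟫ + 7 * ρ ≤ a' - r / 50)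
    (hsmall : η + η' < r ^ d * volume.real (ball (0 : Eu d) 1)) :
    dens E c ρ ≤ η / (r ^ d * volume.real (ball (0 : Eu d) 1)) := by
  set ω := volume.real (ball (0 : Eu d) 1) with hω
  have hωp : 0 < ω := unit_ball_pos d
  set σ := ⟪e, c - z⟫
  have hρ0 : 0 < ρ := hr.trans_le hρ
  rcases le_or_gt (σ + ρ) (a - r / 50) with hle | hlt
  · refine (ball_lower_dens h hρ0 (ball_subset_ball' (by linarith)) fun p hp => by
      linarith [(abs_lt.1 (inner_ball_bound (z := z) he hp)).2]).trans ?_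
    rw [ball_real c hρ0, ← hω]
    exact div_le_div_of_nonneg_left (le_trans measureReal_nonneg h.1) (by positivity)
      (mul_le_mul_of_nonneg_right (pow_le_pow_left₀ hr.le hρ d) hωp.le)
  exfalso
  set k := c + (3 * ρ) • e with hk
  have hkk : ∀ p ∈ ball k ρ, p ∈ ball z (200 * r) ∧ |⟪e, p - z⟫ - (σ + 3 * ρ)| < ρ := by
    intro p hp
    refine ⟨ball_subset_ball' ?_ hp, ?_⟩
    · have h3 := dist_triangle k c z
      rw [hk, dist_self_add_left, norm_smul, he, mul_one, Real.norm_eq_abs,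
        abs_of_pos (by positivity : (0:ℝ) < 3 * ρ)] at h3
      rw [hk]
      linarith
    · have := inner_ball_bound (z := z) he hp
      rw [hk, add_sub_right_comm, inner_add_right, real_inner_smul_right, real_inner_self_eq_norm_sq,
        he, one_pow, mul_one] at this
      exact this
  have hsub : ball k ρ ⊆ (Eᶜ ∩ ball z (200 * r) ∩ {p | a + r / 50 < ⟪e, p - z⟫})
      ∪ (F ∩ ball z (200 * r) ∩ {p | ⟪e, p - z⟫ < a' - r / 50}) := by
    intro p hp
    obtain ⟨h1, h2⟩ := hkk p hp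
    rw [abs_lt] at h2
    by_cases hpE : p ∈ E
    · exact Or.inr ⟨⟨hEF hpE, h1⟩, by show ⟪e, p - z⟫ < a' - r / 50; linarith⟩
    · exact Or.inl ⟨⟨hpE, h1⟩, by show a + r / 50 < ⟪e, p - z⟫; linarith⟩
  have hfin : ∀ T S' : Set (Eu d), volume (T ∩ ball z (200 * r) ∩ S') ≠ ⊤ := fun T S' =>
    ne_top_of_le_ne_top measure_ball_lt_top.ne (measure_mono fun p hp => hp.1.2)
  have h4 := (measureReal_mono (μ := volume) hsub
    (measure_union_ne_top (hfin _ _) (hfin _ _))).trans (measureReal_union_le _ _)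
  rw [ball_real k hρ0, ← hω] at h4
  linarith [mul_le_mul_of_nonneg_right (pow_le_pow_left₀ hr.le hρ d) hωp.le, h.2, h'.1]

end

end Vale.Agent.P137
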