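import Vale.Agent.P137.Unc.Finite

/-!
# P137: the variation bound for the uncentred maximal function
-/

namespace Vale.Agent.P137

open MeasureTheory Set Metric Filter
open scoped ENNReal NNReal Topology RealInnerProductSpace

noncomputable section

variable {d : ℕ}

/-- The uncentred maximal function of a nonnegative function. -/
def maxFun (f : Eu d → ℝ) (x : Eu d) : ℝ := (levelMax f x).toReal

/-- A countable family of balls that approximates every ball from outside. -/
def ballSeq (d : ℕ) (n : ℕ) : Eu d × ℝ :=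
  (TopologicalSpace.denseSeq (Eu d) n.unpair.1,
    ((n.unpair.2.unpair.1 : ℝ) + 1) / ((n.unpair.2.unpair.2 : ℝ) + 1))

theorem ballSeq_pos (n : ℕ) : 0 < (ballSeq d n).2 := by
  simp only [ballSeq]; positivity

theorem exists_ballSeq (c : Eu d) {r r' : ℝ} (hr : 0 < r) (hr' : r < r') :
    ∃ n, ball c r ⊆ ball (ballSeq d n).1 (ballSeq d n).2 ∧ r ≤ (ballSeq d n).2 ∧
      (ballSeq d n).2 < r' := by
  obtain ⟨q, hq1, hq2⟩ := exists_rat_btwn hr'
  have hq0 : (0 : ℚ) < q := by exact_mod_cast hr.trans hq1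
  obtain ⟨i, hi⟩ := (TopologicalSpace.denseRange_denseSeq (Eu d)).exists_dist_lt c (sub_pos.2 hq1)
  refine ⟨Nat.pair i (Nat.pair (q.num.toNat - 1) (q.den - 1)), ?_⟩
  have hnum := Rat.num_pos.2 hq0
  have hden := q.den_pos
  have e : (ballSeq d (Nat.pair i (Nat.pair (q.num.toNat - 1) (q.den - 1)))).2 = (q : ℝ) := by
    simp only [ballSeq, Nat.unpair_pair]
    have e1 : (((q.num.toNat - 1 : ℕ)) : ℝ) + 1 = (q.num : ℝ) := by
      rw [← Nat.cast_add_one, show q.num.toNat - 1 + 1 = q.num.toNat by omega]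
      exact_mod_cast Int.toNat_of_nonneg hnum.le
    have e2 : (((q.den - 1 : ℕ)) : ℝ) + 1 = (q.den : ℝ) := by
      rw [← Nat.cast_add_one, show q.den - 1 + 1 = q.den by omega]
    rw [e1, e2, Rat.cast_def]
  refine ⟨?_, by rw [e]; exact hq1.le, by rw [e]; exact hq2⟩
  rw [e]
  simp only [ballSeq, Nat.unpair_pair]
  exact ball_subset_ball' (by linarith)

theorem avgF_scale (f : Eu d → ℝ) {x y : Eu d} {r s : ℝ} (hr : 0 < r) (hs : 0 < s)
    (h : ball x r ⊆ ball y s) :
    ENNReal.ofReal ((r / s) ^ d) * avgF f (x, r) ≤ avgF f (y, s) := by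
  rw [avgF, ← lintegral_const_mul' _ _ ENNReal.ofReal_ne_top]
  refine lintegral_mono fun μ => ?_
  rw [← ENNReal.ofReal_mul (by positivity), mul_comm]
  exact ENNReal.ofReal_le_ofReal (dens_scale _ hr hs h)

/-- Every ball average is a limit of averages over balls of the countable family. -/
theorem exists_ballSeq_avg (f : Eu d → ℝ) {b : Eu d × ℝ} (hb : 0 < b.2) {t : ℝ} (ht : t < 1)
    {σ : ℝ} (hσ : b.2 < σ) :
    ∃ n, ball b.1 b.2 ⊆ ball (ballSeq d n).1 (ballSeq d n).2 ∧ (ballSeq d n).2 < σ ∧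
      ENNReal.ofReal t * avgF f b ≤ avgF f (ballSeq d n) := by
  have hc : ContinuousAt (fun r' : ℝ => (b.2 / r') ^ d) b.2 := by fun_prop (disch := exact hb.ne')
  have h1 : ∀ᶠ r' in 𝓝[>] b.2, t < (b.2 / r') ^ d ∧ r' < σ ∧ b.2 < r' :=
    ((hc.mono_left nhdsWithin_le_nhds).eventually (Ioi_mem_nhds (by
      show t < (b.2 / b.2) ^ d; rw [div_self hb.ne', one_pow]; exact ht))).and
      ((eventually_nhdsWithin_of_eventually_nhds (Iio_mem_nhds hσ)).and self_mem_nhdsWithin)
  obtain ⟨r', hr1, hr2, hr3⟩ := h1.exists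
  obtain ⟨n, hn, hn1, hn2⟩ := exists_ballSeq b.1 hb hr3
  refine ⟨n, hn, hn2.trans hr2, le_trans (mul_le_mul' (ENNReal.ofReal_le_ofReal ?_) le_rfl)
    (avgF_scale f hb (ballSeq_pos (d := d) n) hn)⟩
  exact hr1.le.trans (pow_le_pow_left₀ (div_nonneg hb.le (hb.trans hr3).le)
    (div_le_div_of_nonneg_left hb.le (ballSeq_pos (d := d) n) hn2.le) d)

theorem le_of_forall_ofReal_mul {a : ℝ≥0∞} {B : ℝ≥0∞}
    (h : ∀ t : ℝ, 0 < t → t < 1 → ENNReal.ofReal t * a ≤ B) : a ≤ B := by
  have hc : Tendsto (fun t : ℝ => ENNReal.ofReal t * a) (𝓝[<] 1) (𝓝 (1 * a)) := by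
    refine ENNReal.Tendsto.mul_const ?_ (Or.inl one_ne_zero)
    have := (ENNReal.continuous_ofReal.tendsto (1 : ℝ)).mono_left
      (nhdsWithin_le_nhds (s := Iio (1 : ℝ)))
    rwa [ENNReal.ofReal_one] at this
  rw [one_mul] at hc
  refine le_of_tendsto hc ?_
  filter_upwards [self_mem_nhdsWithin,
    eventually_nhdsWithin_of_eventually_nhds (Ioi_mem_nhds zero_lt_one)] with t h1 h0
  exact h t h0 h1

theorem levelMax_eq_iSup (f : Eu d → ℝ) (x : Eu d) :
    levelMax f x = ⨆ n, (ball (ballSeq d n).1 (ballSeq d n).2).indicator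
      (fun _ => avgF f (ballSeq d n)) x := by
  refine le_antisymm (iSup₂_le fun b hb => le_of_forall_ofReal_mul fun t _ ht => ?_)
    (iSup_le fun n => ?_)
  · obtain ⟨n, hn, -, hle⟩ := exists_ballSeq_avg f hb.1 ht (lt_add_one b.2)
    refine hle.trans (le_iSup_of_le n (le_of_eq ?_))
    rw [indicator_of_mem (hn hb.2)]
  · by_cases hx : x ∈ ball (ballSeq d n).1 (ballSeq d n).2
    · rw [indicator_of_mem hx]
      exact le_iSup₂_of_le (ballSeq d n) ⟨ballSeq_pos (d := d) n, hx⟩ le_rfl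
    · rw [indicator_of_notMem hx]; exact zero_le

theorem measurable_levelMax (f : Eu d → ℝ) : Measurable (levelMax f) := by
  rw [funext (levelMax_eq_iSup f)]
  exact Measurable.iSup fun n => measurable_const.indicator measurableSet_ball

theorem measurable_maxFun (f : Eu d → ℝ) : Measurable (maxFun f) :=
  (measurable_levelMax f).ennreal_toReal

/-- The function is below its maximal function almost everywhere. -/
theorem ae_le_levelMax {f : Eu d → ℝ} (hf : Measurable f) :
    ∀ᵐ x : Eu d, ENNReal.ofReal (f x) ≤ levelMax f x := by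
  have h : ∀ᵐ x : Eu d, ∀ q : ℚ, x ∈ lev f q →
      centredMax ((lev f (q : ℝ)).indicator (1 : Eu d → ℝ)) x = 1 :=
    ae_all_iff.2 fun q => ae_max_eq_one _ (measurableSet_lev hf q)
  filter_upwards [h] with x hx
  refine le_of_forall_lt fun a ha => ?_
  obtain ⟨q, hq0, haq, hqf⟩ : ∃ q : ℚ, (0 : ℝ) < q ∧ a < ENNReal.ofReal q ∧ (q : ℝ) < f x := by
    have hne : a ≠ ⊤ := ne_top_of_lt ha
    rw [← ENNReal.ofReal_toReal hne, ENNReal.ofReal_lt_ofReal_iff'] at ha
    obtain ⟨q, hq1, hq2⟩ := exists_rat_btwn ha.1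
    refine ⟨q, lt_of_le_of_lt ENNReal.toReal_nonneg hq1, ?_, hq2⟩
    rw [← ENNReal.ofReal_toReal hne]
    exact (ENNReal.ofReal_lt_ofReal_iff (lt_of_le_of_lt ENNReal.toReal_nonneg hq1)).2 hq1
  refine lt_of_lt_of_le haq (le_of_forall_ofReal_mul fun t ht0 ht => ?_)
  obtain ⟨r, hr, hd⟩ := exists_dens_gt _ (measurableSet_lev hf q) x
    (show t < centredMax ((lev f (q : ℝ)).indicator (1 : Eu d → ℝ)) x by rw [hx q hqf]; exact ht)
  refine le_trans ?_ (le_iSup₂_of_le (x, r) ⟨hr, mem_ball_self hr⟩ le_rfl)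
  calc ENNReal.ofReal t * ENNReal.ofReal q = ∫⁻ _ in Ioc (0 : ℝ) q, ENNReal.ofReal t := by
        rw [setLIntegral_const, Real.volume_Ioc, sub_zero]
    _ ≤ ∫⁻ μ in Ioc (0 : ℝ) q, ENNReal.ofReal (dens (lev f μ) x r) := by
        refine setLIntegral_mono' measurableSet_Ioc fun μ hμ => ENNReal.ofReal_le_ofReal ?_
        refine hd.le.trans (div_le_div_of_nonneg_right ?_ measureReal_nonneg)
        exact measureReal_mono (inter_subset_inter_left _ (antitone_lev f hμ.2))
          (ne_top_of_le_ne_top measure_ball_lt_top.ne (measure_mono inter_subset_right))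
    _ ≤ _ := lintegral_mono_set Ioc_subset_Ioi_self

/-- The finite subfamilies. -/
def seqFamily (d : ℕ) (σ : EReal) (n : ℕ) : Finset (Eu d × ℝ) := by
  classical
  exact ((Finset.range n).image (ballSeq d)).filter fun b => (b.2 : EReal) < σ

theorem seqFamily_pos {σ : EReal} {n : ℕ} : ∀ b ∈ seqFamily d σ n, 0 < b.2 := by
  intro b hb
  simp only [seqFamily, Finset.mem_filter, Finset.mem_image] at hb
  obtain ⟨⟨i, -, rfl⟩, -⟩ := hb
  exact ballSeq_pos (d := d) i

theorem seqFamily_mono (σ : EReal) : Monotone (seqFamily d σ) := by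
  intro m n hmn b hb
  simp only [seqFamily, Finset.mem_filter, Finset.mem_image, Finset.mem_range] at hb ⊢
  obtain ⟨⟨i, hi, rfl⟩, hσ⟩ := hb
  exact ⟨⟨i, by omega, rfl⟩, hσ⟩

/-- The weak type bound for a finite family. -/
theorem weak_finite {f : Eu d → ℝ} (hf : Measurable f) (h0 : ∀ x, 0 ≤ f x)
    (s : Finset (Eu d × ℝ)) (hs : ∀ b ∈ s, 0 < b.2) {T : ℝ} (hT : 0 < T) :
    volume {x | ∃ b ∈ s, ENNReal.ofReal T < avgF f b ∧ x ∈ ball b.1 b.2}
      ≤ ENNReal.ofReal (4 ^ d / T) * ∫⁻ y, ENNReal.ofReal (f y) := by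
  classical
  set t : Set (Eu d × ℝ) := {b | b ∈ s ∧ ENNReal.ofReal T < avgF f b}
  obtain ⟨u, hut, hdisj, hcov⟩ := Vitali.exists_disjoint_subfamily_covering_enlargement_ball t
    (fun b => b.1) (fun b => b.2) (∑ b ∈ s, b.2)
    (fun b hb => Finset.single_le_sum (fun c hc => (hs c hc).le) hb.1) 4 (by norm_num)
  set F := s.filter fun b => b ∈ u
  have hFu : ∀ b, b ∈ F ↔ b ∈ u := fun b =>
    ⟨fun h => (Finset.mem_filter.1 h).2, fun h => Finset.mem_filter.2 ⟨(hut h).1, h⟩⟩
  have hsub : {x | ∃ b ∈ s, ENNReal.ofReal T < avgF f b ∧ x ∈ ball b.1 b.2}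
      ⊆ ⋃ b ∈ F, ball b.1 (4 * b.2) := by
    rintro x ⟨b, hb, hba, hx⟩
    obtain ⟨b', hb', hsub⟩ := hcov b ⟨hb, hba⟩
    exact mem_iUnion₂.2 ⟨b', (hFu b').2 hb', hsub hx⟩
  refine (measure_mono hsub).trans ((measure_biUnion_finset_le F _).trans ?_)
  calc ∑ b ∈ F, volume (ball b.1 (4 * b.2))
      ≤ ∑ b ∈ F, ENNReal.ofReal (4 ^ d / T) * ∫⁻ y in ball b.1 b.2, ENNReal.ofReal (f y) := by
        refine Finset.sum_le_sum fun b hb => ?_
        obtain ⟨hbs, hba⟩ := hut ((hFu b).1 hb)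
        rw [avgF_eq hf h0 (hs b hbs), ENNReal.lt_div_iff_mul_lt
          (Or.inl (measure_ball_pos volume b.1 (hs b hbs)).ne')
          (Or.inl measure_ball_lt_top.ne)] at hba
        rw [Measure.addHaar_ball_mul_of_pos volume b.1 (by norm_num : (0 : ℝ) < 4) b.2,
          finrank_euclideanSpace_fin, div_eq_mul_inv, ENNReal.ofReal_mul (by positivity), mul_assoc,
          ← Measure.addHaar_ball_center volume b.1]
        refine mul_le_mul' le_rfl ?_
        rw [ENNReal.ofReal_inv_of_pos hT, ← ENNReal.div_eq_inv_mul, ENNReal.le_div_iff_mul_le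
          (Or.inl (by simpa using hT)) (Or.inl ENNReal.ofReal_ne_top), mul_comm]
        exact hba.le
    _ = ENNReal.ofReal (4 ^ d / T) * ∫⁻ y in ⋃ b ∈ F, ball b.1 b.2, ENNReal.ofReal (f y) := by
        rw [← Finset.mul_sum, lintegral_biUnion_finset (fun b hb c hc hne =>
          hdisj ((hFu b).1 hb) ((hFu c).1 hc) hne) fun b _ => measurableSet_ball]
    _ ≤ _ := mul_le_mul' le_rfl (setLIntegral_le_lintegral _ _)

theorem coverFun_le_of_inactive {f : Eu d → ℝ} (θ : ℝ) (N : Finset (Eu d))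
    (s : Finset (Eu d × ℝ)) (x : Eu d) {T : ℝ} (hfT : f x ≤ T)
    (hb : ∀ b ∈ succSet N s ∪ s, x ∈ ball b.1 b.2 → avgF f b ≤ ENNReal.ofReal T) :
    coverFun f θ N s x ≤ ENNReal.ofReal T := by
  classical
  rw [← levels_length (ENNReal.ofReal T)]
  refine setLIntegral_mono' measurableSet_Ioi fun l hl => ?_
  by_cases h : x ∈ coverSet f θ N s l
  swap
  · rw [indicator_of_notMem h]; exact zero_le
  have hl' : ENNReal.ofReal l < ENNReal.ofReal T := by
    rcases h with (h | ⟨b, hb', hp, hy⟩) | ⟨b, hb', hp, hy⟩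
    · exact (ENNReal.ofReal_lt_ofReal_iff (lt_of_lt_of_le (lt_trans hl h) hfT)).2 (lt_of_lt_of_le h hfT)
    · exact hp.1.trans_le (hb b (Finset.mem_union_left _ hb') hy)
    · exact hp.trans_le (hb b (Finset.mem_union_right _ hb') hy)
  rw [indicator_of_mem h, indicator_of_mem (show l ∈ {l : ℝ | ENNReal.ofReal l < ENNReal.ofReal T} from hl')]
  simp

/-- An `L¹` bound on a ball from a translation bound and a large sublevel set. -/
theorem ball_l1_bound {u : Eu d → ℝ} (hu : Measurable u) {Q : ℝ≥0∞}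
    (hQ : ∀ v : Eu d, ∫⁻ x, ‖u (x + v) - u x‖ₑ ≤ Q * ‖v‖ₑ) (c : Eu d) {R T : ℝ}
    (hS : 2 * volume ({x | T < u x} ∩ ball c R) ≤ volume (ball c R)) (hR : 0 < R) :
    ∫⁻ x in ball c R, ENNReal.ofReal (u x) ≤ ENNReal.ofReal T * volume (ball c R)
      + 2 * (volume (ball c R))⁻¹ * (volume (ball (0 : Eu d) (2 * R)) * (Q * ENNReal.ofReal (2 * R))) := by
  set B := ball c R
  set S := B ∩ {x | u x ≤ T}
  have hB0 : volume B ≠ 0 := (measure_ball_pos volume c hR).ne'
  have hBt : volume B ≠ ⊤ := measure_ball_lt_top.ne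
  have hSm : MeasurableSet S := measurableSet_ball.inter (measurableSet_le hu measurable_const)
  have hhalf : volume B ≤ 2 * volume S := by
    have hcov : volume B ≤ volume S + volume ({x | T < u x} ∩ B) := by
      refine (measure_mono fun x hx => ?_).trans (measure_union_le _ _)
      by_cases h : u x ≤ T
      · exact Or.inl ⟨hx, h⟩
      · exact Or.inr ⟨not_le.1 h, hx⟩
    have h1 := mul_le_mul' (le_refl (2 : ℝ≥0∞)) hcov
    rw [mul_add, two_mul (volume B)] at h1
    exact (ENNReal.add_le_add_iff_right hBt).1 (h1.trans (add_le_add le_rfl hS))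
  have hum : Measurable fun x => ENNReal.ofReal (u x) := hu.ennreal_ofReal
  have hkey : volume S * ∫⁻ x in B, ENNReal.ofReal (u x)
      ≤ volume S * (ENNReal.ofReal T * volume B)
        + ∫⁻ x in B, ∫⁻ y in B, ‖u x - u y‖ₑ := by
    calc volume S * ∫⁻ x in B, ENNReal.ofReal (u x) = ∫⁻ x in B, volume S * ENNReal.ofReal (u x) :=
          (lintegral_const_mul _ hum).symm
      _ ≤ ∫⁻ x in B, (volume S * ENNReal.ofReal T + ∫⁻ y in B, ‖u x - u y‖ₑ) := by
          refine lintegral_mono fun x => ?_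
          calc volume S * ENNReal.ofReal (u x) = ∫⁻ _ in S, ENNReal.ofReal (u x) := by
                rw [setLIntegral_const, mul_comm]
            _ ≤ ∫⁻ y in S, (ENNReal.ofReal T + ‖u x - u y‖ₑ) := by
                refine setLIntegral_mono' hSm fun y hy => ?_
                rw [Real.enorm_eq_ofReal_abs]
                refine le_trans (ENNReal.ofReal_le_ofReal ?_) ENNReal.ofReal_add_le
                linarith [le_abs_self (u x - u y), show u y ≤ T from hy.2]
            _ ≤ _ := by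
                rw [lintegral_add_left measurable_const, setLIntegral_const, mul_comm]
                exact add_le_add le_rfl (lintegral_mono_set inter_subset_left)
      _ = _ := by rw [lintegral_add_left measurable_const, setLIntegral_const, mul_assoc]
  have hdouble : ∫⁻ x in B, ∫⁻ y in B, ‖u x - u y‖ₑ
      ≤ volume (ball (0 : Eu d) (2 * R)) * (Q * ENNReal.ofReal (2 * R)) := by
    calc ∫⁻ x in B, ∫⁻ y in B, ‖u x - u y‖ₑ
        ≤ ∫⁻ x in B, ∫⁻ v in ball (0 : Eu d) (2 * R), ‖u (x + v) - u x‖ₑ := by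
          refine setLIntegral_mono' measurableSet_ball fun x hx => ?_
          rw [← lintegral_indicator measurableSet_ball, ← lintegral_indicator measurableSet_ball,
            ← lintegral_add_left_eq_self _ x]
          refine lintegral_mono fun v => ?_
          by_cases hv : x + v ∈ B
          · rw [indicator_of_mem hv, indicator_of_mem, ← enorm_neg, neg_sub]
            have h1 := mem_ball.1 hv
            have h2 := mem_ball.1 hx
            have h3 := dist_triangle_right (x + v) x c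
            rw [dist_self_add_left] at h3
            exact mem_ball_zero_iff.2 (by linarith)
          · rw [indicator_of_notMem hv]; exact zero_le
      _ ≤ ∫⁻ x, ∫⁻ v in ball (0 : Eu d) (2 * R), ‖u (x + v) - u x‖ₑ := setLIntegral_le_lintegral _ _
      _ = ∫⁻ v in ball (0 : Eu d) (2 * R), ∫⁻ x, ‖u (x + v) - u x‖ₑ :=
          lintegral_lintegral_swap (((hu.comp (measurable_fst.add measurable_snd)).sub
            (hu.comp measurable_fst)).enorm.aemeasurable)
      _ ≤ ∫⁻ _ in ball (0 : Eu d) (2 * R), Q * ENNReal.ofReal (2 * R) := by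
          refine setLIntegral_mono' measurableSet_ball fun v hv => (hQ v).trans (mul_le_mul' le_rfl ?_)
          rw [← ofReal_norm]
          exact ENNReal.ofReal_le_ofReal (mem_ball_zero_iff.1 hv).le
      _ = _ := by rw [setLIntegral_const, mul_comm]
  have hS0 : volume S ≠ 0 := fun h => hB0 (by simpa [h] using hhalf)
  have hSt : volume S ≠ ⊤ := ne_top_of_le_ne_top hBt (measure_mono inter_subset_left)
  set X := volume (ball (0 : Eu d) (2 * R)) * (Q * ENNReal.ofReal (2 * R))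
  refine (ENNReal.mul_le_mul_iff_right hS0 hSt).1 (hkey.trans ?_)
  rw [mul_add]
  refine add_le_add le_rfl (hdouble.trans ?_)
  calc X = volume B * (volume B)⁻¹ * X := by rw [ENNReal.mul_inv_cancel hB0 hBt, one_mul]
    _ ≤ 2 * volume S * (volume B)⁻¹ * X := mul_le_mul' (mul_le_mul' hhalf le_rfl) le_rfl
    _ = _ := by ring

theorem exists_big_threshold {I : ℝ≥0∞} (hI : I ≠ ⊤) {m : ℝ≥0∞} (hm : m ≠ 0) (k : ℝ≥0∞)
    (hk : k ≠ ⊤) : ∃ T : ℝ, 0 < T ∧ ENNReal.ofReal T⁻¹ * (k * I) ≤ m := by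
  have h : Tendsto (fun T : ℝ => ENNReal.ofReal T⁻¹ * (k * I)) atTop (𝓝 0) := by
    have h0 : Tendsto (fun T : ℝ => ENNReal.ofReal T⁻¹) atTop (𝓝 0) := by
      simpa using (ENNReal.tendsto_ofReal tendsto_inv_atTop_zero)
    simpa using ENNReal.Tendsto.mul_const h0 (Or.inr (ENNReal.mul_ne_top hk hI))
  obtain ⟨T, h1, h2⟩ := ((h.eventually (gt_mem_nhds (pos_iff_ne_zero.2 hm))).and
    (eventually_gt_atTop 0)).exists
  exact ⟨T, h2, h1.le⟩

/-- All scales up to `σ`. -/
def tailMass (f : Eu d → ℝ) (L : ℝ) (σ : ℝ) : ℝ≥0∞ :=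
  ⨆ (ks : Finset ℤ) (_ : ∀ k ∈ ks, scale k ≤ σ), ∑ k ∈ ks, scaleMass f L k

/-- **The variation bound and local integrability of the uncentred maximal function.** -/
theorem uncentred_bv (d : ℕ) (hd : 0 < d) :
    ∃ (N : Finset (Eu d)) (θ L W : ℝ) (C : ℝ≥0∞), 0 < L ∧ 0 ≤ W ∧ C ≠ ⊤ ∧
      ∀ (f : Eu d → ℝ), Measurable f → (∀ x, 0 ≤ f x) → ∫⁻ y, ENNReal.ofReal (f y) ≠ ⊤ →
      ∀ P : ℝ≥0∞, P ≠ ⊤ → (∀ v : Eu d, ∫⁻ y, ‖f (y + v) - f y‖ₑ ≤ P * ‖v‖ₑ) →
        LocallyIntegrable (maxFun f) ∧ (∀ᵐ x : Eu d, levelMax f x ≠ ⊤) ∧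
        (∀ h : Eu d, ∫⁻ x, ‖maxFun f (x + h) - maxFun f x‖ₑ ≤ C * P * ‖h‖ₑ) ∧
        ∀ (s : Finset (Eu d × ℝ)) (ρ1 : ℝ), 0 < ρ1 → (∀ b ∈ s, 0 < b.2 ∧ b.2 ≤ ρ1) →
          ∀ (A : Set (Eu d)), MeasurableSet A → ∀ (H : ℝ) (X : ℝ≥0∞), 0 ≤ H →
          (∀ v : Eu d, ‖v‖ ≤ ρ1 →
            ∫⁻ y in cthickening (W * ρ1 + ρ1 + H) A, ‖f (y + v) - f y‖ₑ ≤ X * ‖v‖ₑ) →
          ∀ h : Eu d, ‖h‖ ≤ H →
            ∫⁻ x in A, ‖(coverFun f θ N s (x + h)).toReal - (coverFun f θ N s x).toReal‖ₑ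
              ≤ C * (X + tailMass f L ρ1) * ‖h‖ₑ := by
  classical
  obtain ⟨N, θ, L, W, C, hL, hW, hC, hfm⟩ := finite_max_bound d hd
  set V := ENNReal.ofReal L * volume (ball (0 : Eu d) L)
  refine ⟨N, θ, L, W, C * (1 + V), hL, hW,
    by finiteness [(measure_ball_lt_top : volume (ball (0 : Eu d) L) < ⊤).ne],
    fun f hf h0 hi P hP hPf => ?_⟩
  have hfin : ∀ b : Eu d × ℝ, 0 < b.2 → avgF f b ≠ ⊤ := fun b hb => avgF_ne_top hf h0 hi hb
  set I := ∫⁻ y, ENNReal.ofReal (f y)
  set u := fun n x => (coverFun f θ N (seqFamily d ⊤ n) x).toReal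
  have hum : ∀ n, Measurable (u n) := fun n => (measurable_coverFun hf θ N _).ennreal_toReal
  have hu : ∀ n (h : Eu d), ∫⁻ x, ‖u n (x + h) - u n x‖ₑ ≤ C * (1 + V) * P * ‖h‖ₑ := by
    intro n h
    set ρ1 := 1 + ∑ b ∈ seqFamily d ⊤ n, b.2
    have hsum : 0 ≤ ∑ b ∈ seqFamily d ⊤ n, b.2 := Finset.sum_nonneg fun b hb => (seqFamily_pos b hb).le
    have hb := hfm f hf h0 hfin (seqFamily d ⊤ n) ρ1 (by positivity) (fun b hb => ⟨seqFamily_pos b hb, by
      linarith [Finset.single_le_sum (fun c hc => (seqFamily_pos (d := d) c hc).le) hb]⟩) univ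
      MeasurableSet.univ ‖h‖ P (norm_nonneg h)
      (fun v _ => (setLIntegral_le_lintegral _ _).trans (hPf v)) h le_rfl
    rw [setLIntegral_univ] at hb
    refine hb.trans (mul_le_mul' ?_ le_rfl)
    rw [mul_assoc C, add_mul, one_mul]
    refine mul_le_mul' le_rfl (add_le_add le_rfl ((sum_scaleMass_le hf h0 hPf _).trans (le_of_eq ?_)))
    ring
  have hlim : ∀ᵐ x : Eu d, levelMax f x = ⨆ n, coverFun f θ N (seqFamily d ⊤ n) x := by
    filter_upwards [ae_le_levelMax hf] with x hx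
    refine le_antisymm ?_ (iSup_le fun n => (coverFun_le θ N seqFamily_pos x).trans (max_le hx le_rfl))
    rw [levelMax_eq_iSup]
    refine iSup_le fun i => ?_
    by_cases hxi : x ∈ ball (ballSeq d i).1 (ballSeq d i).2
    · rw [indicator_of_mem hxi]
      refine le_iSup_of_le (i + 1) (avg_le_coverFun f θ N _ ?_ hxi)
      simp only [seqFamily, Finset.mem_filter, Finset.mem_image, Finset.mem_range]
      exact ⟨⟨i, by omega, rfl⟩, EReal.coe_lt_top _⟩
    · rw [indicator_of_notMem hxi]; exact zero_le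
  have hball : ∀ (c : Eu d) (R : ℝ), 0 < R → ∫⁻ x in ball c R, levelMax f x ≠ ⊤ := by
    intro c R hR
    have hB0 : volume (ball c R) ≠ 0 := (measure_ball_pos volume c hR).ne'
    obtain ⟨T, hT, hTle⟩ := exists_big_threshold (I := I) hi
      (m := volume (ball c R) / 2) (ENNReal.div_ne_zero.2 ⟨hB0, ENNReal.ofNat_ne_top⟩)
      (1 + 2 * ENNReal.ofReal (4 ^ d)) (by finiteness)
    have hbnd : ∀ n, ∫⁻ x in ball c R, coverFun f θ N (seqFamily d ⊤ n) x
        ≤ ENNReal.ofReal T * volume (ball c R) + 2 * (volume (ball c R))⁻¹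
          * (volume (ball (0 : Eu d) (2 * R)) * (C * (1 + V) * P * ENNReal.ofReal (2 * R))) := by
      intro n
      refine le_trans (le_of_eq (setLIntegral_congr_fun measurableSet_ball fun x _ => ?_))
        (ball_l1_bound (hum n) (hu n) c ?_ hR)
      · exact (ENNReal.ofReal_toReal (coverFun_ne_top hfin θ N seqFamily_pos x)).symm
      set s := seqFamily d ⊤ n
      have hsub : {x | T < u n x} ⊆ {x | T < f x}
          ∪ {x | ∃ b ∈ succSet N s ∪ s, ENNReal.ofReal T < avgF f b ∧ x ∈ ball b.1 b.2} := by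
        intro x hx
        by_contra hcon
        simp only [Set.mem_union, mem_ofPred_eq, not_or, not_lt, not_exists, not_and] at hcon
        have h1 := coverFun_le_of_inactive θ N s x hcon.1 fun b hb hxb =>
          not_lt.1 fun hlt => hcon.2 b hb hlt hxb
        exact absurd (ENNReal.toReal_le_of_le_ofReal hT.le h1) (not_le.2 hx)
      have hmk : volume {x | T < f x} ≤ ENNReal.ofReal T⁻¹ * I := by
        have h := mul_meas_ge_le_lintegral (μ := (volume : Measure (Eu d))) hf.ennreal_ofReal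
          (ENNReal.ofReal T)
        rw [ENNReal.ofReal_inv_of_pos hT, ← ENNReal.div_eq_inv_mul, ENNReal.le_div_iff_mul_le
          (Or.inl (by simpa using hT)) (Or.inl ENNReal.ofReal_ne_top), mul_comm]
        refine le_trans (mul_le_mul' le_rfl (measure_mono fun x hx => ?_)) h
        exact ENNReal.ofReal_le_ofReal (le_of_lt hx)
      have hwk := weak_finite hf h0 (succSet N s ∪ s) (fun b hb =>
        (Finset.mem_union.1 hb).elim (succSet_pos seqFamily_pos b) (seqFamily_pos b)) hT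
      calc 2 * volume ({x | T < u n x} ∩ ball c R)
          ≤ 2 * (ENNReal.ofReal T⁻¹ * I + ENNReal.ofReal (4 ^ d / T) * I) :=
            mul_le_mul' le_rfl ((measure_mono (inter_subset_left.trans hsub)).trans
              ((measure_union_le _ _).trans (add_le_add hmk hwk)))
        _ = 2 * (ENNReal.ofReal T⁻¹ * ((1 + ENNReal.ofReal (4 ^ d)) * I)) := by
            rw [div_eq_mul_inv ((4 : ℝ) ^ d), ENNReal.ofReal_mul (by positivity : (0:ℝ) ≤ 4 ^ d)]
            ring
        _ ≤ 2 * (ENNReal.ofReal T⁻¹ * ((1 + 2 * ENNReal.ofReal (4 ^ d)) * I)) := by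
            gcongr
            exact le_mul_of_one_le_left zero_le one_le_two
        _ ≤ 2 * (volume (ball c R) / 2) := mul_le_mul' le_rfl hTle
        _ = _ := ENNReal.mul_div_cancel two_ne_zero ENNReal.ofNat_ne_top
    rw [lintegral_congr_ae (ae_restrict_of_ae hlim), lintegral_iSup
      (fun n => measurable_coverFun hf θ N _)
      (fun m n hmn x => coverFun_mono f θ N (seqFamily_mono _ hmn) x)]
    refine ne_top_of_le_ne_top ?_ (iSup_le hbnd)
    finiteness [(measure_ball_lt_top : volume (ball c R) < ⊤).ne, ENNReal.inv_ne_top.2 hB0,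
      (measure_ball_lt_top : volume (ball (0 : Eu d) (2 * R)) < ⊤).ne,
      (measure_ball_lt_top : volume (ball (0 : Eu d) L) < ⊤).ne]
  have hae : ∀ᵐ x : Eu d, levelMax f x ≠ ⊤ := by
    have h : ∀ k : ℕ, ∀ᵐ x : Eu d, x ∈ ball (0 : Eu d) (k + 1) → levelMax f x ≠ ⊤ := fun k =>
      (ae_restrict_iff' measurableSet_ball).1 ((ae_lt_top (measurable_levelMax f)
        (hball 0 (k + 1) (by positivity))).mono fun x hx => hx.ne)
    filter_upwards [ae_all_iff.2 h] with x hx
    obtain ⟨k, hk⟩ := exists_nat_gt ‖x‖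
    exact hx k (mem_ball_zero_iff.2 (by linarith))
  refine ⟨?_, hae, ?_, ?_⟩
  · intro x
    refine ⟨ball x 1, ball_mem_nhds x one_pos,
      (measurable_maxFun f).aestronglyMeasurable.restrict, ?_⟩
    refine lt_of_le_of_lt (lintegral_mono fun y => ?_) (hball x 1 one_pos).lt_top
    rw [Real.enorm_eq_ofReal_abs, maxFun, abs_of_nonneg ENNReal.toReal_nonneg]
    exact ENNReal.ofReal_toReal_le
  · intro h
    have hconv : ∀ᵐ x : Eu d, Tendsto (fun n => u n x) atTop (𝓝 (maxFun f x)) := by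
      filter_upwards [hae, hlim] with x hx hxl
      rw [maxFun, hxl]
      exact (ENNReal.tendsto_toReal (hxl ▸ hx)).comp (tendsto_atTop_iSup fun m n hmn =>
        coverFun_mono f θ N (seqFamily_mono _ hmn) x)
    have hconv' : ∀ᵐ x : Eu d, Tendsto (fun n => u n (x + h)) atTop (𝓝 (maxFun f (x + h))) :=
      (measurePreserving_add_right volume h).quasiMeasurePreserving.ae hconv
    calc ∫⁻ x, ‖maxFun f (x + h) - maxFun f x‖ₑ
        = ∫⁻ x, liminf (fun n => ‖u n (x + h) - u n x‖ₑ) atTop := by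
          refine lintegral_congr_ae ?_
          filter_upwards [hconv, hconv'] with x h1 h2
          exact ((h2.sub h1).enorm.liminf_eq).symm
      _ ≤ liminf (fun n => ∫⁻ x, ‖u n (x + h) - u n x‖ₑ) atTop :=
          lintegral_liminf_le fun n => (((hum n).comp (measurable_add_const h)).sub (hum n)).enorm
      _ ≤ _ := (liminf_le_liminf (Eventually.of_forall fun n => hu n h)).trans
          (le_of_eq (liminf_const _))
  · intro s ρ1 hρ1 hs A hA H X hH hX h hh
    refine (hfm f hf h0 hfin s ρ1 hρ1 hs A hA H X hH hX h hh).trans (mul_le_mul' ?_ le_rfl)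
    refine mul_le_mul' (le_mul_of_one_le_right zero_le le_self_add) (add_le_add le_rfl (le_iSup₂_of_le _ (fun k hk => ?_) le_rfl))
    obtain ⟨b, hb, rfl⟩ := Finset.mem_image.1 hk
    exact (scaleIdx_spec (hs b hb).1).1.trans (hs b hb).2

end

end Vale.Agent.P137
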