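import Mathlib
import Vale.Agent.P137.Basic

/-!
# P137: weak gradient from translation bounds

If the translations of `M` move it by at most `P ‖h‖` in `L¹`, and by `o(‖h‖)` near each compact
null set, then the weak gradient of `M` is integrable.
-/

namespace Vale.Agent.P137

open MeasureTheory Set Filter Function
open scoped ENNReal NNReal Topology RealInnerProductSpace CompactlySupported

noncomputable section

namespace WeakGrad

section Limit

variable {X : Type*} [TopologicalSpace X] [T2Space X] [LocallyCompactSpace X] [MeasurableSpace X]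
  [BorelSpace X] {ι : Type*}

/-- A family of nonnegative functions bounded in `L¹` has a limit measure along an ultrafilter. -/
theorem exists_limit_measure (μ : Measure X) (U : Ultrafilter ι) (u : ι → X → ℝ)
    (h0 : ∀ i x, 0 ≤ u i x) (hint : ∀ i, Integrable (u i) μ) {P : ℝ}
    (hP : ∀ i, ∫ x, u i x ∂μ ≤ P) :
    ∃ ν : Measure X, ν.Regular ∧
      ∀ φ : C_c(X, ℝ), Tendsto (fun i => ∫ x, φ x * u i x ∂μ) U (𝓝 (∫ x, φ x ∂ν)) := by
  have hφi : ∀ (φ : C_c(X, ℝ)) i, Integrable (fun x => φ x * u i x) μ := by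
    intro φ i
    obtain ⟨C, hC⟩ := φ.hasCompactSupport.exists_bound_of_continuous (map_continuous φ)
    exact (hint i).bdd_mul (map_continuous φ).measurable.aestronglyMeasurable (.of_forall hC)
  have hex : ∀ φ : C_c(X, ℝ), ∃ l, Tendsto (fun i => ∫ x, φ x * u i x ∂μ) U (𝓝 l) := by
    intro φ
    obtain ⟨C, hC⟩ := φ.hasCompactSupport.exists_bound_of_continuous (map_continuous φ)
    have hmem : ∀ i, ∫ x, φ x * u i x ∂μ ∈ Metric.closedBall (0 : ℝ) (|C| * |P|) := fun i => by
      rw [mem_closedBall_zero_iff, Real.norm_eq_abs]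
      refine abs_integral_le_integral_abs.trans ?_
      calc ∫ x, |φ x * u i x| ∂μ ≤ ∫ x, |C| * u i x ∂μ := by
            refine integral_mono (hφi φ i).abs ((hint i).const_mul _) fun x => ?_
            dsimp only
            rw [abs_mul, abs_of_nonneg (h0 i x)]
            exact mul_le_mul_of_nonneg_right ((hC x).trans (le_abs_self C)) (h0 i x)
        _ ≤ |C| * |P| := by
            rw [integral_const_mul]
            exact mul_le_mul_of_nonneg_left ((hP i).trans (le_abs_self P)) (abs_nonneg C)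
    obtain ⟨l, -, hl⟩ := (isCompact_closedBall (0 : ℝ) (|C| * |P|)).ultrafilter_le_nhds
      (U.map fun i => ∫ x, φ x * u i x ∂μ)
      (le_principal_iff.2 (Filter.mem_map.2 (Eventually.of_forall hmem)))
    exact ⟨l, hl⟩
  choose L hL using hex
  let Lm : C_c(X, ℝ) →ₗ[ℝ] ℝ :=
    { toFun := L
      map_add' := fun φ ψ => tendsto_nhds_unique (hL (φ + ψ))
        (((hL φ).add (hL ψ)).congr fun i => by
          rw [← integral_add (hφi φ i) (hφi ψ i)]
          exact integral_congr_ae (.of_forall fun x => by simp [add_mul]))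
      map_smul' := fun c φ => tendsto_nhds_unique (hL (c • φ))
        (((hL φ).const_mul c).congr fun i => by
          rw [← integral_const_mul]
          exact integral_congr_ae (.of_forall fun x => by simp [mul_assoc])) }
  let Λ : C_c(X, ℝ) →ₚ[ℝ] ℝ := PositiveLinearMap.mk₀ Lm fun φ hφ =>
    ge_of_tendsto' (hL φ) fun i => integral_nonneg fun x => mul_nonneg (hφ x) (h0 i x)
  exact ⟨RealRMK.rieszMeasure Λ, inferInstance, fun φ => by
    rw [RealRMK.integral_rieszMeasure]; exact hL φ⟩

end Limit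

variable {d : ℕ}

/-- The difference quotient in direction `e`. -/
def quot (M : Eu d → ℝ) (e : Eu d) (t : ℝ) (x : Eu d) : ℝ := (M (x + t • e) - M x) / t

variable {M : Eu d → ℝ} {e : Eu d} {P : ℝ≥0∞}

lemma aesm_quot (hM : LocallyIntegrable M) (t : ℝ) : AEStronglyMeasurable (quot M e t) := by
  refine AEStronglyMeasurable.div₀ ?_ aestronglyMeasurable_const
  exact (hM.aestronglyMeasurable.comp_measurePreserving
    (measurePreserving_add_right volume (t • e))).sub hM.aestronglyMeasurable

lemma lintegral_quot_le (he : ‖e‖ = 1) {t : ℝ} {s : Set (Eu d)} {c : ℝ≥0∞}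
    (h : ∫⁻ x in s, ‖M (x + t • e) - M x‖ₑ ≤ c * ‖t • e‖ₑ) :
    ∫⁻ x in s, ‖quot M e t x‖ₑ ≤ c := by
  rcases eq_or_ne t 0 with rfl | ht
  · simp [quot]
  have hn : ‖t • e‖ₑ = ‖t‖ₑ := by
    rw [enorm_smul, show ‖e‖ₑ = 1 by rw [← ofReal_norm, he, ENNReal.ofReal_one], mul_one]
  rw [hn] at h
  have hpt : ∀ x, ‖quot M e t x‖ₑ = ‖M (x + t • e) - M x‖ₑ * ‖t‖ₑ⁻¹ := fun x => by
    rw [quot, div_eq_mul_inv, enorm_mul, enorm_inv ht]
  simp only [hpt]
  rw [lintegral_mul_const' _ _ (ENNReal.inv_ne_top.2 (by simpa using ht)), ← div_eq_mul_inv]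
  exact ENNReal.div_le_of_le_mul h

lemma integrable_quot (hM : LocallyIntegrable M) (he : ‖e‖ = 1) (hP : P ≠ ⊤)
    (hglob : ∀ h : Eu d, ∫⁻ x, ‖M (x + h) - M x‖ₑ ≤ P * ‖h‖ₑ) (t : ℝ) :
    Integrable (quot M e t) := by
  refine ⟨aesm_quot hM t, ?_⟩
  have h := lintegral_quot_le (s := univ) he (by simpa using hglob (t • e) : _ ≤ P * ‖t • e‖ₑ)
  rw [setLIntegral_univ] at h
  exact h.trans_lt hP.lt_top

/-- The difference quotients tested against a test function converge to the derivative. -/
lemma tendsto_quot (hM : LocallyIntegrable M) {φ : Eu d → ℝ} (hφ : ContDiff ℝ (⊤ : ℕ∞) φ) (hsupp : HasCompactSupport φ) :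
    Tendsto (fun t => ∫ x, φ x * quot M e t x) (𝓝[>] 0)
      (𝓝 (-∫ x, M x * fderiv ℝ φ x e)) := by
  have hd : Differentiable ℝ φ := hφ.differentiable (by simp)
  obtain ⟨L, hL⟩ : ∃ L : ℝ≥0, LipschitzWith L φ := by
    obtain ⟨C, hC⟩ := (hsupp.fderiv ℝ).exists_bound_of_continuous (hφ.continuous_fderiv (by simp))
    exact ⟨C.toNNReal, lipschitzWith_of_nnnorm_fderiv_le hd fun x => by
      rw [← NNReal.coe_le_coe, coe_nnnorm]
      exact (hC x).trans (Real.le_coe_toNNReal C)⟩
  have hMφ : ∀ a : Eu d, Integrable fun x => M x * φ (x + a) := fun a =>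
    hM.integrable_smul_right_of_hasCompactSupport (g := fun x => φ (x + a))
      (hφ.continuous.comp (continuous_add_const a)) (hsupp.comp_homeomorph (Homeomorph.addRight a))
  set K : Set (Eu d) := Metric.cthickening ‖e‖ (tsupport φ)
  have hK : IsCompact K := hsupp.isCompact.cthickening
  -- move the difference to the test function
  have hswap : ∀ t : ℝ, t ≠ 0 → ∫ x, φ x * quot M e t x
      = ∫ x, M x * ((φ (x - t • e) - φ x) / t) := by
    intro t ht
    have h1 : Integrable fun x => φ x * M x := by simpa [mul_comm] using hMφ 0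
    have h2 : Integrable fun x => φ x * M (x + t • e) := by
      have := (hMφ (-(t • e))).comp_add_right (t • e)
      simpa [mul_comm, add_assoc] using this
    have e1 : ∫ x, φ x * M (x + t • e) = ∫ x, M x * φ (x - t • e) := by
      rw [← integral_add_right_eq_self (fun x => M x * φ (x - t • e)) (t • e)]
      exact integral_congr_ae (.of_forall fun x => by simp [mul_comm])
    calc ∫ x, φ x * quot M e t x = ∫ x, (φ x * M (x + t • e) - φ x * M x) / t :=
          integral_congr_ae (.of_forall fun x => by simp only [quot]; ring)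
      _ = ((∫ x, φ x * M (x + t • e)) - ∫ x, φ x * M x) / t := by
          rw [integral_div, integral_sub h2 h1]
      _ = ((∫ x, M x * φ (x - t • e)) - ∫ x, M x * φ x) / t := by
          rw [e1, integral_congr_ae (.of_forall fun x => mul_comm (φ x) (M x))]
      _ = ∫ x, M x * ((φ (x - t • e) - φ x) / t) := by
          have h3 : Integrable fun x => M x * φ (x - t • e) := by
            simpa [sub_eq_add_neg] using hMφ (-(t • e))
          have h4 : Integrable fun x => M x * φ x := by simpa using hMφ 0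
          rw [← integral_sub h3 h4, ← integral_div]
          exact integral_congr_ae (.of_forall fun x => by ring)
  have hev : ∀ᶠ t in 𝓝[>] (0 : ℝ), t ∈ Ioo (0 : ℝ) 1 := Ioo_mem_nhdsGT one_pos
  rw [← integral_neg]
  refine (tendsto_integral_filter_of_dominated_convergence
    (fun x => (K.indicator fun x => ‖M x‖) x * (L * ‖e‖)) ?_ ?_ ?_ ?_).congr'
    (hev.mono fun t ht => (hswap t ht.1.ne').symm)
  · refine .of_forall fun t => hM.aestronglyMeasurable.mul ?_
    exact Continuous.aestronglyMeasurable (by fun_prop)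
  · filter_upwards [hev] with t ht
    refine .of_forall fun x => ?_
    by_cases hx : x ∈ K
    · rw [indicator_of_mem hx, norm_mul]
      refine mul_le_mul_of_nonneg_left ?_ (norm_nonneg _)
      rw [norm_div, Real.norm_of_nonneg ht.1.le, div_le_iff₀ ht.1]
      refine (hL.norm_sub_le _ _).trans (le_of_eq ?_)
      rw [sub_sub_cancel_left, norm_neg, norm_smul, Real.norm_of_nonneg ht.1.le]
      ring
    · have h1 : φ x = 0 := image_eq_zero_of_notMem_tsupport fun h =>
        hx (Metric.self_subset_cthickening _ h)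
      have h2 : φ (x - t • e) = 0 := image_eq_zero_of_notMem_tsupport fun h =>
        hx (Metric.mem_cthickening_of_dist_le x _ _ _ h (by
          rw [dist_eq_norm, sub_sub_cancel, norm_smul, Real.norm_of_nonneg ht.1.le]
          exact mul_le_of_le_one_left (norm_nonneg _) ht.2.le))
      simp [indicator_of_notMem hx, h1, h2]
  · exact ((integrable_indicator_iff hK.measurableSet).2 (hM.integrableOn_isCompact hK).norm).mul_const _
  · refine .of_forall fun x => ?_
    have hline : HasDerivAt (fun t : ℝ => φ (x - t • e)) (fderiv ℝ φ x (-e)) 0 := by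
      have h1 : HasDerivAt (fun t : ℝ => x - t • e) (-e) 0 := by
        simpa using ((hasDerivAt_id (0 : ℝ)).smul_const e).const_sub x
      exact (by simpa using (hd x).hasFDerivAt : HasFDerivAt φ (fderiv ℝ φ x) (x - (0 : ℝ) • e))
        |>.comp_hasDerivAt 0 h1
    have := hline.tendsto_slope_zero_right
    simpa [div_eq_inv_mul] using this.const_mul (M x)

/-- The weak derivative of `M` in a unit direction is integrable, with `L¹` norm at most `P`. -/
theorem exists_deriv (hM : LocallyIntegrable M) (hP : P ≠ ⊤)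
    (hglob : ∀ h : Eu d, ∫⁻ x, ‖M (x + h) - M x‖ₑ ≤ P * ‖h‖ₑ)
    (hnull : ∀ K : Set (Eu d), IsCompact K → volume K = 0 → ∀ ε : ℝ≥0∞, 0 < ε →
      ∃ A : Set (Eu d), IsOpen A ∧ K ⊆ A ∧ ∃ t0 : ℝ, 0 < t0 ∧ ∀ h : Eu d, ‖h‖ ≤ t0 →
        ∫⁻ x in A, ‖M (x + h) - M x‖ₑ ≤ ε * ‖h‖ₑ)
    (he : ‖e‖ = 1) :
    ∃ g : Eu d → ℝ, Integrable g ∧ (∀ φ : Eu d → ℝ, ContDiff ℝ (⊤ : ℕ∞) φ →
        HasCompactSupport φ → ∫ x, M x * fderiv ℝ φ x e = -∫ x, φ x * g x) ∧
      ∫⁻ x, ‖g x‖ₑ ≤ P := by
  set D := quot M e
  have hD : ∀ t, Integrable (D t) := integrable_quot hM he hP hglob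
  have hDP : ∀ t, ∫⁻ x, ‖D t x‖ₑ ≤ P := fun t => by
    simpa using lintegral_quot_le (s := univ) he
      (by simpa using hglob (t • e) : _ ≤ P * ‖t • e‖ₑ)
  let U : Ultrafilter ℝ := Ultrafilter.of (𝓝[>] (0 : ℝ))
  have hU : (U : Filter ℝ) ≤ 𝓝[>] (0 : ℝ) := Ultrafilter.of_le _
  have hPr : ∀ t, ∫ x, |D t x| ≤ P.toReal := fun t => by
    rw [integral_eq_lintegral_of_nonneg_ae (.of_forall fun x => abs_nonneg _)
      (hD t).abs.aestronglyMeasurable]
    refine ENNReal.toReal_mono hP (le_trans (le_of_eq ?_) (hDP t))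
    exact lintegral_congr fun x => by rw [Real.enorm_eq_ofReal_abs]
  obtain ⟨ν, hνr, hν⟩ := exists_limit_measure volume U (fun t x => max (D t x) 0)
    (fun t x => le_max_right _ _) (fun t => (hD t).pos_part) (P := P.toReal) fun t =>
    (integral_mono (hD t).pos_part (hD t).abs fun x =>
      max_le (le_abs_self _) (abs_nonneg _)).trans (hPr t)
  obtain ⟨ρ, hρr, hρ⟩ := exists_limit_measure volume U (fun t x => max (-D t x) 0)
    (fun t x => le_max_right _ _) (fun t => (hD t).neg_part) (P := P.toReal) fun t =>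
    (integral_mono (hD t).neg_part (hD t).abs fun x =>
      max_le (neg_le_abs _) (abs_nonneg _)).trans (hPr t)
  -- mass near a compact set
  have key : ∀ (K A : Set (Eu d)), IsCompact K → IsOpen A → K ⊆ A → ∀ c : ℝ≥0∞, c ≠ ⊤ →
      (∀ᶠ t in 𝓝[>] (0 : ℝ), ∫⁻ x in A, ‖D t x‖ₑ ≤ c) → ν K + ρ K ≤ c := by
    intro K A hK hA hKA c hc hev
    obtain ⟨f, hf1, hf0, hfc, hf01⟩ := exists_continuous_one_zero_of_isCompact hK hA.isClosed_compl
      (disjoint_compl_right_iff_subset.2 hKA)
    let φ : C_c(Eu d, ℝ) := ⟨f, hfc⟩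
    have h1 : ∀ (m : Measure (Eu d)), m.Regular → m K ≤ ENNReal.ofReal (∫ x, φ x ∂m) := by
      intro m hm
      rw [ofReal_integral_eq_lintegral_ofReal ((map_continuous φ).integrable_of_hasCompactSupport
        φ.hasCompactSupport) (.of_forall fun x => (hf01 x).1), ← lintegral_indicator_one
        hK.measurableSet]
      refine lintegral_mono fun x => ?_
      by_cases hx : x ∈ K
      · have : φ x = 1 := hf1 hx
        simp [indicator_of_mem hx, this]
      · simp [indicator_of_notMem hx]
    have hnn : ∀ m : Measure (Eu d), 0 ≤ ∫ x, φ x ∂m := fun m =>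
      integral_nonneg fun x => (hf01 x).1
    refine (add_le_add (h1 ν hνr) (h1 ρ hρr)).trans ?_
    rw [← ENNReal.ofReal_add (hnn ν) (hnn ρ)]
    refine ENNReal.ofReal_le_of_le_toReal (le_of_tendsto ((hν φ).add (hρ φ)) ?_)
    filter_upwards [hU hev] with t ht
    have hb : ∀ x, ‖φ x‖ ≤ 1 := fun x =>
      (Real.norm_of_nonneg (hf01 x).1).trans_le (hf01 x).2
    have hm := (map_continuous φ).measurable.aestronglyMeasurable (μ := (volume : Measure (Eu d)))
    rw [← integral_add ((hD t).pos_part.bdd_mul hm (.of_forall hb))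
      ((hD t).neg_part.bdd_mul hm (.of_forall hb))]
    refine (integral_mono (g := fun x => A.indicator (fun x => |D t x|) x) ?_ ?_ fun x => ?_).trans ?_
    · exact ((hD t).pos_part.bdd_mul hm (.of_forall hb)).add
        ((hD t).neg_part.bdd_mul hm (.of_forall hb))
    · exact (hD t).abs.indicator hA.measurableSet
    · dsimp only
      rw [← mul_add]
      by_cases hx : x ∈ A
      · rw [indicator_of_mem hx]
        have hsum : max (D t x) 0 + max (-D t x) 0 = |D t x| := by
          rcases le_total 0 (D t x) with h | h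
          · simp [abs_of_nonneg h, h]
          · simp [abs_of_nonpos h, h]
        rw [hsum]
        exact mul_le_of_le_one_left (abs_nonneg _) (hf01 x).2
      · have : φ x = 0 := hf0 hx
        simp [indicator_of_notMem hx, this]
    · rw [integral_indicator hA.measurableSet, integral_eq_lintegral_of_nonneg_ae
        (.of_forall fun x => abs_nonneg _) (hD t).abs.aestronglyMeasurable.restrict]
      refine ENNReal.toReal_mono hc (le_trans (le_of_eq ?_) ht)
      exact lintegral_congr fun x => by rw [Real.enorm_eq_ofReal_abs]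
  -- total mass
  have hmass : ν univ + ρ univ ≤ P := by
    have hball : ∀ n : ℕ, ν (Metric.closedBall 0 n) + ρ (Metric.closedBall 0 n) ≤ P := fun n =>
      key _ univ (isCompact_closedBall _ _) isOpen_univ (subset_univ _) P hP
        (.of_forall fun t => by rw [setLIntegral_univ]; exact hDP t)
    have hlim : ∀ m : Measure (Eu d),
        Tendsto (fun n : ℕ => m (Metric.closedBall 0 n)) atTop (𝓝 (m univ)) := fun m => by
      rw [← Metric.iUnion_closedBall_nat (0 : Eu d)]
      exact tendsto_measure_iUnion_atTop fun a b hab =>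
        Metric.closedBall_subset_closedBall (by exact_mod_cast hab)
    exact le_of_tendsto' ((hlim ν).add (hlim ρ)) hball
  have : IsFiniteMeasure ν := ⟨((le_self_add).trans hmass).trans_lt hP.lt_top⟩
  have : IsFiniteMeasure ρ := ⟨((le_add_self).trans hmass).trans_lt hP.lt_top⟩
  have hzero : ∀ K, IsCompact K → volume K = 0 → ν K + ρ K = 0 := by
    intro K hK h0
    refine le_antisymm (ENNReal.le_of_forall_pos_le_add fun ε hε _ => ?_) zero_le
    obtain ⟨A, hA, hKA, t0, ht0, hh⟩ := hnull K hK h0 ε (by exact_mod_cast hε)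
    rw [zero_add]
    refine key K A hK hA hKA ε ENNReal.coe_ne_top ?_
    filter_upwards [Ioo_mem_nhdsGT ht0] with t ht
    refine lintegral_quot_le he (hh _ ?_)
    rw [norm_smul, he, mul_one, Real.norm_of_nonneg ht.1.le]
    exact ht.2.le
  have hac : ∀ m : Measure (Eu d), m.Regular → IsFiniteMeasure m →
      (∀ K, IsCompact K → volume K = 0 → m K = 0) → m ≪ volume := by
    intro m hm hfin h
    refine Measure.AbsolutelyContinuous.mk fun s hs h0 => ?_
    rw [hs.measure_eq_iSup_isCompact_of_ne_top (measure_ne_top m s)]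
    simp only [ENNReal.iSup_eq_zero]
    exact fun K hKs hK => h K hK (measure_mono_null hKs h0)
  have hνac : ν ≪ volume :=
    hac ν hνr inferInstance fun K hK h0 => (add_eq_zero.1 (hzero K hK h0)).1
  have hρac : ρ ≪ volume :=
    hac ρ hρr inferInstance fun K hK h0 => (add_eq_zero.1 (hzero K hK h0)).2
  set a := fun x => (ν.rnDeriv volume x).toReal
  set b := fun x => (ρ.rnDeriv volume x).toReal
  have ha : Integrable a := Measure.integrable_toReal_rnDeriv
  have hb : Integrable b := Measure.integrable_toReal_rnDeriv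
  refine ⟨fun x => a x - b x, ha.sub hb, fun φ hφ hsupp => ?_, ?_⟩
  · let Φ : C_c(Eu d, ℝ) := ⟨⟨φ, hφ.continuous⟩, hsupp⟩
    obtain ⟨C, hC⟩ := hsupp.exists_bound_of_continuous hφ.continuous
    have hm := hφ.continuous.measurable.aestronglyMeasurable (μ := (volume : Measure (Eu d)))
    have h1 : Tendsto (fun t => ∫ x, φ x * D t x) U (𝓝 ((∫ x, φ x ∂ν) - ∫ x, φ x ∂ρ)) := by
      refine ((hν Φ).sub (hρ Φ)).congr fun t => ?_
      show ((∫ x, φ x * max (D t x) 0) - ∫ x, φ x * max (-D t x) 0) = _
      rw [← integral_sub ((hD t).pos_part.bdd_mul hm (.of_forall hC))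
        ((hD t).neg_part.bdd_mul hm (.of_forall hC))]
      refine integral_congr_ae (.of_forall fun x => ?_)
      show φ x * max (D t x) 0 - φ x * max (-D t x) 0 = φ x * D t x
      rw [← mul_sub]
      rcases le_total 0 (D t x) with h | h
      · simp [h]
      · simp [h]
    have h2 := tendsto_nhds_unique h1 ((tendsto_quot hM hφ hsupp).mono_left hU)
    have ea : ∫ x, φ x ∂ν = ∫ x, φ x * a x := by
      rw [← integral_rnDeriv_smul hνac]
      exact integral_congr_ae (.of_forall fun x => mul_comm _ _)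
    have eb : ∫ x, φ x ∂ρ = ∫ x, φ x * b x := by
      rw [← integral_rnDeriv_smul hρac]
      exact integral_congr_ae (.of_forall fun x => mul_comm _ _)
    rw [ea, eb] at h2
    rw [integral_congr_ae (.of_forall fun x => mul_sub (φ x) (a x) (b x)),
      integral_sub (ha.bdd_mul hm (.of_forall hC)) (hb.bdd_mul hm (.of_forall hC)), h2, neg_neg]
  · calc ∫⁻ x, ‖a x - b x‖ₑ ≤ ∫⁻ x, (ν.rnDeriv volume x + ρ.rnDeriv volume x) := by
          refine lintegral_mono fun x => (enorm_sub_le).trans (add_le_add ?_ ?_)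
          all_goals
            rw [Real.enorm_eq_ofReal ENNReal.toReal_nonneg]
            exact ENNReal.ofReal_toReal_le
      _ = ν univ + ρ univ := by
          rw [lintegral_add_left (Measure.measurable_rnDeriv _ _),
            Measure.lintegral_rnDeriv hνac, Measure.lintegral_rnDeriv hρac]
      _ ≤ P := hmass

end WeakGrad

/-- Translation bounds give an integrable weak gradient. -/
theorem weakGrad_of_translation {d : ℕ} {M : Eu d → ℝ} (hM : LocallyIntegrable M) {P : ℝ≥0∞}
    (hP : P ≠ ⊤) (hglob : ∀ h : Eu d, ∫⁻ x, ‖M (x + h) - M x‖ₑ ≤ P * ‖h‖ₑ)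
    (hnull : ∀ K : Set (Eu d), IsCompact K → volume K = 0 → ∀ ε : ℝ≥0∞, 0 < ε →
      ∃ A : Set (Eu d), IsOpen A ∧ K ⊆ A ∧ ∃ t0 : ℝ, 0 < t0 ∧ ∀ h : Eu d, ‖h‖ ≤ t0 →
        ∫⁻ x in A, ‖M (x + h) - M x‖ₑ ≤ ε * ‖h‖ₑ) :
    ∃ G : Eu d → Eu d, Integrable G ∧
      (∀ φ : Eu d → ℝ, ContDiff ℝ (⊤ : ℕ∞) φ → HasCompactSupport φ →
        ∀ v : Eu d, ∫ x, M x * fderiv ℝ φ x v = -∫ x, φ x * ⟪G x, v⟫) ∧
      ∫⁻ x, ‖G x‖ₑ ≤ d * P := by
  set b := EuclideanSpace.basisFun (Fin d) ℝ
  choose g hg hwk hbd using fun i => WeakGrad.exists_deriv hM hP hglob hnull (e := b i)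
    (b.orthonormal.1 i)
  refine ⟨fun x => ∑ i, g i x • b i, integrable_finsetSum _ fun i _ => (hg i).smul_const _,
    fun φ hφ hsupp v => ?_, ?_⟩
  · obtain ⟨C, hC⟩ := hsupp.exists_bound_of_continuous hφ.continuous
    have hm := hφ.continuous.measurable.aestronglyMeasurable (μ := (volume : Measure (Eu d)))
    have hl : ∀ x, M x * fderiv ℝ φ x v = ∑ i, ⟪b i, v⟫ * (M x * fderiv ℝ φ x (b i)) := fun x => by
      conv_lhs => rw [← b.sum_repr' v]
      rw [map_sum, Finset.mul_sum]
      exact Finset.sum_congr rfl fun i _ => by rw [map_smul, smul_eq_mul]; ring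
    have hr : ∀ x, φ x * ⟪∑ i, g i x • b i, v⟫ = ∑ i, ⟪b i, v⟫ * (φ x * g i x) := fun x => by
      rw [sum_inner, Finset.mul_sum]
      exact Finset.sum_congr rfl fun i _ => by rw [real_inner_smul_left]; ring
    have hi : ∀ i, Integrable fun x => M x * fderiv ℝ φ x (b i) := fun i =>
      hM.integrable_smul_right_of_hasCompactSupport (g := fun x => fderiv ℝ φ x (b i))
        ((hφ.continuous_fderiv (by simp)).clm_apply continuous_const) (hsupp.fderiv_apply ℝ (b i))
    rw [integral_congr_ae (.of_forall hl), integral_congr_ae (.of_forall hr),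
      integral_finsetSum _ fun i _ => (hi i).const_mul _,
      integral_finsetSum _ fun i _ => ((hg i).bdd_mul hm (.of_forall hC)).const_mul _,
      ← Finset.sum_neg_distrib]
    refine Finset.sum_congr rfl fun i _ => ?_
    rw [integral_const_mul, integral_const_mul, hwk i φ hφ hsupp, mul_neg]
  · calc ∫⁻ x, ‖∑ i, g i x • b i‖ₑ ≤ ∫⁻ x, ∑ i, ‖g i x‖ₑ := by
          refine lintegral_mono fun x => (enorm_sum_le _ _).trans (le_of_eq ?_)
          refine Finset.sum_congr rfl fun i _ => ?_
          rw [enorm_smul, show ‖b i‖ₑ = 1 by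
            rw [← ofReal_norm, b.orthonormal.1 i, ENNReal.ofReal_one], mul_one]
      _ = ∑ i, ∫⁻ x, ‖g i x‖ₑ :=
          lintegral_finsetSum' _ fun i _ => (hg i).aestronglyMeasurable.enorm
      _ ≤ ∑ _i : Fin d, P := Finset.sum_le_sum fun i _ => hbd i
      _ = d * P := by simp

end

end Vale.Agent.P137
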