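import Vale.Agent.P137.Unc.Uncentred
import Vale.Agent.P137.Unc.WeakGrad

/-!
# P137: the uncentred maximal function of a Sobolev function is a Sobolev function
-/

namespace Vale.Agent.P137

open MeasureTheory Set Metric Filter
open scoped ENNReal NNReal Topology RealInnerProductSpace

noncomputable section

variable {d : ℕ}

/-- The defining identity of a weak gradient. -/
def IsWeakGrad (f : Eu d → ℝ) (G : Eu d → Eu d) : Prop :=
  ∀ φ : Eu d → ℝ, ContDiff ℝ (⊤ : ℕ∞) φ → HasCompactSupport φ →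
    ∀ v : Eu d, ∫ x, f x * fderiv ℝ φ x v = -∫ x, φ x * ⟪G x, v⟫

theorem shift_integrable {G : Eu d → Eu d} (hGm : Measurable G) (hG : Integrable G) (v : Eu d) :
    Integrable (fun q : Eu d × ℝ => ⟪G (q.1 + q.2 • v), v⟫)
      (volume.prod (volume.restrict (Ioo (0 : ℝ) 1))) := by
  have hm : Measurable fun q : Eu d × ℝ => ⟪G (q.1 + q.2 • v), v⟫ := by fun_prop
  refine ⟨hm.aestronglyMeasurable, ?_⟩
  rw [hasFiniteIntegral_iff_enorm, lintegral_prod_symm _ hm.enorm.aemeasurable]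
  refine lt_of_le_of_lt (lintegral_mono (g := fun _ => (∫⁻ x, ‖G x‖ₑ) * ‖v‖ₑ) fun t => ?_) ?_
  · rw [← lintegral_mul_const _ hGm.enorm]
    refine le_trans ?_ (le_of_eq (lintegral_add_right_eq_self (fun x => ‖G x‖ₑ * ‖v‖ₑ) (t • v)))
    refine lintegral_mono fun x => ?_
    rw [← ofReal_norm, ← ofReal_norm, ← ofReal_norm, ← ENNReal.ofReal_mul (norm_nonneg _)]
    exact ENNReal.ofReal_le_ofReal (norm_inner_le_norm _ _)
  · rw [setLIntegral_const, Real.volume_Ioo]
    exact (by finiteness [hG.2.ne] : _ ≠ ⊤).lt_top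

/-- The increment is the integral of the weak gradient along the segment. -/
theorem shift_eq {f : Eu d → ℝ} {G : Eu d → Eu d} (hf : Integrable f) (hGm : Measurable G)
    (hG : Integrable G) (hw : IsWeakGrad f G) (v : Eu d) :
    ∀ᵐ x : Eu d, f (x + v) - f x = ∫ t in Ioo (0 : ℝ) 1, ⟪G (x + t • v), v⟫ := by
  set b : Eu d → ℝ := fun x => ∫ t in Ioo (0 : ℝ) 1, ⟪G (x + t • v), v⟫
  have hb : Integrable b := (shift_integrable hGm hG v).integral_prod_left
  have ha : Integrable fun x => f (x + v) - f x := (hf.comp_add_right v).sub hf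
  refine ae_eq_of_integral_contDiff_smul_eq ha.locallyIntegrable hb.locallyIntegrable fun φ hφ hsupp => ?_
  simp only [smul_eq_mul]
  obtain ⟨C, hC⟩ := hsupp.exists_bound_of_continuous hφ.continuous
  have hCd : ∃ D, ∀ x, ‖fderiv ℝ φ x v‖ ≤ D :=
    (hsupp.fderiv_apply ℝ v).exists_bound_of_continuous
      ((hφ.continuous_fderiv (by simp)).clm_apply continuous_const)
  obtain ⟨D, hD⟩ := hCd
  have hdiff : Differentiable ℝ φ := hφ.differentiable (by simp)
  have hcont : Continuous fun x => fderiv ℝ φ x v :=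
    (hφ.continuous_fderiv (by simp)).clm_apply continuous_const
  have hseg : ∀ x, φ (x - v) - φ x = -∫ t in Ioo (0 : ℝ) 1, fderiv ℝ φ (x - t • v) v := by
    intro x
    have hder : ∀ t ∈ uIcc (0 : ℝ) 1,
        HasDerivAt (fun t : ℝ => φ (x - t • v)) (-fderiv ℝ φ (x - t • v) v) t := fun t _ => by
      have h1 : HasDerivAt (fun t : ℝ => x - t • v) (-v) t := by
        simpa using (((hasDerivAt_id t).smul_const v).const_sub x)
      simpa [Function.comp_def] using (hdiff (x - t • v)).hasFDerivAt.comp_hasDerivAt t h1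
    have h := intervalIntegral.integral_eq_sub_of_hasDerivAt hder
      ((hcont.comp (by fun_prop)).neg.intervalIntegrable 0 1)
    rw [one_smul, zero_smul, sub_zero, intervalIntegral.integral_of_le zero_le_one,
      integral_Ioc_eq_integral_Ioo, integral_neg] at h
    exact h.symm
  have hprod1 : Integrable (fun q : Eu d × ℝ => f q.1 * fderiv ℝ φ (q.1 - q.2 • v) v)
      (volume.prod (volume.restrict (Ioo (0 : ℝ) 1))) :=
    (hf.comp_fst _).mul_bdd (hcont.comp (by fun_prop)).aestronglyMeasurable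
      (Eventually.of_forall fun q => hD _)
  have hprod2 : Integrable (fun q : Eu d × ℝ => φ q.1 * ⟪G (q.1 + q.2 • v), v⟫)
      (volume.prod (volume.restrict (Ioo (0 : ℝ) 1))) :=
    (shift_integrable hGm hG v).bdd_mul (hφ.continuous.comp continuous_fst).aestronglyMeasurable
      (Eventually.of_forall fun q => hC _)
  have h1 : ∫ x, φ x * (f (x + v) - f x) = ∫ x, f x * (φ (x - v) - φ x) := by
    have i1 : Integrable fun x => φ x * f (x + v) :=
      (hf.comp_add_right v).bdd_mul hφ.continuous.aestronglyMeasurable (Eventually.of_forall hC)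
    have i2 : Integrable fun x => φ x * f x :=
      hf.bdd_mul hφ.continuous.aestronglyMeasurable (Eventually.of_forall hC)
    have i3 : Integrable fun x => f x * φ (x - v) :=
      hf.mul_bdd (hφ.continuous.comp (by fun_prop)).aestronglyMeasurable
        (Eventually.of_forall fun x => hC _)
    have i4 : Integrable fun x => f x * φ x :=
      hf.mul_bdd hφ.continuous.aestronglyMeasurable (Eventually.of_forall hC)
    simp only [mul_sub]
    rw [integral_sub i1 i2, integral_sub i3 i4]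
    congr 1
    · rw [← integral_add_right_eq_self (fun x => f x * φ (x - v)) v]
      exact integral_congr_ae (Eventually.of_forall fun x => by simp [mul_comm])
    · exact integral_congr_ae (Eventually.of_forall fun x => mul_comm _ _)
  rw [h1]
  simp only [hseg, mul_neg, ← integral_const_mul, integral_neg]
  rw [integral_integral_swap (f := fun (x : Eu d) (t : ℝ) => f x * fderiv ℝ φ (x - t • v) v) hprod1,
    integral_integral_swap (f := fun (x : Eu d) (t : ℝ) => φ x * ⟪G (x + t • v), v⟫) hprod2,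
    ← integral_neg]
  refine integral_congr_ae (Eventually.of_forall fun t => ?_)
  set ψ : Eu d → ℝ := fun x => φ (x - t • v)
  have hψ : ContDiff ℝ (⊤ : ℕ∞) ψ := hφ.comp (contDiff_id.sub contDiff_const)
  have hψs : HasCompactSupport ψ := by
    have h := hsupp.comp_homeomorph (Homeomorph.addRight (-(t • v)))
    simpa [ψ, Function.comp_def, sub_eq_add_neg] using h
  have hψd : ∀ x, fderiv ℝ ψ x v = fderiv ℝ φ (x - t • v) v := fun x => by
    simp only [ψ]
    rw [fderiv_comp_sub]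
  have h := hw ψ hψ hψs v
  simp only [hψd] at h
  simp only
  rw [h, neg_neg, ← integral_add_right_eq_self (fun x => ψ x * ⟪G x, v⟫) (t • v)]
  simp [ψ]

/-- The translation bound by the weak gradient, localised. -/
theorem shift_bound {f : Eu d → ℝ} {G : Eu d → Eu d} (hf : Integrable f) (hG : Integrable G)
    (hw : IsWeakGrad f G) {A : Set (Eu d)} (hA : MeasurableSet A) (v : Eu d) :
    ∫⁻ x in A, ‖f (x + v) - f x‖ₑ ≤ (∫⁻ x in cthickening ‖v‖ A, ‖G x‖ₑ) * ‖v‖ₑ := by
  set G' := hG.1.mk G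
  have hGm : Measurable G' := hG.1.stronglyMeasurable_mk.measurable
  have hae : ∀ᵐ x : Eu d, G x = G' x := hG.1.ae_eq_mk
  have hw' : IsWeakGrad f G' := fun φ hφ hs u => by
    rw [hw φ hφ hs u]
    congr 1
    refine integral_congr_ae ?_
    filter_upwards [hae] with x hx
    rw [hx]
  rw [show ∫⁻ x in cthickening ‖v‖ A, ‖G x‖ₑ = ∫⁻ x in cthickening ‖v‖ A, ‖G' x‖ₑ from
    lintegral_congr_ae (ae_restrict_of_ae (hae.mono fun x hx => by simp [hx]))]
  have hbound : ∀ᵐ x : Eu d, ‖f (x + v) - f x‖ₑ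
      ≤ ∫⁻ t in Ioo (0 : ℝ) 1, ‖G' (x + t • v)‖ₑ * ‖v‖ₑ := by
    filter_upwards [shift_eq hf hGm (hG.congr hae) hw' v] with x hx
    rw [hx]
    refine (enorm_integral_le_lintegral_enorm _).trans (lintegral_mono fun t => ?_)
    rw [← ofReal_norm, ← ofReal_norm, ← ofReal_norm, ← ENNReal.ofReal_mul (norm_nonneg _)]
    exact ENNReal.ofReal_le_ofReal (norm_inner_le_norm _ _)
  refine (lintegral_mono_ae (ae_restrict_of_ae hbound)).trans ?_
  have hm : Measurable fun q : Eu d × ℝ => ‖G' (q.1 + q.2 • v)‖ₑ * ‖v‖ₑ := by fun_prop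
  rw [lintegral_lintegral_swap (f := fun (x : Eu d) (t : ℝ) => ‖G' (x + t • v)‖ₑ * ‖v‖ₑ)
    hm.aemeasurable]
  refine (setLIntegral_mono' measurableSet_Ioo
    (g := fun _ => (∫⁻ x in cthickening ‖v‖ A, ‖G' x‖ₑ) * ‖v‖ₑ) fun t ht => ?_).trans ?_
  · rw [← lintegral_mul_const _ hGm.enorm,
      setLIntegral_comp_add (fun z => ‖G' z‖ₑ * ‖v‖ₑ) A hA (t • v)]
    refine lintegral_mono_set (shift_subset A ?_)
    rw [norm_smul, Real.norm_eq_abs, abs_of_pos ht.1]
    exact mul_le_of_le_one_left (norm_nonneg v) ht.2.le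
  · rw [setLIntegral_const, Real.volume_Ioo]
    simp

theorem tail_small {f : Eu d → ℝ} (hf : Measurable f) (h0 : ∀ x, 0 ≤ f x) {P : ℝ≥0∞} (hP : P ≠ ⊤)
    (hPf : ∀ v : Eu d, ∫⁻ y, ‖f (y + v) - f y‖ₑ ≤ P * ‖v‖ₑ) (L : ℝ) {ε : ℝ≥0∞} (hε : 0 < ε) :
    ∃ σ : ℝ, 0 < σ ∧ tailMass f L σ ≤ ε := by
  have hsum : ∑' k, scaleMass f L k ≠ ⊤ := by
    rw [ENNReal.tsum_eq_iSup_sum]
    refine ne_top_of_le_ne_top ?_ (iSup_le fun s => sum_scaleMass_le hf h0 hPf s)
    finiteness [(measure_ball_lt_top : volume (ball (0 : Eu d) L) < ⊤).ne]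
  obtain ⟨s, hs⟩ := ((ENNReal.tendsto_tsum_compl_atTop_zero hsum).eventually (gt_mem_nhds hε)).exists
  obtain ⟨j, -, hmin⟩ := Finset.exists_min_image (insert 0 s) scale ⟨0, Finset.mem_insert_self _ _⟩
  refine ⟨scale j / 2, by linarith [scale_pos j], iSup₂_le fun ks hks => le_trans ?_ hs.le⟩
  have hnot : ∀ k ∈ ks, k ∉ s := fun k hk hks' => by
    linarith [hks k hk, hmin k (Finset.mem_insert_of_mem hks'), scale_pos j]
  rw [← Finset.sum_subtype_of_mem (p := fun k => k ∉ s) (fun k => scaleMass f L k) hnot]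
  exact ENNReal.sum_le_tsum _

/-- The supremum over the balls of radius at least `σ`. -/
def bigMax (f : Eu d → ℝ) (σ : ℝ) (x : Eu d) : ℝ≥0∞ :=
  ⨆ (b : Eu d × ℝ) (_ : 0 < b.2 ∧ σ ≤ b.2 ∧ x ∈ ball b.1 b.2), avgF f b

theorem bigMax_le_levelMax (f : Eu d → ℝ) (σ : ℝ) (x : Eu d) : bigMax f σ x ≤ levelMax f x :=
  iSup₂_le fun b hb => le_iSup₂_of_le b ⟨hb.1, hb.2.2⟩ le_rfl

theorem measurable_bigMax (f : Eu d → ℝ) (σ : ℝ) : Measurable (bigMax f σ) := by
  refine (LowerSemicontinuous.measurable fun x a ha => ?_)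
  simp only [bigMax, lt_iSup_iff] at ha ⊢
  obtain ⟨b, hb, hab⟩ := ha
  filter_upwards [isOpen_ball.mem_nhds hb.2.2] with y hy
  exact ⟨b, ⟨hb.1, hb.2.1, hy⟩, hab⟩

theorem bigMax_le {f : Eu d → ℝ} (hf : Measurable f) (h0 : ∀ x, 0 ≤ f x) {σ : ℝ} (hσ : 0 < σ)
    (x : Eu d) :
    bigMax f σ x ≤ (∫⁻ y, ENNReal.ofReal (f y)) / volume (ball (0 : Eu d) σ) := by
  refine iSup₂_le fun b hb => ?_
  rw [avgF_eq hf h0 hb.1]
  refine ENNReal.div_le_div (setLIntegral_le_lintegral _ _) ?_
  rw [← Measure.addHaar_ball_center volume b.1]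
  exact measure_mono (ball_subset_ball hb.2.1)

theorem bigMax_shift (f : Eu d → ℝ) {σ : ℝ} (hσ : 0 < σ) (x h : Eu d) :
    bigMax f σ x ≤ ENNReal.ofReal ((1 + ‖h‖ / σ) ^ d) * bigMax f σ (x + h) := by
  refine iSup₂_le fun b hb => ?_
  set r' := b.2 + ‖h‖ with hr'
  have hr0 : 0 < r' := by linarith [norm_nonneg h, hb.1]
  have hsub : ball b.1 b.2 ⊆ ball b.1 r' := ball_subset_ball (by linarith [norm_nonneg h])
  have hx : x + h ∈ ball b.1 r' := by
    rw [mem_ball]
    have := dist_triangle (x + h) x b.1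
    rw [dist_self_add_left] at this
    linarith [mem_ball.1 hb.2.2]
  have h1 := avgF_scale f hb.1 hr0 hsub
  have hle : avgF f (b.1, r') ≤ bigMax f σ (x + h) :=
    le_iSup₂_of_le (b.1, r') ⟨hr0, by linarith [hb.2.1, norm_nonneg h], hx⟩ le_rfl
  refine le_trans ?_ (mul_le_mul' le_rfl (h1.trans hle))
  rw [← mul_assoc, ← ENNReal.ofReal_mul (by positivity), ← mul_pow]
  refine le_mul_of_one_le_left zero_le (ENNReal.one_le_ofReal.2 (one_le_pow₀ ?_))
  have h2 : r' / b.2 ≤ 1 + ‖h‖ / σ := by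
    rw [hr', add_div, div_self hb.1.ne']
    exact add_le_add le_rfl (div_le_div_of_nonneg_left (norm_nonneg h) hσ hb.2.1)
  refine le_trans (le_of_eq ?_) (mul_le_mul_of_nonneg_right h2 (div_nonneg hb.1.le hr0.le))
  rw [div_mul_div_comm, mul_comm, div_self (mul_ne_zero hb.1.ne' hr0.ne')]

theorem bigMax_lipschitz {f : Eu d → ℝ} (hf : Measurable f) (h0 : ∀ x, 0 ≤ f x)
    (hi : ∫⁻ y, ENNReal.ofReal (f y) ≠ ⊤) {σ : ℝ} (hσ : 0 < σ) :
    ∃ Λ : ℝ≥0∞, Λ ≠ ⊤ ∧ ∀ x h : Eu d, ‖h‖ ≤ σ →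
      ‖(bigMax f σ (x + h)).toReal - (bigMax f σ x).toReal‖ₑ ≤ Λ * ‖h‖ₑ := by
  set K := (∫⁻ y, ENNReal.ofReal (f y)) / volume (ball (0 : Eu d) σ)
  have hK : K ≠ ⊤ := ENNReal.div_ne_top hi (measure_ball_pos volume 0 hσ).ne'
  have hfin : ∀ x, bigMax f σ x ≠ ⊤ := fun x => ne_top_of_le_ne_top hK (bigMax_le hf h0 hσ x)
  refine ⟨ENNReal.ofReal (K.toReal * (2 ^ d / σ)), ENNReal.ofReal_ne_top, fun x h hh => ?_⟩
  have key : ∀ y g : Eu d, ‖g‖ ≤ σ →
      (bigMax f σ y).toReal - (bigMax f σ (y + g)).toReal ≤ K.toReal * (2 ^ d / σ) * ‖g‖ := by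
    intro y g hg
    have h1 := ENNReal.toReal_mono (ENNReal.mul_ne_top ENNReal.ofReal_ne_top (hfin _))
      (bigMax_shift f hσ y g)
    rw [ENNReal.toReal_mul, ENNReal.toReal_ofReal (by positivity)] at h1
    have h2 := pow_one_add_le_growth d (t := ‖g‖ / σ) (by positivity) ((div_le_one hσ).2 hg)
    have h3 := mul_le_mul_of_nonneg_right h2 (ENNReal.toReal_nonneg (a := bigMax f σ (y + g)))
    have h4 := mul_le_mul_of_nonneg_left (ENNReal.toReal_mono hK (bigMax_le hf h0 hσ (y + g)))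
      (show 0 ≤ 2 ^ d * (‖g‖ / σ) by positivity)
    calc (bigMax f σ y).toReal - (bigMax f σ (y + g)).toReal
        ≤ 2 ^ d * (‖g‖ / σ) * (bigMax f σ (y + g)).toReal := by linarith
      _ ≤ 2 ^ d * (‖g‖ / σ) * K.toReal := h4
      _ = _ := by ring
  rw [Real.enorm_eq_ofReal_abs, ← ofReal_norm, ← ENNReal.ofReal_mul (by positivity)]
  refine ENNReal.ofReal_le_ofReal (abs_le.2 ⟨?_, ?_⟩)
  · linarith [key x h hh]
  · have h5 := key (x + h) (-h) (by rwa [norm_neg])
    rw [norm_neg, add_neg_cancel_right] at h5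
    linarith

/-- **Sobolev functions have Sobolev uncentred maximal functions.** -/
theorem uncentred_sobolev (d : ℕ) (hd : 0 < d) :
    ∃ C : ℝ≥0∞, C ≠ ⊤ ∧ ∀ (f : Eu d → ℝ) (G : Eu d → Eu d), Integrable f → Integrable G →
      IsWeakGrad f G →
      LocallyIntegrable (uncentredMax f) ∧
      (∀ᵐ x : Eu d, (⨆ (c : Eu d) (r : ℝ) (_ : x ∈ ball c r),
        (∫⁻ y in ball c r, ‖f y‖ₑ) / volume (ball c r)) ≠ ⊤) ∧
      ∃ G' : Eu d → Eu d, Integrable G' ∧ IsWeakGrad (uncentredMax f) G' ∧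
        ∫⁻ x, ‖G' x‖ₑ ≤ C * ∫⁻ x, ‖G x‖ₑ := by
  classical
  obtain ⟨N, θ, L, W, C, -, hW, hC, hbv⟩ := uncentred_bv d hd
  refine ⟨d * C, by finiteness, fun f G hf hG hw => ?_⟩
  obtain ⟨g, hg, hg0, hgae, hgi, hgv, hmax⟩ := abs_rep hf
  set P := ∫⁻ x, ‖G x‖ₑ
  have hP : P ≠ ⊤ := hG.2.ne
  have hshift : ∀ (A : Set (Eu d)), MeasurableSet A → ∀ v : Eu d,
      ∫⁻ y in A, ‖g (y + v) - g y‖ₑ ≤ (∫⁻ x in cthickening ‖v‖ A, ‖G x‖ₑ) * ‖v‖ₑ :=
    fun A hA v => (hgv v A).trans (shift_bound hf hG hw hA v)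
  have hPg : ∀ v : Eu d, ∫⁻ y, ‖g (y + v) - g y‖ₑ ≤ P * ‖v‖ₑ := fun v => by
    have h := hshift univ MeasurableSet.univ v
    rw [setLIntegral_univ] at h
    exact h.trans (mul_le_mul' (setLIntegral_le_lintegral _ _) le_rfl)
  obtain ⟨hloc, hfin, hglob, hlocal⟩ := hbv g hg hg0 hgi P hP hPg
  have e : uncentredMax f = maxFun g := funext hmax
  have hfin_f : ∀ᵐ x : Eu d, (⨆ (c : Eu d) (r : ℝ) (_ : x ∈ ball c r),
      (∫⁻ y in ball c r, ‖f y‖ₑ) / volume (ball c r)) ≠ ⊤ := by
    filter_upwards [hfin] with x hx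
    refine ne_top_of_le_ne_top hx (iSup_le fun c => iSup₂_le fun r hr => ?_)
    have hr0 : 0 < r := nonempty_ball.1 ⟨x, hr⟩
    refine le_trans (le_of_eq ?_) (le_iSup₂_of_le (c, r) ⟨hr0, hr⟩ le_rfl)
    rw [avgF_eq hg hg0 (b := (c, r)) hr0]
    refine congrArg₂ _ (lintegral_congr_ae (ae_restrict_of_ae ?_)) rfl
    filter_upwards [hgae] with y hy
    rw [hy, Real.enorm_eq_ofReal_abs]
  have hnull : ∀ K : Set (Eu d), IsCompact K → volume K = 0 → ∀ ε : ℝ≥0∞, 0 < ε →
      ∃ A : Set (Eu d), IsOpen A ∧ K ⊆ A ∧ ∃ t0 : ℝ, 0 < t0 ∧ ∀ h : Eu d, ‖h‖ ≤ t0 →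
        ∫⁻ x in A, ‖maxFun g (x + h) - maxFun g x‖ₑ ≤ ε * ‖h‖ₑ := by
    intro K hK hK0 ε hε
    obtain ⟨ε', hε', hεle⟩ : ∃ ε' : ℝ≥0∞, 0 < ε' ∧ C * (ε' + ε') + ε' ≤ ε := by
      refine ⟨ε / (2 * C + 1), ENNReal.div_pos hε.ne' (by finiteness), ?_⟩
      rw [show C * (ε / (2 * C + 1) + ε / (2 * C + 1)) + ε / (2 * C + 1)
        = (2 * C + 1) * (ε / (2 * C + 1)) by ring]
      exact ENNReal.mul_div_le
    obtain ⟨δ, hδ, hδG⟩ := exists_pos_setLIntegral_lt_of_measure_lt hP hε'.ne'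
    obtain ⟨O, hKO, hOo, hOv⟩ := hK.exists_isOpen_lt_of_lt (μ := volume) δ (by rw [hK0]; exact hδ)
    obtain ⟨η, hη, hηO⟩ := hK.exists_cthickening_subset_open hOo hKO
    obtain ⟨σ', hσ', htail'⟩ := tail_small hg hg0 hP hPg L hε'
    set σ := min σ' (η / (W + 5))
    have hσ : 0 < σ := lt_min hσ' (by positivity)
    have hση : (W + 4) * σ ≤ η := by
      have h := mul_le_mul_of_nonneg_left (min_le_right σ' (η / (W + 5))) (by positivity : 0 ≤ W + 5)
      rw [mul_div_cancel₀ _ (by positivity)] at h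
      linarith [show 0 ≤ σ from hσ.le]
    have htail : tailMass g L σ ≤ ε' := le_trans (iSup₂_le fun ks hks =>
      le_iSup₂_of_le ks (fun k hk => (hks k hk).trans (min_le_left _ _)) le_rfl) htail'
    obtain ⟨Λ, hΛ, hlip⟩ := bigMax_lipschitz hg hg0 hgi hσ
    obtain ⟨a, ha, haσ, havol⟩ : ∃ a : ℝ, 0 < a ∧ a ≤ σ ∧ Λ * volume (thickening a K) ≤ ε' := by
      have ht : Tendsto (fun a => Λ * volume (thickening a K)) (𝓝[>] 0) (𝓝 0) := by
        have h1 := tendsto_measure_thickening_of_isClosed (μ := volume) (s := K)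
          ⟨1, one_pos, (ne_top_of_le_ne_top
            (hK.isBounded.cthickening.measure_lt_top (μ := volume) (s := cthickening 1 K)).ne
            (measure_mono (thickening_subset_cthickening 1 K)))⟩ hK.isClosed
        rw [hK0] at h1
        simpa using ENNReal.Tendsto.const_mul h1 (Or.inr hΛ)
      obtain ⟨a, h1, h2, h3⟩ := ((ht.eventually (gt_mem_nhds hε')).and
        ((eventually_nhdsWithin_of_eventually_nhds (Iio_mem_nhds hσ)).and self_mem_nhdsWithin)).exists
      exact ⟨a, h3, le_of_lt h2, h1.le⟩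
    refine ⟨thickening a K, isOpen_thickening, self_subset_thickening ha K, σ, hσ, fun h hh => ?_⟩
    set A := thickening a K
    set s := fun n => seqFamily d (σ : EReal) n
    set u := fun n x => max (coverFun g θ N (s n) x).toReal (bigMax g σ x).toReal
    have hcov : ∀ n x, coverFun g θ N (s n) x ≠ ⊤ := fun n x =>
      coverFun_ne_top (fun b hb => avgF_ne_top hg hg0 hgi hb) θ N seqFamily_pos x
    have hconv : ∀ᵐ x : Eu d, Tendsto (fun n => u n x) atTop (𝓝 (maxFun g x)) := by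
      filter_upwards [hfin, ae_le_levelMax hg] with x hx hle
      have hbig : bigMax g σ x ≠ ⊤ := ne_top_of_le_ne_top hx (bigMax_le_levelMax g σ x)
      have hmono : Monotone fun n => max (coverFun g θ N (s n) x) (bigMax g σ x) := fun m n hmn =>
        max_le_max (coverFun_mono g θ N (seqFamily_mono _ hmn) x) le_rfl
      have hsup : ⨆ n, max (coverFun g θ N (s n) x) (bigMax g σ x) = levelMax g x := by
        refine le_antisymm (iSup_le fun n => max_le ((coverFun_le θ N seqFamily_pos x).trans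
          (max_le hle le_rfl)) (bigMax_le_levelMax g σ x)) (iSup₂_le fun b hb => ?_)
        rcases le_or_gt σ b.2 with h1 | h1
        · exact le_iSup_of_le 0 (le_max_of_le_right (le_iSup₂_of_le b ⟨hb.1, h1, hb.2⟩ le_rfl))
        · refine le_of_forall_ofReal_mul fun t _ ht => ?_
          obtain ⟨i, hi, hiσ, hle'⟩ := exists_ballSeq_avg g hb.1 ht h1
          refine hle'.trans (le_iSup_of_le (i + 1)
            (le_max_of_le_left (avg_le_coverFun g θ N _ ?_ (hi hb.2))))
          simp only [s, seqFamily, Finset.mem_filter, Finset.mem_image, Finset.mem_range]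
          exact ⟨⟨i, by omega, rfl⟩, EReal.coe_lt_coe_iff.2 hiσ⟩
      have ht := tendsto_atTop_iSup hmono
      rw [hsup] at ht
      refine ((ENNReal.tendsto_toReal hx).comp ht).congr fun n => ?_
      simp only [Function.comp_apply, u]
      exact ENNReal.toReal_max (hcov n x) hbig
    have hconv' : ∀ᵐ x : Eu d, Tendsto (fun n => u n (x + h)) atTop (𝓝 (maxFun g (x + h))) :=
      (measurePreserving_add_right volume h).quasiMeasurePreserving.ae hconv
    have hAm : MeasurableSet A := isOpen_thickening.measurableSet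
    have hn : ∀ n, ∫⁻ x in A, ‖u n (x + h) - u n x‖ₑ ≤ ε * ‖h‖ₑ := by
      intro n
      have hm : Measurable fun x : Eu d =>
          ‖(coverFun g θ N (s n) (x + h)).toReal - (coverFun g θ N (s n) x).toReal‖ₑ :=
        (((measurable_coverFun hg θ N _).ennreal_toReal.comp (measurable_add_const h)).sub
          (measurable_coverFun hg θ N _).ennreal_toReal).enorm
      calc ∫⁻ x in A, ‖u n (x + h) - u n x‖ₑ
          ≤ ∫⁻ x in A, (‖(coverFun g θ N (s n) (x + h)).toReal - (coverFun g θ N (s n) x).toReal‖ₑ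
              + Λ * ‖h‖ₑ) := by
            refine lintegral_mono fun x => ?_
            refine le_trans ?_ (add_le_add le_rfl (hlip x h hh))
            simp only [u, Real.enorm_eq_ofReal_abs]
            rw [← ENNReal.ofReal_add (abs_nonneg _) (abs_nonneg _)]
            exact ENNReal.ofReal_le_ofReal ((abs_max_sub_max_le_max _ _ _ _).trans
              (max_le_add_of_nonneg (abs_nonneg _) (abs_nonneg _)))
        _ = (∫⁻ x in A, ‖(coverFun g θ N (s n) (x + h)).toReal - (coverFun g θ N (s n) x).toReal‖ₑ)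
              + Λ * volume A * ‖h‖ₑ := by
            rw [lintegral_add_left hm, setLIntegral_const, mul_right_comm]
        _ ≤ C * (ε' + ε') * ‖h‖ₑ + ε' * ‖h‖ₑ := by
            refine add_le_add ?_ (mul_le_mul' havol le_rfl)
            refine (hlocal (s n) σ hσ (fun b hb => ⟨seqFamily_pos b hb, ?_⟩) A hAm σ ε' hσ.le
              (fun v hv => ?_) h hh).trans (mul_le_mul' (mul_le_mul' le_rfl
                (add_le_add le_rfl htail)) le_rfl)
            · simp only [s, seqFamily, Finset.mem_filter] at hb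
              exact (EReal.coe_lt_coe_iff.1 hb.2).le
            · refine (hshift _ isClosed_cthickening.measurableSet v).trans (mul_le_mul' ?_ le_rfl)
              refine le_trans (lintegral_mono_set ?_) (hδG O hOv).le
              calc cthickening ‖v‖ (cthickening (W * σ + σ + σ) A)
                  ⊆ cthickening (‖v‖ + (W * σ + σ + σ)) A :=
                    cthickening_cthickening_subset (norm_nonneg v) (by positivity) A
                _ ⊆ cthickening (‖v‖ + (W * σ + σ + σ) + a) K :=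
                    (cthickening_subset_of_subset _ (thickening_subset_cthickening a K)).trans
                      (cthickening_cthickening_subset (by positivity) ha.le K)
                _ ⊆ O := (cthickening_mono (by linarith) K).trans hηO
        _ ≤ ε * ‖h‖ₑ := by rw [← add_mul]; exact mul_le_mul' hεle le_rfl
    calc ∫⁻ x in A, ‖maxFun g (x + h) - maxFun g x‖ₑ
        = ∫⁻ x in A, liminf (fun n => ‖u n (x + h) - u n x‖ₑ) atTop := by
          refine lintegral_congr_ae (ae_restrict_of_ae ?_)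
          filter_upwards [hconv, hconv'] with x h1 h2
          exact ((h2.sub h1).enorm.liminf_eq).symm
      _ ≤ liminf (fun n => ∫⁻ x in A, ‖u n (x + h) - u n x‖ₑ) atTop := by
          refine lintegral_liminf_le fun n => ?_
          have hmu : Measurable (u n) :=
            (measurable_coverFun hg θ N _).ennreal_toReal.max (measurable_bigMax g σ).ennreal_toReal
          exact ((hmu.comp (measurable_add_const h)).sub hmu).enorm
      _ ≤ _ := (liminf_le_liminf (Eventually.of_forall hn)).trans (le_of_eq (liminf_const _))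
  obtain ⟨G', hG', hwk, hbd⟩ := weakGrad_of_translation hloc (P := C * P)
    (ENNReal.mul_ne_top hC hP) hglob hnull
  refine ⟨e ▸ hloc, hfin_f, G', hG', e ▸ hwk, hbd.trans (le_of_eq (mul_assoc _ _ _).symm)⟩

end

end Vale.Agent.P137
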