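import Vale.Agent.P137.Unc.Sobolev

/-!
# P137: named notions for the final statement
-/

namespace Vale.Agent.P137

open MeasureTheory Metric
open scoped ENNReal

noncomputable section

variable {d : ℕ}

/-- The supremum of the averages of `|f|` over the open balls containing `x`, possibly infinite. -/
def uncentredSup (f : Eu d → ℝ) (x : Eu d) : ℝ≥0∞ :=
  ⨆ (c : Eu d) (r : ℝ) (_ : x ∈ ball c r), (∫⁻ y in ball c r, ‖f y‖ₑ) / volume (ball c r)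

/-- `∫ |f(x + h) - f(x)| dx ≤ P |h|` for every `h`. -/
def VariationBound (f : Eu d → ℝ) (P : ℝ≥0∞) : Prop :=
  ∀ h : Eu d, ∫⁻ x, ‖f (x + h) - f x‖ₑ ≤ P * ‖h‖ₑ

/-- `f ∈ L¹` has the weak gradient `G ∈ L¹`. -/
def IsW11 (f : Eu d → ℝ) (G : Eu d → Eu d) : Prop :=
  Integrable f ∧ Integrable G ∧ IsWeakGrad f G

theorem uncentred_endpoint (d : ℕ) (hd : 0 < d) : ∃ C : ℝ≥0∞, C ≠ ⊤ ∧
    (∀ (f : Eu d → ℝ) (G : Eu d → Eu d), IsW11 f G →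
      (∀ᵐ x : Eu d, uncentredSup f x ≠ ⊤) ∧ LocallyIntegrable (uncentredMax f) ∧
      ∃ G' : Eu d → Eu d, Integrable G' ∧ IsWeakGrad (uncentredMax f) G' ∧
        ∫⁻ x, ‖G' x‖ₑ ≤ C * ∫⁻ x, ‖G x‖ₑ) ∧
    ∀ (f : Eu d → ℝ) (P : ℝ≥0∞), Integrable f → P ≠ ⊤ → VariationBound f P →
      LocallyIntegrable (uncentredMax f) ∧ VariationBound (uncentredMax f) (C * P) := by
  obtain ⟨C₁, hC₁, hsob⟩ := uncentred_sobolev d hd
  obtain ⟨C₂, hC₂, hvar⟩ := uncentred_variation d hd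
  refine ⟨C₁ + C₂, ENNReal.add_ne_top.2 ⟨hC₁, hC₂⟩, fun f G h => ?_, fun f P hf hP hPf => ?_⟩
  · obtain ⟨hloc, hfin, G', hG', hwk, hbd⟩ := hsob f G h.1 h.2.1 h.2.2
    exact ⟨hfin, hloc, G', hG', hwk, hbd.trans (mul_le_mul' le_self_add le_rfl)⟩
  · obtain ⟨hloc, hb⟩ := hvar f P hf hP hPf
    exact ⟨hloc, fun h => (hb h).trans (mul_le_mul' (mul_le_mul' le_add_self le_rfl) le_rfl)⟩

end

end Vale.Agent.P137
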