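import Vale.Agent.P137.Unc.Levels

/-!
# P137: the levels at which a ball is stuck form a set of length at most a multiple of the defect
-/

namespace Vale.Agent.P137

open MeasureTheory Set Metric Filter
open scoped ENNReal NNReal Topology RealInnerProductSpace

noncomputable section

variable {d : ℕ}

/-- The super-level set. -/
def lev (f : Eu d → ℝ) (μ : ℝ) : Set (Eu d) := {p | μ < f p}

/-- The average of `f` over the ball `b`, by levels. -/
def avgF (f : Eu d → ℝ) (b : Eu d × ℝ) : ℝ≥0∞ :=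
  ∫⁻ μ in Ioi (0 : ℝ), ENNReal.ofReal (dens (lev f μ) b.1 b.2)

/-- The normalised defect of all levels. -/
def levDefect (f : Eu d → ℝ) (z : Eu d) (r L : ℝ) : ℝ≥0∞ :=
  ∫⁻ μ in Ioi (0 : ℝ), ENNReal.ofReal (wdef (lev f μ) z (L * r) / r ^ (2 * d))

/-- Balls of scale `r` near `z`. -/
def NearBall (z : Eu d) (r : ℝ) (b : Eu d × ℝ) : Prop :=
  dist b.1 z < r / 4 ∧ r ≤ b.2 ∧ b.2 < 2 * r

/-- The ball `b` is active at level `l`, and no successor is active and dense there. -/
def Stuck (f : Eu d → ℝ) (θ : ℝ) (N : Finset (Eu d)) (b : Eu d × ℝ) (l : ℝ) : Prop :=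
  ENNReal.ofReal l < avgF f b ∧ ∀ e ∈ N, ENNReal.ofReal l < avgF f (succBall e b) →
    dens (lev f l) (succBall e b).1 (succBall e b).2 < θ

theorem antitone_lev (f : Eu d → ℝ) : Antitone (lev f) := fun _ _ h _ hp => lt_of_le_of_lt h hp

theorem measurableSet_lev {f : Eu d → ℝ} (hf : Measurable f) (μ : ℝ) : MeasurableSet (lev f μ) :=
  measurableSet_lt measurable_const hf

theorem measurableSet_lev_prod {f : Eu d → ℝ} (hf : Measurable f) :
    MeasurableSet {q : ℝ × Eu d | q.2 ∈ lev f q.1} :=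
  measurableSet_lt measurable_fst (hf.comp measurable_snd)

theorem measurable_dens_lev (f : Eu d → ℝ) (c : Eu d) (ρ : ℝ) :
    Measurable fun μ => dens (lev f μ) c ρ := by
  refine Antitone.measurable fun a b hab => ?_
  exact div_le_div_of_nonneg_right (measureReal_mono (inter_subset_inter_left _ (antitone_lev f hab))
    (ne_top_of_le_ne_top measure_ball_lt_top.ne (measure_mono inter_subset_right))) measureReal_nonneg

theorem measurable_wdef_lev {f : Eu d → ℝ} (hf : Measurable f) (z : Eu d) (ρ : ℝ) :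
    Measurable fun μ => wdef (lev f μ) z ρ := by
  have hm := measurableSet_lev_prod hf
  have h1 : Measurable fun q : ℝ × (Eu d × Eu d) => (q.1, q.2.1) := by fun_prop
  have h2 : Measurable fun q : ℝ × (Eu d × Eu d) => (q.1, q.2.1 + q.2.2) := by fun_prop
  have h3 : Measurable fun q : ℝ × (Eu d × Eu d) => (q.1, q.2.1 - q.2.2) := by fun_prop
  have hS : MeasurableSet {q : ℝ × (Eu d × Eu d) |
      q.2 ∈ defectSet (lev f q.1) ∩ ball z ρ ×ˢ ball 0 ρ} :=
    (((h1 hm).inter ((h2 hm).compl.inter (h3 hm).compl)).union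
      ((h1 hm).compl.inter ((h2 hm).inter (h3 hm)))).inter
      (measurable_snd (measurableSet_ball.prod measurableSet_ball))
  exact (measurable_measure_prodMk_left (ν := (volume : Measure (Eu d × Eu d))) hS).ennreal_toReal

/-- Markov: few levels have a large normalised defect. -/
theorem volume_bad_le {f : Eu d → ℝ} (hf : Measurable f) (z : Eu d) {r L δ : ℝ} (hr : 0 < r)
    (hδ : 0 < δ) :
    volume ({μ : ℝ | δ * r ^ (2 * d) < wdef (lev f μ) z (L * r)} ∩ Ioi 0)
      ≤ ENNReal.ofReal δ⁻¹ * levDefect f z r L := by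
  set g := fun μ => ENNReal.ofReal (wdef (lev f μ) z (L * r) / r ^ (2 * d))
  have hg : Measurable g := ((measurable_wdef_lev hf z _).div_const _).ennreal_ofReal
  have h := mul_meas_ge_le_lintegral (μ := volume.restrict (Ioi (0 : ℝ))) hg (ENNReal.ofReal δ)
  rw [Measure.restrict_apply (measurableSet_le measurable_const hg)] at h
  have h2 := mul_le_mul' (le_refl (ENNReal.ofReal δ⁻¹)) h
  rw [← mul_assoc, ← ENNReal.ofReal_mul (inv_nonneg.2 hδ.le), inv_mul_cancel₀ hδ.ne',
    ENNReal.ofReal_one, one_mul] at h2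
  refine le_trans ?_ h2
  refine measure_mono fun μ hμ => ⟨?_, hμ.2⟩
  exact ENNReal.ofReal_le_ofReal ((le_div_iff₀ (by positivity)).2 (show δ * r ^ (2 * d) < _ from hμ.1).le)

/-- Facts at one place and scale, in terms of one direction `e`. -/
theorem place_facts (d : ℕ) (hd : 0 < d) :
    ∃ (N : Finset (Eu d)) (L θ δ K : ℝ), (∀ e ∈ N, ‖e‖ = 1) ∧ 0 < L ∧ 0 < θ ∧ θ ≤ gain d ∧
      0 < δ ∧ 0 ≤ K ∧ ∀ (f : Eu d → ℝ), Measurable f → ∀ (z : Eu d) (r : ℝ), 0 < r → ∃ e ∈ N,
        (∀ μ b b1, NearBall z r b → NearBall z r b1 →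
          dens (lev f μ) b.1 b.2 + gain d * dens (lev f μ) b1.1 b1.2
            ≤ dens (lev f μ) (succBall e b).1 (succBall e b).2 + gain d * dens (lev f μ) b.1 b.2
              + K * (wdef (lev f μ) z (L * r) / r ^ (2 * d))) ∧
        ∀ l b, wdef (lev f l) z (L * r) ≤ δ * r ^ (2 * d) → NearBall z r b →
          θ ≤ dens (lev f l) (succBall e b).1 (succBall e b).2 ∨
          ∀ μ, l ≤ μ → dens (lev f μ) b.1 b.2 ≤ K * (wdef (lev f μ) z (L * r) / r ^ (2 * d)) := by
  obtain ⟨N, hN, L, δ0, K0, hL, hδ0, hK0, hcn⟩ := common_normal d hd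
  set ω := volume.real (ball (0 : Eu d) 1) with hω
  have hωp : 0 < ω := unit_ball_pos d
  have hg := gain_pos d
  have hg1 := gain_le_one d
  set δ := min δ0 (gain d * ω / (3 * (K0 + 1))) with hδ
  have hδp : 0 < δ := lt_min hδ0 (by positivity)
  set K := max (3 * (K0 / ω)) (2 / δ)
  have hKpos : 0 ≤ K := le_max_of_le_left (by positivity)
  refine ⟨N, L, gain d / 2, δ, K, hN, hL, by positivity, by linarith, hδp, hKpos,
    fun f hf z r hr => ?_⟩
  obtain ⟨e, he, hflat⟩ := hcn (lev f) (measurableSet_lev hf) (antitone_lev f) z r hr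
  set w := fun μ => wdef (lev f μ) z (L * r) / r ^ (2 * d)
  have hw0 : ∀ μ, 0 ≤ w μ := fun μ => div_nonneg (wdef_nonneg _ _ _) (by positivity)
  have hgood : ∀ μ, w μ ≤ δ → ∃ a, IsFlat (lev f μ) z e a (200 * r) (r / 50)
      (K0 * (wdef (lev f μ) z (L * r) / r ^ d)) := fun μ hμ => by
    refine hflat μ ?_
    rw [div_le_iff₀ (by positivity)] at hμ
    exact hμ.trans (mul_le_mul_of_nonneg_right (min_le_left _ _) (by positivity))
  have hnorm : ∀ μ, K0 * (wdef (lev f μ) z (L * r) / r ^ d) / (r ^ d * ω) = K0 / ω * w μ := fun μ => by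
    simp only [w]
    rw [two_mul, pow_add]
    field_simp
  have hbad : ∀ μ, δ < w μ → 2 ≤ K * w μ := fun μ hμ => by
    refine le_trans ?_ (mul_le_mul_of_nonneg_left hμ.le hKpos)
    refine le_trans (le_of_eq ?_) (mul_le_mul_of_nonneg_right (le_max_right _ _) hδp.le)
    field_simp
  have hK1 : ∀ μ, 3 * (K0 / ω * w μ) ≤ K * w μ := fun μ => by
    rw [← mul_assoc]
    exact mul_le_mul_of_nonneg_right (le_max_left _ _) (hw0 μ)
  have hsmall : ∀ μ, w μ ≤ δ → K0 / ω * w μ ≤ gain d / 3 := fun μ hμ => by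
    refine (mul_le_mul_of_nonneg_left (hμ.trans (min_le_right _ _)) (by positivity)).trans ?_
    rw [div_mul_div_comm, div_le_div_iff₀ (by positivity) (by norm_num)]
    nlinarith [mul_pos hg hωp]
  refine ⟨e, he, fun μ b b1 hb hb1 => ?_, fun l b hl hb => ?_⟩
  · show _ ≤ _ + K * w μ
    rcases lt_or_ge δ (w μ) with hμ | hμ
    · have h1 := dens_le_one (lev f μ) b.1 b.2
      have h2 := dens_le_one (lev f μ) b1.1 b1.2
      nlinarith [hbad μ hμ, dens_nonneg (lev f μ) (succBall e b).1 (succBall e b).2,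
        dens_nonneg (lev f μ) b.1 b.2, dens_nonneg (lev f μ) b1.1 b1.2]
    · obtain ⟨a, ha⟩ := hgood μ hμ
      have h := (level_gain (measurableSet_lev hf μ) hr (hN e he) ha hb.1 hb.2.1 hb.2.2
        hb1.1 hb1.2.1 hb1.2.2).1
      rw [← hω, hnorm] at h
      exact h.trans (add_le_add le_rfl (hK1 μ))
  · have hwl : w l ≤ δ := (div_le_iff₀ (by positivity)).2 hl
    obtain ⟨a, ha⟩ := hgood l hwl
    rcases lt_or_ge (a - r / 50) (⟪e, b.1 - z⟫ + 7 * b.2) with hlt | hge
    · left
      have h := (level_gain (measurableSet_lev hf l) hr (hN e he) ha hb.1 hb.2.1 hb.2.2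
        hb.1 hb.2.1 hb.2.2).2 hlt
      rw [← hω, hnorm] at h
      exact le_trans (by linarith [hsmall l hwl])
        (sub_le_iff_le_add.2 h : gain d - K0 / ω * w l ≤ _)
    · right
      intro μ hμl
      show _ ≤ K * w μ
      rcases lt_or_ge δ (w μ) with hμ | hμ
      · linarith [hbad μ hμ, dens_le_one (lev f μ) b.1 b.2]
      · obtain ⟨a', ha'⟩ := hgood μ hμ
        have h1 : K0 * (wdef (lev f μ) z (L * r) / r ^ d) = K0 / ω * w μ * (r ^ d * ω) := by
          rw [← hnorm, div_mul_cancel₀ _ (by positivity)]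
        have h2 : K0 * (wdef (lev f l) z (L * r) / r ^ d) = K0 / ω * w l * (r ^ d * ω) := by
          rw [← hnorm, div_mul_cancel₀ _ (by positivity)]
        have hrω : 0 < r ^ d * ω := by positivity
        have h := level_above_far (antitone_lev f hμl) hr (hN e he) ha' ha hb.1 hb.2.1 hb.2.2 hge (by
          rw [← hω, h1, h2]
          nlinarith [mul_le_mul_of_nonneg_right (hsmall μ hμ) hrω.le,
            mul_le_mul_of_nonneg_right (hsmall l hwl) hrω.le,
            mul_le_mul_of_nonneg_right hg1 hrω.le])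
        rw [← hω, hnorm] at h
        exact h.trans (le_trans (by nlinarith [hw0 μ, (by positivity : (0:ℝ) ≤ K0 / ω)]) (hK1 μ))

theorem toReal_avg_le {K D : ℝ} (hK : 0 ≤ K) (hD : 0 ≤ D) {A B : ℝ≥0∞}
    (hB : B ≠ ⊤) (h : A ≤ B + ENNReal.ofReal K * ENNReal.ofReal D) :
    A.toReal ≤ B.toReal + K * D := by
  have h1 := ENNReal.toReal_mono (ENNReal.add_ne_top.2
    ⟨hB, ENNReal.mul_ne_top ENNReal.ofReal_ne_top ENNReal.ofReal_ne_top⟩) h
  rwa [ENNReal.toReal_add hB (ENNReal.mul_ne_top ENNReal.ofReal_ne_top ENNReal.ofReal_ne_top),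
    ENNReal.toReal_mul, ENNReal.toReal_ofReal hK, ENNReal.toReal_ofReal hD] at h1

/-- A near ball that is nearly empty above `l` and active has average `l` on its core. -/
theorem core_avg {f : Eu d → ℝ} {z : Eu d} {r : ℝ} (hr : 0 < r) {b : Eu d × ℝ}
    (hb : NearBall z r b) {l : ℝ} (hl : 0 < l) {X : ℝ≥0∞}
    (hact : ENNReal.ofReal l < avgF f b)
    (habove : ∫⁻ μ in Ioi l, ENNReal.ofReal (dens (lev f μ) b.1 b.2) ≤ X) :
    ENNReal.ofReal l ≤ avgF f (z, r / 4) + ENNReal.ofReal ((8 : ℝ) ^ d) * X ∧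
      avgF f (z, r / 4) ≤ ENNReal.ofReal l + ENNReal.ofReal ((8 : ℝ) ^ d) * X := by
  set g := fun μ => dens (lev f μ) b.1 b.2
  set g' := fun μ => dens (lev f μ) z (r / 4)
  have hg : Measurable g := measurable_dens_lev f _ _
  have hg' : Measurable g' := measurable_dens_lev f _ _
  have hsub : ball z (r / 4) ⊆ ball b.1 b.2 := ball_subset_ball' (by
    rw [dist_comm]; linarith [hb.1, hb.2.1])
  have hρ : 0 < b.2 := hr.trans_le hb.2.1
  have h8 : ((8 : ℝ) ^ d)⁻¹ ≤ (r / 4 / b.2) ^ d := by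
    rw [← inv_pow]
    refine pow_le_pow_left₀ (by norm_num) ?_ d
    rw [le_div_iff₀ hρ]
    linarith [hb.2.2]
  have hup : ∀ μ, g' μ ≤ 8 ^ d * g μ := fun μ => by
    have h := dens_scale (lev f μ) (by positivity : 0 < r / 4) hρ hsub
    have h2 := mul_le_mul_of_nonneg_left h8 (dens_nonneg (lev f μ) z (r / 4))
    have : g' μ * ((8 : ℝ) ^ d)⁻¹ ≤ g μ := h2.trans h
    rwa [← div_eq_mul_inv, div_le_iff₀ (by positivity), mul_comm (g μ)] at this
  have hup' : ∀ μ, 1 - g' μ ≤ 8 ^ d * (1 - g μ) := fun μ => by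
    have hfin : volume (ball b.1 b.2) ≠ ⊤ := measure_ball_lt_top.ne
    have hp := ball_real_pos z (by positivity : 0 < r / 4)
    have hpb := ball_real_pos b.1 hρ
    have h1 : volume.real (ball z (r / 4)) - volume.real (lev f μ ∩ ball z (r / 4))
        ≤ volume.real (ball b.1 b.2) - volume.real (lev f μ ∩ ball b.1 b.2) := by
      have hc : lev f μ ∩ ball b.1 b.2
          ⊆ (lev f μ ∩ ball z (r / 4)) ∪ (ball b.1 b.2 \ ball z (r / 4)) := fun p hp => by
        by_cases hpz : p ∈ ball z (r / 4)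
        · exact Or.inl ⟨hp.1, hpz⟩
        · exact Or.inr ⟨hp.2, hpz⟩
      have := (measureReal_mono (μ := volume) hc (measure_union_ne_top
        (ne_top_of_le_ne_top measure_ball_lt_top.ne (measure_mono inter_subset_right))
        (ne_top_of_le_ne_top hfin (measure_mono sdiff_subset)))).trans (measureReal_union_le _ _)
      rw [measureReal_sdiff hsub measurableSet_ball measure_ball_lt_top.ne] at this
      linarith
    simp only [g, g', dens]
    rw [one_sub_div hp.ne', one_sub_div hpb.ne']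
    have h3 : volume.real (ball b.1 b.2) ≤ 8 ^ d * volume.real (ball z (r / 4)) := by
      rw [ball_real z (by positivity : 0 < r / 4), ball_real b.1 hρ, ← mul_assoc, ← mul_pow]
      exact mul_le_mul_of_nonneg_right (pow_le_pow_left₀ hρ.le (by linarith [hb.2.2]) d)
        measureReal_nonneg
    rw [mul_div_assoc', div_le_div_iff₀ hp hpb]
    have h4 : 0 ≤ volume.real (ball z (r / 4)) - volume.real (lev f μ ∩ ball z (r / 4)) :=
      sub_nonneg.2 (measureReal_mono inter_subset_right measure_ball_lt_top.ne)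
    nlinarith [mul_le_mul_of_nonneg_left h3 h4,
      mul_le_mul_of_nonneg_right h1 (mul_nonneg (by positivity : (0:ℝ) ≤ 8 ^ d) hp.le)]
  have hone : ∀ h : ℝ → ℝ, Measurable h → (∀ μ, 0 ≤ h μ) → (∀ μ, h μ ≤ 1) →
      (∫⁻ μ in Ioc 0 l, ENNReal.ofReal (h μ)) + ∫⁻ μ in Ioc 0 l, ENNReal.ofReal (1 - h μ)
        = ENNReal.ofReal l := by
    intro h hm h0 h1
    rw [← lintegral_add_left hm.ennreal_ofReal]
    have : ∀ μ, ENNReal.ofReal (h μ) + ENNReal.ofReal (1 - h μ) = 1 := fun μ => by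
      rw [← ENNReal.ofReal_add (h0 μ) (by linarith [h1 μ]), add_sub_cancel, ENNReal.ofReal_one]
    simp only [this]
    rw [setLIntegral_one, Real.volume_Ioc, sub_zero]
  have hsplit : ∀ h : ℝ → ℝ≥0∞, ∫⁻ μ in Ioi 0, h μ
      = (∫⁻ μ in Ioc 0 l, h μ) + ∫⁻ μ in Ioi l, h μ := fun h => by
    rw [← Ioc_union_Ioi_eq_Ioi hl.le, lintegral_union measurableSet_Ioi (Ioc_disjoint_Ioi le_rfl)]
  have hbelow : ∫⁻ μ in Ioc 0 l, ENNReal.ofReal (1 - g μ) ≤ X := by
    have h1 := hact
    rw [avgF, hsplit, ← hone g hg (fun μ => dens_nonneg _ _ _) (fun μ => dens_le_one _ _ _)] at h1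
    have hne : ∫⁻ μ in Ioc 0 l, ENNReal.ofReal (g μ) ≠ ⊤ := by
      refine ne_top_of_le_ne_top ENNReal.ofReal_ne_top
        (le_of_le_of_eq le_self_add (hone g hg (fun μ => dens_nonneg _ _ _) fun μ => dens_le_one _ _ _))
    exact ((ENNReal.add_le_add_iff_left hne).1 h1.le).trans habove
  constructor
  · rw [← hone g' hg' (fun μ => dens_nonneg _ _ _) (fun μ => dens_le_one _ _ _)]
    refine add_le_add (lintegral_mono_set Ioc_subset_Ioi_self) (le_trans ?_
      (mul_le_mul' le_rfl hbelow))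
    rw [← lintegral_const_mul' _ _ ENNReal.ofReal_ne_top]
    refine lintegral_mono fun μ => ?_
    rw [← ENNReal.ofReal_mul (by positivity)]
    exact ENNReal.ofReal_le_ofReal (hup' μ)
  · rw [avgF, hsplit]
    refine add_le_add (le_of_le_of_eq le_self_add
      (hone g' hg' (fun μ => dens_nonneg _ _ _) fun μ => dens_le_one _ _ _)) (le_trans ?_
      (mul_le_mul' le_rfl habove))
    rw [← lintegral_const_mul' _ _ ENNReal.ofReal_ne_top]
    refine lintegral_mono fun μ => ?_
    rw [← ENNReal.ofReal_mul (by positivity)]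
    exact ENNReal.ofReal_le_ofReal (hup μ)

/-- **The stuck levels at one place and scale have small total length.** -/
theorem stuck_length (d : ℕ) (hd : 0 < d) :
    ∃ (N : Finset (Eu d)) (L θ : ℝ) (C : ℝ≥0∞), (∀ e ∈ N, ‖e‖ = 1) ∧ 0 < L ∧ 0 < θ ∧
      θ ≤ gain d ∧ C ≠ ⊤ ∧ ∀ (f : Eu d → ℝ), Measurable f →
      (∀ b : Eu d × ℝ, 0 < b.2 → avgF f b ≠ ⊤) → ∀ (z : Eu d) (r : ℝ), 0 < r →
        volume {l : ℝ | 0 < l ∧ ∃ b, NearBall z r b ∧ Stuck f θ N b l} ≤ C * levDefect f z r L := by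
  obtain ⟨N, L, θ, δ, K, hN, hL, hθ, hθg, hδ, hK, hplace⟩ := place_facts d hd
  set g := gain d
  have hg : 0 < g := gain_pos d
  set K2 := K + K / g
  set K3 := (8 : ℝ) ^ d * K
  refine ⟨N, L, θ, ENNReal.ofReal δ⁻¹ + ENNReal.ofReal (4 * K2) + ENNReal.ofReal (2 * K3), hN, hL,
    hθ, hθg, by finiteness, fun f hf hfin z r hr => ?_⟩
  set D := levDefect f z r L with hD
  rcases eq_or_ne D ⊤ with hDt | hDt
  · rw [hDt, ENNReal.mul_top]
    · exact le_top
    · simp only [ne_eq, add_eq_zero, ENNReal.ofReal_eq_zero, not_and, not_le]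
      intro h
      exact absurd h.1 (not_le.2 (inv_pos.2 hδ))
  obtain ⟨e, he, hineq, hfar⟩ := hplace f hf z r hr
  set X := D.toReal with hX
  have hX0 : 0 ≤ X := ENNReal.toReal_nonneg
  have hDX : D = ENNReal.ofReal X := (ENNReal.ofReal_toReal hDt).symm
  set F := fun b => (avgF f b).toReal with hF
  have hs : ∀ b, NearBall z r b → 0 < (succBall e b).2 := fun b hb => by
    have := hb.2.1
    simp only [succBall]
    linarith
  have hsum : ∀ b b1, NearBall z r b → NearBall z r b1 →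
      F b + g * F b1 ≤ F (succBall e b) + g * F b + K * X := by
    intro b b1 hb hb1
    have hb0 : 0 < b.2 := hr.trans_le hb.2.1
    have hb10 : 0 < b1.2 := hr.trans_le hb1.2.1
    have h : avgF f b + ENNReal.ofReal g * avgF f b1 ≤ avgF f (succBall e b)
        + ENNReal.ofReal g * avgF f b + ENNReal.ofReal K * D := by
      simp only [avgF, hD, levDefect, ← lintegral_const_mul' _ _ ENNReal.ofReal_ne_top]
      rw [← lintegral_add_left (measurable_dens_lev f _ _).ennreal_ofReal,
        ← lintegral_add_left (measurable_dens_lev f _ _).ennreal_ofReal,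
        ← lintegral_add_left]
      swap
      · exact (measurable_dens_lev f _ _).ennreal_ofReal.add
          ((measurable_dens_lev f _ _).ennreal_ofReal.const_mul _)
      refine lintegral_mono fun μ => ?_
      simp only [← ENNReal.ofReal_mul hg.le, ← ENNReal.ofReal_mul hK]
      rw [← ENNReal.ofReal_add (dens_nonneg _ _ _) (mul_nonneg hg.le (dens_nonneg _ _ _)),
        ← ENNReal.ofReal_add (dens_nonneg _ _ _) (mul_nonneg hg.le (dens_nonneg _ _ _)),
        ← ENNReal.ofReal_add (add_nonneg (dens_nonneg _ _ _) (mul_nonneg hg.le (dens_nonneg _ _ _)))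
          (mul_nonneg hK (div_nonneg (wdef_nonneg _ _ _) (by positivity)))]
      exact ENNReal.ofReal_le_ofReal (hineq μ b b1 hb hb1)
    rw [hDX] at h
    have h2 := toReal_avg_le hK hX0 (ENNReal.add_ne_top.2 ⟨hfin _ (hs b hb),
      ENNReal.mul_ne_top ENNReal.ofReal_ne_top (hfin _ hb0)⟩) h
    rwa [ENNReal.toReal_add (hfin _ hb0) (ENNReal.mul_ne_top ENNReal.ofReal_ne_top (hfin _ hb10)),
      ENNReal.toReal_add (hfin _ (hs b hb)) (ENNReal.mul_ne_top ENNReal.ofReal_ne_top (hfin _ hb0)),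
      ENNReal.toReal_mul, ENNReal.toReal_mul, ENNReal.toReal_ofReal hg.le] at h2
  set S1 := {l : ℝ | 0 < l ∧ ∃ b, NearBall z r b ∧ F (succBall e b) ≤ l ∧ l < F b}
  set c := F (z, r / 4)
  have hcover : {l : ℝ | 0 < l ∧ ∃ b, NearBall z r b ∧ Stuck f θ N b l}
      ⊆ (({μ : ℝ | δ * r ^ (2 * d) < wdef (lev f μ) z (L * r)} ∩ Ioi 0) ∪ S1)
        ∪ Icc (c - K3 * X) (c + K3 * X) := by
    rintro l ⟨hl, b, hb, hact, hsucc⟩
    by_cases hbad : δ * r ^ (2 * d) < wdef (lev f l) z (L * r)
    · exact Or.inl (Or.inl ⟨hbad, hl⟩)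
    have hb0 : 0 < b.2 := hr.trans_le hb.2.1
    rcases hfar l b (not_lt.1 hbad) hb with hdense | hempty
    · refine Or.inl (Or.inr ⟨hl, b, hb, ?_, ?_⟩)
      · have h1 : avgF f (succBall e b) ≤ ENNReal.ofReal l :=
          not_lt.1 fun hlt => absurd hdense (not_le.2 (hsucc e he hlt))
        exact ENNReal.toReal_le_of_le_ofReal hl.le h1
      · rw [hF]
        exact (ENNReal.ofReal_lt_iff_lt_toReal hl.le (hfin b hb0)).1 hact
    · refine Or.inr ?_
      have habove : ∫⁻ μ in Ioi l, ENNReal.ofReal (dens (lev f μ) b.1 b.2)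
          ≤ ENNReal.ofReal K * D := by
        rw [hD, levDefect, ← lintegral_const_mul' _ _ ENNReal.ofReal_ne_top]
        refine (setLIntegral_mono' measurableSet_Ioi fun μ hμ => ?_).trans
          (lintegral_mono_set (Ioi_subset_Ioi hl.le))
        rw [← ENNReal.ofReal_mul hK]
        exact ENNReal.ofReal_le_ofReal (hempty μ (le_of_lt hμ))
      obtain ⟨h1, h2⟩ := core_avg hr hb hl hact habove
      rw [hDX, ← mul_assoc, ← ENNReal.ofReal_mul (by positivity)] at h1 h2
      have hz : avgF f (z, r / 4) ≠ ⊤ := hfin _ (by positivity)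
      have e1 := toReal_avg_le (by positivity) hX0 hz h1
      have e2 := toReal_avg_le (by positivity) hX0 ENNReal.ofReal_ne_top h2
      rw [ENNReal.toReal_ofReal hl.le] at e1 e2
      exact ⟨by linarith, by linarith⟩
  have hS1 : volume S1 ≤ ENNReal.ofReal (4 * K2) * D := by
    rcases eq_empty_or_nonempty S1 with h0 | ⟨l0, hl0⟩
    · rw [h0, measure_empty]; exact zero_le
    refine (measure_mono (t := Icc (l0 - 2 * K2 * X) (l0 + 2 * K2 * X)) fun l hl => ?_).trans ?_
    · obtain ⟨-, b, hb, hb1, hb2⟩ := hl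
      obtain ⟨-, b', hb', hb1', hb2'⟩ := hl0
      have hgX : ∀ u v : Eu d × ℝ, NearBall z r u → NearBall z r v → F (succBall e u) < F u →
          F v - F u ≤ K / g * X := by
        intro u v hu hv hlt
        have h := hsum u v hu hv
        rw [div_mul_eq_mul_div, le_div_iff₀ hg]
        linarith
      have a1 := hgX b b' hb hb' (lt_of_le_of_lt hb1 hb2)
      have a2 := hgX b' b hb' hb (lt_of_le_of_lt hb1' hb2')
      have a3 := hsum b b hb hb
      have a4 := hsum b' b' hb' hb'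
      have a5 : 0 ≤ K / g * X := by positivity
      have a6 : 0 ≤ K * X := by positivity
      exact ⟨by nlinarith, by nlinarith⟩
    · rw [Real.volume_Icc, hDX, ← ENNReal.ofReal_mul (by positivity)]
      exact ENNReal.ofReal_le_ofReal (by linarith)
  refine (measure_mono hcover).trans ((measure_union_le _ _).trans ?_)
  rw [add_mul, add_mul]
  refine add_le_add ((measure_union_le _ _).trans (add_le_add (volume_bad_le hf z hr hδ) hS1)) ?_
  rw [Real.volume_Icc, hDX, ← ENNReal.ofReal_mul (by positivity)]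
  exact ENNReal.ofReal_le_ofReal (by linarith)

end

end Vale.Agent.P137
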