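import Vale.Agent.P137.Unc.Limit

/-!
# P137: the variation bound in terms of the standard definitions
-/

namespace Vale.Agent.P137

open MeasureTheory Set Metric Filter
open scoped ENNReal NNReal Topology RealInnerProductSpace

noncomputable section

variable {d : ℕ}

/-- The measurable nonnegative representative used for the maximal function. -/
theorem abs_rep {f : Eu d → ℝ} (hf : Integrable f) :
    ∃ g : Eu d → ℝ, Measurable g ∧ (∀ x, 0 ≤ g x) ∧ (∀ᵐ x : Eu d, g x = |f x|) ∧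
      ∫⁻ y, ENNReal.ofReal (g y) ≠ ⊤ ∧
      (∀ v : Eu d, ∀ A : Set (Eu d),
        ∫⁻ y in A, ‖g (y + v) - g y‖ₑ ≤ ∫⁻ y in A, ‖f (y + v) - f y‖ₑ) ∧
      ∀ x, uncentredMax f x = maxFun g x := by
  set g : Eu d → ℝ := fun x => |hf.1.mk f x|
  have hg : Measurable g := hf.1.stronglyMeasurable_mk.measurable.abs
  have hae : ∀ᵐ x : Eu d, g x = |f x| := by
    filter_upwards [hf.1.ae_eq_mk] with x hx
    simp only [g, ← hx]
  have henorm : ∀ᵐ x : Eu d, ‖f x‖ₑ = ENNReal.ofReal (g x) := by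
    filter_upwards [hae] with x hx
    rw [hx, Real.enorm_eq_ofReal_abs]
  refine ⟨g, hg, fun x => abs_nonneg _, hae, ?_, fun v A => ?_, fun x => ?_⟩
  · rw [← lintegral_congr_ae henorm]
    exact hf.2.ne
  · have hv : ∀ᵐ y : Eu d, g (y + v) = |f (y + v)| :=
      (measurePreserving_add_right volume v).quasiMeasurePreserving.ae hae
    refine lintegral_mono_ae (ae_restrict_of_ae ?_)
    filter_upwards [hae, hv] with y h1 h2
    rw [h1, h2, Real.enorm_eq_ofReal_abs, Real.enorm_eq_ofReal_abs]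
    exact ENNReal.ofReal_le_ofReal (abs_abs_sub_abs_le _ _)
  · rw [uncentredMax, maxFun]
    congr 1
    have havg : ∀ b : Eu d × ℝ, 0 < b.2 →
        (∫⁻ y in ball b.1 b.2, ‖f y‖ₑ) / volume (ball b.1 b.2) = avgF g b := fun b hb => by
      rw [avgF_eq hg (fun x => abs_nonneg _) hb, lintegral_congr_ae (ae_restrict_of_ae henorm)]
    refine le_antisymm (iSup_le fun c => iSup₂_le fun r hx => ?_) (iSup₂_le fun b hb => ?_)
    · have hr : 0 < r := nonempty_ball.1 ⟨x, hx⟩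
      rw [havg (c, r) hr]
      exact le_iSup₂_of_le (c, r) ⟨hr, hx⟩ le_rfl
    · rw [← havg b hb.1]
      exact le_iSup_of_le b.1 (le_iSup₂_of_le b.2 hb.2 le_rfl)

/-- **Functions of bounded variation have uncentred maximal functions of bounded variation.** -/
theorem uncentred_variation (d : ℕ) (hd : 0 < d) :
    ∃ C : ℝ≥0∞, C ≠ ⊤ ∧ ∀ (f : Eu d → ℝ) (P : ℝ≥0∞), Integrable f → P ≠ ⊤ →
      (∀ h : Eu d, ∫⁻ x, ‖f (x + h) - f x‖ₑ ≤ P * ‖h‖ₑ) →
      LocallyIntegrable (uncentredMax f) ∧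
      ∀ h : Eu d, ∫⁻ x, ‖uncentredMax f (x + h) - uncentredMax f x‖ₑ ≤ C * P * ‖h‖ₑ := by
  obtain ⟨N, θ, L, W, C, -, -, hC, hbv⟩ := uncentred_bv d hd
  refine ⟨C, hC, fun f P hf hP hPf => ?_⟩
  obtain ⟨g, hg, hg0, -, hgi, hgv, hmax⟩ := abs_rep hf
  have e : uncentredMax f = maxFun g := funext hmax
  obtain ⟨h1, -, h3, -⟩ := hbv g hg hg0 hgi P hP fun v => by
    have h := hgv v univ
    rw [setLIntegral_univ, setLIntegral_univ] at h
    exact h.trans (hPf v)
  rw [e]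
  exact ⟨h1, h3⟩

end

end Vale.Agent.P137
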